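import Vale.Agent.P254.Skew.Kernel

/-! # Facts about the two conditional laws -/

namespace Vale.P254.Skew

open MeasureTheory Filter Topology Matrix
open scoped RealInnerProductSpace

variable {k : ℕ} {V : E k → ℝ} {B : E k →L[ℝ] E k →L[ℝ] ℝ} {ε Λ s : ℝ}

/-- The matrix of `B`. -/
noncomputable def Bm (B : E k →L[ℝ] E k →L[ℝ] ℝ) : Mat k :=
  Matrix.of fun i j => B (bv i) (bv j)

/-- Rank-one matrix. -/
def sq1 (v : Fin k → ℝ) : Mat k := Matrix.of fun i j => v i * v j


theorem Pinched.ex_abs_le {W : E k → ℝ} {a b : ℝ} (h : Pinched W a b) {f : E k → ℝ}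
    (hf : Tame f) : |ex W f| ≤ ex W fun x => |f x| := by
  rw [abs_le, ← ex_neg]
  exact ⟨h.ex_mono hf.norm.neg hf fun x => neg_abs_le _,
    h.ex_mono hf hf.norm fun x => le_abs_self _⟩

theorem Pinched.sq_ex_mul_le {W : E k → ℝ} {a b : ℝ} (h : Pinched W a b) {f g : E k → ℝ}
    (hf : Tame f) (hg : Tame g) :
    ex W (fun x => f x * g x) ^ 2 ≤ ex W (fun x => f x ^ 2) * ex W (fun x => g x ^ 2) := by
  have key : ∀ t : ℝ, 0 ≤ ex W (fun x => g x ^ 2) * (t * t)
      + 2 * ex W (fun x => f x * g x) * t + ex W (fun x => f x ^ 2) := fun t => by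
    have h0 := h.ex_nonneg (f := fun x => (f x + t * g x) ^ 2) fun x => sq_nonneg _
    have e : ∀ x, (f x + t * g x) ^ 2
        = f x ^ 2 + ((2 * t) * (f x * g x) + (t * t) * g x ^ 2) := fun x => by ring
    rw [ex_congr e, h.ex_add (hf.pow 2) (((hf.mul hg).const_mul _).add ((hg.pow 2).const_mul _)),
      h.ex_add ((hf.mul hg).const_mul _) ((hg.pow 2).const_mul _), ex_const_mul, ex_const_mul]
      at h0
    linarith
  have := discrim_le_zero key
  simp only [discrim] at this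
  nlinarith

theorem Pinched.ex_centred {W : E k → ℝ} {a b : ℝ} (h : Pinched W a b) {f : E k → ℝ}
    (hf : Tame f) : ex W (fun x => f x - ex W f) = 0 := by
  rw [h.ex_sub hf (Tame.const _), h.ex_const, sub_self]

theorem Pinched.ex_cov {W : E k → ℝ} {a b : ℝ} (h : Pinched W a b) {f g : E k → ℝ}
    (hf : Tame f) (hg : Tame g) :
    ex W (fun x => (f x - ex W f) * (g x - ex W g))
      = ex W (fun x => f x * g x) - ex W f * ex W g := by
  have e : ∀ x, (f x - ex W f) * (g x - ex W g)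
      = f x * g x - (f x * ex W g + ex W f * (g x - ex W g)) := fun x => by ring
  rw [ex_congr e, h.ex_sub (hf.mul hg) ((hf.mul (Tame.const _)).add
      ((hg.sub (Tame.const _)).const_mul _)),
    h.ex_add (hf.mul (Tame.const _)) ((hg.sub (Tame.const _)).const_mul _), ex_const_mul,
    h.ex_centred hg, ex_mul_const, mul_zero, add_zero]

theorem Sand.weaken {A : Mat k} {a b a' b' : ℝ} (h : Sand A a b) (ha : 0 < a') (ha' : a' ≤ a)
    (hb : b ≤ b') : Sand A a' b' :=
  ⟨h.symm, ha, h.pos'.trans_le hb, fun v =>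
    (mul_le_mul_of_nonneg_right ha' (dotProduct_self_star_nonneg v)).trans (h.lower v),
    fun v => (h.upper v).trans (mul_le_mul_of_nonneg_right hb (dotProduct_self_star_nonneg v))⟩

namespace Ctx

variable (c : Ctx V B ε Λ s)

/-- The Hessian of `ψ`. -/
noncomputable def h (y : E k) : Mat k := Hs c.soft.ψ y

/-- The Hessian of `φ`. -/
noncomputable def g (x : E k) : Mat k := Hs c.soft.φ x

/-- The inverse of `g`. -/
noncomputable def G (x : E k) : Mat k := (c.g x)⁻¹

/-- The mean of `h` given `x`. -/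
noncomputable def H (x : E k) : Mat k := Matrix.of fun i j => c.Ex x fun y => c.h y i j

/-- The derivative of `H`. -/
noncomputable def dH (x : E k) : Ten k :=
  fun a i j => fderiv ℝ (fun z => c.H z i j) x (bv a)

/-- The defect. -/
noncomputable def del (x : E k) : Mat k := (1 + s) • c.H x - c.G x

/-- The inverse of `g + s B`. -/
noncomputable def Γ (x : E k) : Mat k := (c.g x + s • Bm B)⁻¹

/-- `y` centred given `x`. -/
noncomputable def η (x y : E k) : Fin k → ℝ := fun i => y i - c.Ex x fun y => y i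

/-- `x` centred given `y`. -/
noncomputable def ξ (y x : E k) : Fin k → ℝ := fun i => x i - c.Ey y fun x => x i

/-- The gradient of the potential of `y` given `x`. -/
noncomputable def dU (x y : E k) : Fin k → ℝ :=
  fun i => fderiv ℝ (Skew.tilt c.U0 (s⁻¹ • x)) y (bv i)

/-- The gradient of the potential of `x` given `y`. -/
noncomputable def dW (y x : E k) : Fin k → ℝ :=
  fun i => fderiv ℝ (Skew.tilt c.W0 (s⁻¹ • y)) x (bv i)

/-- The conditional variance of `h` given `x`. -/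
noncomputable def vh (x : E k) : ℝ :=
  ∑ i, ∑ j, c.Ex x fun y => (c.h y i j - c.H x i j) ^ 2

/-- The second moment of `h`. -/
noncomputable def Mh : ℝ := ∑ i, ∑ j, ex c.soft.ψ fun y => c.h y i j ^ 2

/-- The expectation under the joint law. -/
noncomputable def EE (F : E k → E k → ℝ) : ℝ := ex V fun x => c.Ex x (F x)

/-! ### Bounds -/

theorem hl (c : Ctx V B ε Λ s) : 0 < 1 / (2 * Λ) := by have := c.hΛ; positivity

theorem hu (c : Ctx V B ε Λ s) : 0 < 2 / ε := by have := c.hε; positivity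

theorem sand_h (y : E k) : Sand (c.h y) (1 / (2 * Λ)) (2 / ε) := by
  have hs := c.hs
  have hs1 := c.hs1
  have hε := c.hε
  have hΛ := c.hΛ
  refine (c.soft.pinψ.sand (by positivity) y).weaken c.hl ?_ ?_
  · exact one_div_le_one_div_of_le (by positivity) (by nlinarith)
  · rw [div_le_div_iff₀ (by positivity) hε]
    nlinarith

theorem sand_g (x : E k) : Sand (c.g x) ε Λ := c.soft.pinφ.sand c.hΛ x

theorem psd_Bm (c : Ctx V B ε Λ s) : Psd (Bm B) := by
  refine ⟨Matrix.ext fun i j => c.hyp.Bsymm _ _, fun v => ?_⟩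
  have e : v ⬝ᵥ Bm B *ᵥ v = B (pt v) (pt v) := by
    simp only [pt, map_sum, map_smul, ContinuousLinearMap.coe_sum', Finset.sum_apply,
      ContinuousLinearMap.smul_apply, smul_eq_mul, dotProduct, Matrix.mulVec, Bm,
      Matrix.of_apply, Finset.mul_sum]
    rw [Finset.sum_comm]
    exact Finset.sum_congr rfl fun i _ => Finset.sum_congr rfl fun j _ => by ring
  rw [e]
  exact c.hyp.Bnonneg _


theorem sand_gB (x : E k) : Sand (c.g x + s • Bm B) ε (2 * Λ) := by
  have hg := c.sand_g x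
  have hB := c.psd_Bm
  refine ⟨by rw [Matrix.transpose_add, Matrix.transpose_smul, hg.symm, hB.1], c.hε,
    by linarith [c.hΛ], fun v => ?_, fun v => ?_⟩
  · rw [Matrix.add_mulVec, dotProduct_add, Matrix.smul_mulVec, dotProduct_smul, smul_eq_mul]
    nlinarith [hg.lower v, mul_nonneg c.hs.le (hB.2 v)]
  · rw [Matrix.add_mulVec, dotProduct_add, Matrix.smul_mulVec, dotProduct_smul, smul_eq_mul]
    have e : v ⬝ᵥ Bm B *ᵥ v = B (pt v) (pt v) := by
      simp only [pt, map_sum, map_smul, ContinuousLinearMap.coe_sum', Finset.sum_apply,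
        ContinuousLinearMap.smul_apply, smul_eq_mul, dotProduct, Matrix.mulVec, Bm,
        Matrix.of_apply, Finset.mul_sum]
      rw [Finset.sum_comm]
      exact Finset.sum_congr rfl fun i _ => Finset.sum_congr rfl fun j _ => by ring
    have h1 := (c.hyp.Ble 0 (pt v)).trans (c.hyp.pin.upper 0 (pt v))
    rw [norm_pt_sq, ← e] at h1
    nlinarith [hg.upper v, mul_le_mul_of_nonneg_right c.hs1 (hB.2 v)]

theorem sand_G (x : E k) : Sand (c.G x) (1 / (2 * Λ)) (2 / ε) := by
  have hε := c.hε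
  have hΛ := c.hΛ
  exact (c.sand_g x).inv.weaken c.hl (one_div_le_one_div_of_le hΛ (by linarith))
    (div_le_div_of_nonneg_right one_le_two hε.le)

theorem sand_Γ (x : E k) : Sand (c.Γ x) (1 / (2 * Λ)) (2 / ε) := by
  have hε := c.hε
  exact (c.sand_gB x).inv.weaken c.hl le_rfl (div_le_div_of_nonneg_right one_le_two hε.le)

theorem tame_h (i j : Fin k) : Tame fun y => c.h y i j := c.soft.pinψ.tame_D2 (bv i) (bv j)


theorem sand_H (x : E k) : Sand (c.H x) (1 / (2 * Λ)) (2 / ε) := by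
  have hp := c.pinU' x
  have e : ∀ v : Fin k → ℝ, v ⬝ᵥ c.H x *ᵥ v = c.Ex x fun y => v ⬝ᵥ c.h y *ᵥ v := fun v => by
    simp only [dotProduct, Matrix.mulVec, H, Matrix.of_apply, Ex, Finset.mul_sum]
    rw [hp.ex_sum _ fun i _ => Tame.sum _ fun j _ => ((c.tame_h i j).mul (Tame.const _)).const_mul _]
    refine Finset.sum_congr rfl fun i _ => ?_
    rw [hp.ex_sum _ fun j _ => ((c.tame_h i j).mul (Tame.const _)).const_mul _]
    exact Finset.sum_congr rfl fun j _ => by rw [ex_const_mul, ex_mul_const]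
  have ht : ∀ v : Fin k → ℝ, Tame fun y => v ⬝ᵥ c.h y *ᵥ v := fun v => by
    simp only [dotProduct, Matrix.mulVec, Finset.mul_sum]
    exact Tame.sum _ fun i _ => Tame.sum _ fun j _ =>
      ((c.tame_h i j).mul (Tame.const _)).const_mul _
  refine ⟨Matrix.ext fun i j => ?_, c.hl, c.hu, fun v => ?_, fun v => ?_⟩
  · simp only [Matrix.transpose_apply, H, Matrix.of_apply, Ex]
    exact ex_congr fun y => D2_symm c.soft.pinψ y _ _
  · rw [e, ← hp.ex_const (1 / (2 * Λ) * (v ⬝ᵥ v))]
    exact hp.ex_mono (Tame.const _) (ht v) fun y => (c.sand_h y).lower v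
  · rw [e, ← hp.ex_const (2 / ε * (v ⬝ᵥ v))]
    exact hp.ex_mono (ht v) (Tame.const _) fun y => (c.sand_h y).upper v

/-- The gradient of the potential of `x` given `y`, split. -/
theorem dW_eq (y x : E k) (i : Fin k) :
    c.dW y x i = fderiv ℝ V x (bv i) - s⁻¹ * c.η x y i := by
  have hφ : HasFDerivAt c.soft.φ (fderiv ℝ c.soft.φ x) x :=
    (c.soft.pinφ.differentiable x).hasFDerivAt
  have hW : fderiv ℝ c.W0 x = fderiv ℝ V x + s⁻¹ • fderiv ℝ c.soft.φ x :=
    ((c.hyp.pin.differentiable x).hasFDerivAt.add (hφ.const_mul s⁻¹)).fderiv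
  simp only [dW, η]
  rw [fderiv_tilt c.pinW, hW]
  simp only [ContinuousLinearMap.sub_apply, ContinuousLinearMap.add_apply,
    ContinuousLinearMap.smul_apply, innerSL_apply_apply, c.fderiv_φ, inner_bv, smul_eq_mul,
    PiLp.smul_apply]
  ring

/-- The Hessian of the potential of `y` given `x`. -/
theorem D2_U (x y : E k) (i j : Fin k) :
    D2 (Skew.tilt c.U0 (s⁻¹ • x)) y (bv i) (bv j) = (1 + s) / s * c.h y i j := by
  have e : ∀ z, Skew.tilt c.U0 (s⁻¹ • x) z = c.U0 z - ⟪s⁻¹ • x, z⟫ := fun z => rfl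
  have h1 : fderiv ℝ (Skew.tilt c.U0 (s⁻¹ • x))
      = fun z => fderiv ℝ c.U0 z - innerSL ℝ (s⁻¹ • x) :=
    funext (fderiv_tilt c.pinU (s⁻¹ • x))
  rw [D2, h1, fderiv_sub_const]
  exact D2_const_mul c.soft.pinψ.smooth _ y _ _

/-- Lower bound for the Hessian of the potential of `x` given `y`. -/
theorem D2_W_ge (y x : E k) (v : Fin k → ℝ) :
    s⁻¹ * (v ⬝ᵥ (c.g x + s • Bm B) *ᵥ v) ≤ D2 (Skew.tilt c.W0 (s⁻¹ • y)) x (pt v) (pt v) :=
  by
  have h1 : fderiv ℝ (Skew.tilt c.W0 (s⁻¹ • y))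
      = fun z => fderiv ℝ c.W0 z - innerSL ℝ (s⁻¹ • y) :=
    funext (fderiv_tilt c.pinW (s⁻¹ • y))
  have h2 : D2 (Skew.tilt c.W0 (s⁻¹ • y)) x (pt v) (pt v)
      = D2 V x (pt v) (pt v) + s⁻¹ * D2 c.soft.φ x (pt v) (pt v) := by
    rw [D2, h1, fderiv_sub_const]
    show D2 c.W0 x (pt v) (pt v) = _
    unfold W0
    rw [D2_add c.hyp.pin.smooth (contDiff_const.mul c.soft.pinφ.smooth),
      D2_const_mul c.soft.pinφ.smooth]
  have e : v ⬝ᵥ Bm B *ᵥ v = B (pt v) (pt v) := by
    simp only [pt, map_sum, map_smul, ContinuousLinearMap.coe_sum', Finset.sum_apply,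
      ContinuousLinearMap.smul_apply, smul_eq_mul, dotProduct, Matrix.mulVec, Bm,
      Matrix.of_apply, Finset.mul_sum]
    rw [Finset.sum_comm]
    exact Finset.sum_congr rfl fun i _ => Finset.sum_congr rfl fun j _ => by ring
  rw [h2, Matrix.add_mulVec, dotProduct_add, Matrix.smul_mulVec, dotProduct_smul, smul_eq_mul,
    mul_add, ← mul_assoc, inv_mul_cancel₀ c.hs.ne', one_mul, e, D2_pt c.soft.φ]
  show s⁻¹ * (v ⬝ᵥ c.g x *ᵥ v) + B (pt v) (pt v) ≤ _
  have := c.hyp.Ble x (pt v)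
  simp only [g]
  linarith

/-! ### Tameness -/

theorem contDiff_h (i j : Fin k) : ContDiff ℝ 1 fun y => c.h y i j := by
  have h3 : ContDiff ℝ 3 c.soft.ψ := c.contDiff_ψ 3
  exact (((h3.fderiv_right (m := 2) (by norm_num)).fderiv_right (m := 1)
    (by norm_num)).clm_apply contDiff_const).clm_apply contDiff_const

theorem tame_G (i j : Fin k) : Tame fun x => c.G x i j := Tame.bounded
  ((continuous_inv_of_sand (continuous_matrix fun i j => (c.soft.pinφ.tame_D2 (bv i) (bv j)).1)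
    c.sand_g).matrix_elem i j) fun x => (Real.norm_eq_abs _).trans_le ((c.sand_G x).abs_entry i j)

theorem tame_Γ (i j : Fin k) : Tame fun x => c.Γ x i j := Tame.bounded
  ((continuous_inv_of_sand ((continuous_matrix fun i j => (c.soft.pinφ.tame_D2 (bv i) (bv j)).1).add
    continuous_const) c.sand_gB).matrix_elem i j)
    fun x => (Real.norm_eq_abs _).trans_le ((c.sand_Γ x).abs_entry i j)

theorem contDiff_H (i j : Fin k) : ContDiff ℝ 1 fun x => c.H x i j := c.contDiff_Ex (c.tame_h i j) 1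

theorem tame_H (i j : Fin k) : Tame fun x => c.H x i j := c.tame_Ex (c.tame_h i j).tame2_right

theorem tame_dH (a i j : Fin k) : Tame fun x => c.dH x a i j := by
  have e : (fun x => c.dH x a i j) = fun x => s⁻¹ * (c.Ex x (fun y => y a * c.h y i j)
      - c.Ex x (fun y => y a) * c.Ex x fun y => c.h y i j) := by
    funext x
    have := c.fderiv_Ex (c.tame_h i j) x (bv a)
    simp only [inner_bv] at this
    rw [← this, ← mul_assoc, inv_mul_cancel₀ c.hs.ne', one_mul]
    rfl
  rw [e]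
  exact ((c.tame_Ex ((tame_coord a).mul (c.tame_h i j)).tame2_right).sub
    ((c.tame_Ex (tame_coord a).tame2_right).mul (c.tame_H i j))).const_mul _

theorem tame2_η (i : Fin k) : Tame2 fun x y => c.η x y i := (tame_coord i).tame2_right.sub (c.tame_Ex (tame_coord i).tame2_right).tame2_left

theorem tame2_ξ (i : Fin k) : Tame2 fun x y => c.ξ y x i := (tame_coord i).tame2_left.sub (c.tame_Ey (tame_coord i).tame2_left).tame2_right

theorem tame2_dU (i : Fin k) : Tame2 fun x y => c.dU x y i := by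
  have e : (fun x y => c.dU x y i) = fun x y => fderiv ℝ c.U0 y (bv i) - s⁻¹ * x i := by
    funext x y
    simp only [dU]
    rw [fderiv_tilt c.pinU]
    simp [innerSL_apply_apply]
  rw [e]
  exact (c.pinU.tame_fderiv_apply _).tame2_right.sub ((tame_coord i).const_mul _).tame2_left

theorem tame2_dW (i : Fin k) : Tame2 fun x y => c.dW y x i := by
  simp only [c.dW_eq]
  exact (c.hyp.pin.tame_fderiv_apply _).tame2_left.sub ((Tame2.const _).mul (c.tame2_η i))

theorem tame_cX_h (C : Ten k) (i j l : Fin k) : Tame fun y => cX (c.h y) C i j l := Tame.bounded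
  (Sand.continuous_cX (continuous_matrix fun i j => (c.tame_h i j).1) c.sand_h C i j l)
    fun y => (Real.norm_eq_abs _).trans_le ((c.sand_h y).abs_cX_le C i j l)

theorem tame_cX_H (C : Ten k) (i j l : Fin k) : Tame fun x => cX (c.H x) C i j l := Tame.bounded
  (Sand.continuous_cX (continuous_matrix fun i j => (c.tame_H i j).1) c.sand_H C i j l)
    fun x => (Real.norm_eq_abs _).trans_le ((c.sand_H x).abs_cX_le C i j l)

/-! ### Given `y` -/

theorem ibp_W (y : E k) {f : E k → ℝ} (hf : ContDiff ℝ 1 f) (hft : Tame f) (i : Fin k)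
    (hd : Tame fun x => fderiv ℝ f x (bv i)) :
    c.Ey y (fun x => f x * c.dW y x i) = c.Ey y fun x => fderiv ℝ f x (bv i) := (c.pinW' y).ibp hf hft (bv i) hd

theorem Ey_ξ (y : E k) (i : Fin k) : c.Ey y (fun x => c.ξ y x i) = 0 := (c.pinW' y).ex_centred (tame_coord i)

theorem Ey_dW (y : E k) (i : Fin k) : c.Ey y (fun x => c.dW y x i) = 0 := by
  have := c.ibp_W y (f := fun _ => (1 : ℝ)) contDiff_const (Tame.const _) i
    (by simpa using Tame.const (k := k) (0 : ℝ))
  simpa [Ey, (c.pinW' y).ex_const] using this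

theorem Ey_ξ_dW (y : E k) (i j : Fin k) :
    c.Ey y (fun x => c.ξ y x i * c.dW y x j) = if i = j then 1 else 0 := by
  set m := c.Ey y fun x => x i
  have e : ∀ z : E k, fderiv ℝ (fun x : E k => x i - m) z (bv j) = if i = j then 1 else 0 := fun z => by
    rw [fderiv_sub_const, show (fun x : E k => x i) = ((innerSL ℝ).flip (bv i) : E k → ℝ) from
      funext fun x => (inner_bv x i).symm, ContinuousLinearMap.fderiv]
    show ⟪bv j, bv i⟫ = _
    rw [bv_inner]
    simp [bv, Pi.single_apply, eq_comm]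
  have hc : ContDiff ℝ 1 fun x : E k => x i - m := by fun_prop
  refine (c.ibp_W y hc ((tame_coord i).sub (Tame.const _)) j ?_).trans ?_
  · simp only [e]
    exact Tame.const _
  · simp only [Ey, e, (c.pinW' y).ex_const]

theorem Ey_ξξ (y : E k) (i j : Fin k) :
    c.Ey y (fun x => c.ξ y x i * c.ξ y x j) = s * c.h y i j := by
  refine ((c.pinW' y).ex_cov (tame_coord i) (tame_coord j)).trans ?_
  rw [show s * c.h y i j = s * D2 c.soft.ψ y (bv i) (bv j) from rfl, c.D2_ψ]
  simp [Ey]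

theorem abs_ξ_cube_le (y : E k) (i : Fin k) :
    c.Ey y (fun x => |c.ξ y x i| ^ 3) ≤ 24 * Real.sqrt (s / ε) ^ 3 := by
  have hε := c.hε
  have hs := c.hs
  set u := Real.sqrt (s / ε) with hu
  have hu0 : 0 < u := Real.sqrt_pos.2 (by positivity)
  have hu2 : u ^ 2 = s / ε := Real.sq_sqrt (by positivity)
  have hm := central_moment_le c.pinW c.hbW (s⁻¹ • y) (bv i) 3 (inv_pos.2 hu0)
  simp only [inner_bv, norm_bv] at hm
  have hexp : Real.exp (u⁻¹ ^ 2 * 1 ^ 2 / (2 * (ε + s⁻¹ * ε))) ≤ 2 := by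
    have h1 : u⁻¹ ^ 2 * 1 ^ 2 / (2 * (ε + s⁻¹ * ε)) ≤ 1 / 2 := by
      rw [inv_pow, hu2, div_le_iff₀ (by positivity), inv_div]
      field_simp
      linarith
    refine (Real.exp_le_exp.2 h1).trans ?_
    nlinarith [Real.exp_one_lt_d9, Real.exp_pos (1 / 2 : ℝ),
      (Real.exp_add (1 / 2 : ℝ) (1 / 2)).symm.trans (by norm_num : Real.exp (1 / 2 + 1 / 2) = Real.exp 1)]
  have hf : ((Nat.factorial 3 : ℕ) : ℝ) = 6 := by norm_num [Nat.factorial]
  rw [hf] at hm
  calc c.Ey y (fun x => |c.ξ y x i| ^ 3)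
      = u ^ 3 * (u⁻¹ ^ 3 * c.Ey y fun x => |c.ξ y x i| ^ 3) := by field_simp
    _ ≤ u ^ 3 * 24 := mul_le_mul_of_nonneg_left (hm.trans (by nlinarith)) (by positivity)
    _ = _ := mul_comm _ _

/-! ### Given `x` -/

theorem ibp_U (x : E k) {f : E k → ℝ} (hf : ContDiff ℝ 1 f) (hft : Tame f) (i : Fin k)
    (hd : Tame fun y => fderiv ℝ f y (bv i)) :
    c.Ex x (fun y => f y * c.dU x y i) = c.Ex x fun y => fderiv ℝ f y (bv i) := (c.pinU' x).ibp hf hft (bv i) hd

theorem Ex_η (x : E k) (i : Fin k) : c.Ex x (fun y => c.η x y i) = 0 := (c.pinU' x).ex_centred (tame_coord i)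

theorem Ex_dU (x : E k) (i : Fin k) : c.Ex x (fun y => c.dU x y i) = 0 := by
  have := c.ibp_U x (f := fun _ => (1 : ℝ)) contDiff_const (Tame.const _) i
    (by simpa using Tame.const (k := k) (0 : ℝ))
  simpa [Ex, (c.pinU' x).ex_const] using this

theorem Ex_η_dU (x : E k) (i j : Fin k) :
    c.Ex x (fun y => c.η x y i * c.dU x y j) = if i = j then 1 else 0 := by
  set m := c.Ex x fun y => y i
  have e : ∀ z : E k, fderiv ℝ (fun y : E k => y i - m) z (bv j) = if i = j then 1 else 0 := fun z => by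
    rw [fderiv_sub_const, show (fun y : E k => y i) = ((innerSL ℝ).flip (bv i) : E k → ℝ) from
      funext fun y => (inner_bv y i).symm, ContinuousLinearMap.fderiv]
    show ⟪bv j, bv i⟫ = _
    rw [bv_inner]
    simp [bv, Pi.single_apply, eq_comm]
  have hc : ContDiff ℝ 1 fun y : E k => y i - m := by fun_prop
  refine (c.ibp_U x hc ((tame_coord i).sub (Tame.const _)) j ?_).trans ?_
  · simp only [e]
    exact Tame.const _
  · simp only [Ex, e, (c.pinU' x).ex_const]

theorem Ex_dU_dU (x : E k) (i j : Fin k) :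
    c.Ex x (fun y => c.dU x y i * c.dU x y j) = (1 + s) / s * c.H x i j := by
  have hd : ∀ z, fderiv ℝ (fun y => fderiv ℝ (Skew.tilt c.U0 (s⁻¹ • x)) y (bv i)) z (bv j)
      = (1 + s) / s * c.h z j i := fun z => by
    rw [(c.pinU' x).fderiv_fderiv_apply, c.D2_U]
  refine (c.ibp_U x ((c.pinU' x).contDiff_fderiv_apply _) ((c.tame2_dU i).section_right x) j
    ?_).trans ?_
  · simp only [hd]
    exact (c.tame_h j i).const_mul _
  · simp only [hd, Ex, ex_const_mul]
    congr 1
    exact ex_congr fun y => D2_symm c.soft.pinψ y _ _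

theorem Ex_ηη (x : E k) (i j : Fin k) :
    c.Ex x (fun y => c.η x y i * c.η x y j) = s * c.g x i j := by
  refine ((c.pinU' x).ex_cov (tame_coord i) (tame_coord j)).trans ?_
  rw [show s * c.g x i j = s * D2 c.soft.φ x (bv i) (bv j) from rfl, c.D2_φ]
  simp [Ex]

theorem Ex_η_four_le (x : E k) (i : Fin k) :
    c.Ex x (fun y => c.η x y i ^ 4) ≤ 96 * (s * Λ) ^ 2 := by
  have hs := c.hs
  have hΛ := c.hΛ
  set u := Real.sqrt (s * Λ) with hu
  have hu0 : 0 < u := Real.sqrt_pos.2 (by positivity)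
  have hu2 : u ^ 2 = s * Λ := Real.sq_sqrt (by positivity)
  have hm := central_moment_le c.pinU c.hbU (s⁻¹ • x) (bv i) 4 (inv_pos.2 hu0)
  simp only [inner_bv, norm_bv] at hm
  have hexp : Real.exp (u⁻¹ ^ 2 * 1 ^ 2 / (2 * (1 / (s * Λ)))) ≤ 2 := by
    have h1 : u⁻¹ ^ 2 * 1 ^ 2 / (2 * (1 / (s * Λ))) = 1 / 2 := by
      rw [inv_pow, hu2]
      field_simp
    rw [h1]
    nlinarith [Real.exp_one_lt_d9, Real.exp_pos (1 / 2 : ℝ),
      (Real.exp_add (1 / 2 : ℝ) (1 / 2)).symm.trans (by norm_num : Real.exp (1 / 2 + 1 / 2) = Real.exp 1)]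
  have hf : ((Nat.factorial 4 : ℕ) : ℝ) = 24 := by norm_num [Nat.factorial]
  rw [hf] at hm
  have e : ∀ y, c.η x y i ^ 4 = |c.η x y i| ^ 4 := fun y => by
    rw [← abs_pow, abs_of_nonneg]; positivity
  calc c.Ex x (fun y => c.η x y i ^ 4)
      = u ^ 4 * (u⁻¹ ^ 4 * c.Ex x fun y => |c.η x y i| ^ 4) := by simp only [e]; field_simp
    _ ≤ u ^ 4 * 96 := mul_le_mul_of_nonneg_left (hm.trans (by nlinarith)) (by positivity)
    _ = _ := by rw [show u ^ 4 = (u ^ 2) ^ 2 by ring, hu2, mul_comm]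

theorem Ex_η_h (x : E k) (a i j : Fin k) :
    c.Ex x (fun y => c.η x y a * c.h y i j) = s * c.dH x a i j := by
  have hp := c.pinU' x
  have := c.fderiv_Ex (c.tame_h i j) x (bv a)
  simp only [inner_bv] at this
  refine Eq.trans ?_ this.symm
  simp only [η, Ex, sub_mul]
  rw [hp.ex_sub ((tame_coord a).mul (c.tame_h i j)) ((c.tame_h i j).const_mul _), ex_const_mul]

theorem sq_dH_le (x : E k) (a i j : Fin k) : s * c.dH x a i j ^ 2 ≤ Λ * c.vh x := by
  have hp := c.pinU' x
  have hη := (c.tame2_η a).section_right x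
  have hd : Tame fun y => c.h y i j - c.H x i j := (c.tame_h i j).sub (Tame.const _)
  have e : c.Ex x (fun y => c.η x y a * (c.h y i j - c.H x i j)) = s * c.dH x a i j := by
    rw [← c.Ex_η_h]
    simp only [Ex, mul_sub]
    rw [hp.ex_sub (hη.mul (c.tame_h i j)) (hη.mul (Tame.const _)), ex_mul_const]
    rw [show ex (Skew.tilt c.U0 (s⁻¹ • x)) (fun y => c.η x y a) = 0 from c.Ex_η x a]
    simp
  have h1 := hp.sq_ex_mul_le hη hd
  rw [show ex _ (fun y => c.η x y a * (c.h y i j - c.H x i j)) = s * c.dH x a i j from e] at h1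
  have h2 : ex (Skew.tilt c.U0 (s⁻¹ • x)) (fun y => c.η x y a ^ 2) ≤ s * Λ := by
    have := c.Ex_ηη x a a
    simp only [Ex, ← sq] at this
    rw [this]
    exact mul_le_mul_of_nonneg_left
      ((le_abs_self _).trans ((c.sand_g x).abs_entry a a)) c.hs.le
  have h3 : ex (Skew.tilt c.U0 (s⁻¹ • x)) (fun y => (c.h y i j - c.H x i j) ^ 2) ≤ c.vh x := by
    have hnn : ∀ p q, 0 ≤ c.Ex x fun y => (c.h y p q - c.H x p q) ^ 2 := fun p q =>
      hp.ex_nonneg fun y => sq_nonneg _
    exact (Finset.single_le_sum (fun q _ => hnn i q) (Finset.mem_univ j)).trans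
      (Finset.single_le_sum (f := fun p => ∑ q, c.Ex x fun y => (c.h y p q - c.H x p q) ^ 2)
        (fun p _ => Finset.sum_nonneg fun q _ => hnn p q) (Finset.mem_univ i))
  have h4 := h1.trans (mul_le_mul h2 h3 (hp.ex_nonneg fun y => sq_nonneg _)
    (by have := c.hs; have := c.hΛ; positivity))
  refine le_of_mul_le_mul_left ?_ c.hs
  linarith

/-! ### The joint law -/

theorem EE_left {f : E k → ℝ} (hf : Tame f) : c.EE (fun x _ => f x) = ex V f := ex_congr fun x => (c.pinU' x).ex_const (f x)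

theorem EE_right {f : E k → ℝ} (hf : Tame f) : c.EE (fun _ y => f y) = ex c.soft.ψ f := (c.swap hf.tame2_right).trans (ex_congr fun y => (c.pinW' y).ex_const (f y))

theorem EE_Ey {F : E k → E k → ℝ} (hF : Tame2 F) :
    c.EE F = ex c.soft.ψ fun y => c.Ey y fun x => F x y := c.swap hF

theorem EE_mono {F F' : E k → E k → ℝ} (hF : Tame2 F) (hF' : Tame2 F')
    (h : ∀ x y, F x y ≤ F' x y) : c.EE F ≤ c.EE F' := c.hyp.pin.ex_mono (c.tame_Ex hF) (c.tame_Ex hF') fun x =>
    (c.pinU' x).ex_mono (hF.section_right x) (hF'.section_right x) (h x)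

theorem EE_add {F F' : E k → E k → ℝ} (hF : Tame2 F) (hF' : Tame2 F') :
    c.EE (fun x y => F x y + F' x y) = c.EE F + c.EE F' := by
  simp only [EE]
  rw [← c.hyp.pin.ex_add (c.tame_Ex hF) (c.tame_Ex hF')]
  exact ex_congr fun x => (c.pinU' x).ex_add (hF.section_right x) (hF'.section_right x)

theorem EE_sub {F F' : E k → E k → ℝ} (hF : Tame2 F) (hF' : Tame2 F') :
    c.EE (fun x y => F x y - F' x y) = c.EE F - c.EE F' := by
  simp only [EE]
  rw [← c.hyp.pin.ex_sub (c.tame_Ex hF) (c.tame_Ex hF')]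
  exact ex_congr fun x => (c.pinU' x).ex_sub (hF.section_right x) (hF'.section_right x)

theorem EE_const_mul (r : ℝ) (F : E k → E k → ℝ) :
    c.EE (fun x y => r * F x y) = r * c.EE F := by
  simp only [EE, Ex, ex_const_mul]

theorem mean_H (i j : Fin k) :
    (1 + s) * ex V (fun x => c.H x i j) = if i = j then 1 else 0 := by
  have hν := c.soft.pinψ
  have h1 : ex V (fun x => c.H x i j) = ex c.soft.ψ fun y => c.h y i j :=
    c.EE_right (c.tame_h i j)
  have h2 : ex c.soft.ψ (fun y => c.h y i j)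
      = ex c.soft.ψ fun y => fderiv ℝ c.soft.ψ y (bv i) * fderiv ℝ c.soft.ψ y (bv j) := by
    rw [hν.ibp (hν.contDiff_fderiv_apply _) (hν.tame_fderiv_apply _) (bv j)
      (by simp only [hν.fderiv_fderiv_apply]; exact hν.tame_D2 _ _)]
    exact ex_congr fun y => by rw [hν.fderiv_fderiv_apply, D2_symm hν]; rfl
  have h3 : ∀ y, fderiv ℝ c.soft.ψ y (bv i) * fderiv ℝ c.soft.ψ y (bv j)
      = c.Ey y (fun x => x i * x j) - s * c.h y i j := fun y => by
    rw [show s * c.h y i j = s * D2 c.soft.ψ y (bv i) (bv j) from rfl, c.D2_ψ, c.fderiv_ψ,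
      c.fderiv_ψ]
    simp
  have t : Tame2 fun x _ : E k => x i * x j := ((tame_coord i).mul (tame_coord j)).tame2_left
  have h4 : ex c.soft.ψ (fun y => c.Ey y fun x => x i * x j) = if i = j then 1 else 0 := by
    rw [← c.EE_Ey t, c.EE_left ((tame_coord i).mul (tame_coord j))]
    have := c.hyp.cov (bv i) (bv j)
    simp only [inner_bv] at this
    rw [this]
    simp [bv, Pi.single_apply, eq_comm]
  rw [h1]
  have h5 := h2
  rw [ex_congr h3, hν.ex_sub (c.tame_Ey t) ((c.tame_h i j).const_mul _), ex_const_mul, h4] at h5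
  linarith

theorem mean_ψ' (i : Fin k) : ex c.soft.ψ (fun y => fderiv ℝ c.soft.ψ y (bv i)) = 0 := by
  have := c.soft.pinψ.ibp (f := fun _ => (1 : ℝ)) contDiff_const (Tame.const _) (bv i)
    (by simpa using Tame.const (k := k) (0 : ℝ))
  simpa [c.soft.pinψ.ex_const] using this

theorem tame_vh : Tame c.vh := Tame.sum _ fun i _ => Tame.sum _ fun j _ =>
  c.tame_Ex (((c.tame_h i j).tame2_right.sub (c.tame_H i j).tame2_left).pow 2)

theorem vh_nonneg (x : E k) : 0 ≤ c.vh x := Finset.sum_nonneg fun i _ => Finset.sum_nonneg fun j _ =>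
  (c.pinU' x).ex_nonneg fun y => sq_nonneg _

theorem Mh_split : (∑ i, ∑ j, ex V fun x => c.H x i j ^ 2) = c.Mh - ex V c.vh := by
  have hV := c.hyp.pin
  have key : ∀ i j, ex V (fun x => c.Ex x fun y => (c.h y i j - c.H x i j) ^ 2)
      = ex c.soft.ψ (fun y => c.h y i j ^ 2) - ex V fun x => c.H x i j ^ 2 := fun i j => by
    rw [← c.EE_right ((c.tame_h i j).pow 2), EE,
      ← hV.ex_sub (c.tame_Ex ((c.tame_h i j).pow 2).tame2_right) ((c.tame_H i j).pow 2)]
    refine ex_congr fun x => ?_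
    simp only [sq]
    exact (c.pinU' x).ex_cov (c.tame_h i j) (c.tame_h i j)
  have t2 : ∀ i j, Tame fun x => c.Ex x fun y => (c.h y i j - c.H x i j) ^ 2 := fun i j =>
    c.tame_Ex (((c.tame_h i j).tame2_right.sub (c.tame_H i j).tame2_left).pow 2)
  unfold vh
  rw [hV.ex_sum _ fun i _ => Tame.sum _ fun j _ => t2 i j]
  simp only [hV.ex_sum Finset.univ fun j _ => t2 _ j, key, Finset.sum_sub_distrib, Mh]
  ring

theorem gap_entry (i j : Fin k) :
    (1 + s) * (ex V (fun x => c.H x i j ^ 2) - ex V (fun x => c.H x i j) ^ 2)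
      ≤ ex c.soft.ψ (fun y => c.h y i j ^ 2) - ex V (fun x => c.H x i j) ^ 2 := by
  have hν := c.soft.pinψ
  have hV := c.hyp.pin
  set m := ex V (fun x => c.H x i j) with hm
  set Q : E k → ℝ := fun y => c.Ey y fun x => c.H x i j with hQ
  have tH := c.tame_H i j
  have th := c.tame_h i j
  have tQ : Tame Q := c.tame_Ey tH.tame2_left
  have tS : Tame fun y => c.Ey y fun x => c.H x i j ^ 2 := c.tame_Ey (tH.pow 2).tame2_left
  have hmQ : ex c.soft.ψ Q = m := by
    rw [hQ, ← c.EE_Ey tH.tame2_left, c.EE_left tH]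
  have hmh : ex c.soft.ψ (fun y => c.h y i j) = m := (c.EE_right th).symm
  have hbl : ex c.soft.ψ (fun y => Q y ^ 2) - m ^ 2
      ≤ (ex V (fun x => c.H x i j ^ 2) - ex c.soft.ψ fun y => Q y ^ 2) / s := by
    have h0 := hν.bl (f := Q) (G := fun y => s⁻¹ * (c.Ey y (fun x => c.H x i j ^ 2) - Q y ^ 2))
      (c.contDiff_Ey tH 1) tQ ((tS.sub (tQ.pow 2)).const_mul _) fun y w => by
        have hp := c.pinW' y
        have h1 := hp.ex_nonneg (f := fun x => ((c.H x i j - Q y)
          + (⟪x, w⟫ - c.Ey y fun x => ⟪x, w⟫)) ^ 2) fun x => sq_nonneg _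
        have t1 : Tame fun x => c.H x i j - Q y := tH.sub (Tame.const _)
        have t2 : Tame fun x => ⟪x, w⟫ - c.Ey y fun x => ⟪x, w⟫ :=
          (tame_inner w).sub (Tame.const _)
        have e : ∀ x, ((c.H x i j - Q y) + (⟪x, w⟫ - c.Ey y fun x => ⟪x, w⟫)) ^ 2
            = (c.H x i j - Q y) * (c.H x i j - Q y)
              + (2 * ((⟪x, w⟫ - c.Ey y fun x => ⟪x, w⟫) * (c.H x i j - Q y))
              + (⟪x, w⟫ - c.Ey y fun x => ⟪x, w⟫) * (⟪x, w⟫ - c.Ey y fun x => ⟪x, w⟫)) :=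
          fun x => by ring
        rw [ex_congr e, hp.ex_add (t1.mul t1) (((t2.mul t1).const_mul _).add (t2.mul t2)),
          hp.ex_add ((t2.mul t1).const_mul _) (t2.mul t2), ex_const_mul] at h1
        simp only [hQ, Ey] at h1 ⊢
        rw [hp.ex_cov tH tH, hp.ex_cov (tame_inner w) tH,
          hp.ex_cov (tame_inner w) (tame_inner w)] at h1
        have h2 := c.fderiv_Ey tH y w
        have h3 := c.D2_ψ y w w
        simp only [Ey] at h2 h3
        rw [← h2, ← h3] at h1
        have := c.hs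
        refine le_of_mul_le_mul_left ?_ this
        rw [mul_zero, mul_add, mul_add, ← mul_assoc, mul_inv_cancel₀ this.ne', one_mul]
        simp only [sq]
        linarith
    rw [ex_const_mul, hν.ex_sub tS (tQ.pow 2), hmQ, ← c.EE_Ey (tH.pow 2).tame2_left,
      c.EE_left (tH.pow 2)] at h0
    rwa [div_eq_inv_mul]
  have hcov : ex c.soft.ψ (fun y => (c.h y i j - m) * (Q y - m))
      = ex V (fun x => c.H x i j ^ 2) - m ^ 2 := by
    have h1 := hν.ex_cov th tQ
    rw [hmh, hmQ] at h1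
    rw [h1]
    have h2 := c.swap (th.tame2_right.mul tH.tame2_left)
    have e1 : ex V (fun x => c.Ex x fun y => c.h y i j * c.H x i j)
        = ex V fun x => c.H x i j ^ 2 :=
      ex_congr fun x => by simp only [Ex, ex_mul_const, sq]; rfl
    have e2 : ex c.soft.ψ (fun y => c.Ey y fun x => c.h y i j * c.H x i j)
        = ex c.soft.ψ fun y => c.h y i j * Q y :=
      ex_congr fun y => by simp only [hQ, Ey, ex_const_mul]
    rw [e1, e2] at h2
    linarith
  have hcs := hν.sq_ex_mul_le (th.sub (Tame.const m)) (tQ.sub (Tame.const m))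
  rw [hcov] at hcs
  have v1 : ex c.soft.ψ (fun y => (c.h y i j - m) ^ 2)
      = ex c.soft.ψ (fun y => c.h y i j ^ 2) - m ^ 2 := by
    have := hν.ex_cov th th
    simp only [hmh, ← sq] at this
    exact this
  have v2 : ex c.soft.ψ (fun y => (Q y - m) ^ 2) = ex c.soft.ψ (fun y => Q y ^ 2) - m ^ 2 := by
    have := hν.ex_cov tQ tQ
    simp only [hmQ, ← sq] at this
    exact this
  have n1 : 0 ≤ ex c.soft.ψ (fun y => (c.h y i j - m) ^ 2) := hν.ex_nonneg fun y => sq_nonneg _
  have n2 : 0 ≤ ex c.soft.ψ (fun y => (Q y - m) ^ 2) := hν.ex_nonneg fun y => sq_nonneg _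
  rw [v1, v2] at hcs
  rw [v1] at n1
  rw [v2] at n2
  set a := ex V (fun x => c.H x i j ^ 2) - m ^ 2
  set b := ex c.soft.ψ (fun y => c.h y i j ^ 2) - m ^ 2
  set q := ex c.soft.ψ (fun y => Q y ^ 2) - m ^ 2 with hq
  rw [le_div_iff₀ c.hs] at hbl
  have hqa : (1 + s) * q ≤ a := by linarith
  rcases le_or_gt a 0 with ha | ha
  · nlinarith [c.hs]
  · have : (1 + s) * a ^ 2 ≤ b * a :=
      calc (1 + s) * a ^ 2 ≤ (1 + s) * (b * q) :=
            mul_le_mul_of_nonneg_left hcs (by linarith [c.hs])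
        _ = b * ((1 + s) * q) := by ring
        _ ≤ b * a := mul_le_mul_of_nonneg_left hqa n1
    nlinarith

/-- The gap: variance of `h` against its conditional variance. -/
theorem gap : s * (c.Mh - k / (1 + s) ^ 2) ≤ (1 + s) * ex V c.vh := by
  have hq : (0 : ℝ) < 1 + s := by linarith [c.hs]
  have h0 := Finset.sum_le_sum fun i (_ : i ∈ Finset.univ) =>
    Finset.sum_le_sum fun j (_ : j ∈ Finset.univ) => c.gap_entry i j
  simp only [mul_sub, Finset.sum_sub_distrib, ← Finset.mul_sum, c.Mh_split] at h0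
  have hm : ∑ i : Fin k, ∑ j : Fin k, ex V (fun x => c.H x i j) ^ 2 = k / (1 + s) ^ 2 := by
    have e : ∀ i j, ex V (fun x => c.H x i j) ^ 2 = if i = j then 1 / (1 + s) ^ 2 else 0 :=
      fun i j => by
        have h1 := c.mean_H i j
        split_ifs with hij
        · rw [if_pos hij] at h1
          rw [eq_div_iff (by positivity), ← mul_pow, mul_comm, h1, one_pow]
        · rw [if_neg hij, mul_eq_zero, or_iff_right hq.ne'] at h1
          simp [h1]
    simp [e, div_eq_mul_inv]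
  rw [hm] at h0
  simp only [Mh] at h0 ⊢
  linarith

end Ctx

end Vale.P254.Skew
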