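import Vale.Agent.P254.Skew.Gauss

/-! # Existence of soft moment maps

A maximiser of `ln ∫ exp (-ψ_φ) - E φ` over normalised pinched potentials is a fixed point of the
alternating half steps, by Hölder and the strict inequality `exp u ≥ 1 + u`. -/

namespace Vale.P254.Skew

open MeasureTheory Filter Topology
open scoped RealInnerProductSpace

variable {k : ℕ} {W V φ : E k → ℝ} {a b s ε Λ : ℝ}

/-! ## Calculus of pinched functions -/

theorem D2_of_fderiv {f : E k → ℝ} {f' : E k → E k →L[ℝ] ℝ} (h : ∀ x, fderiv ℝ f x = f' x)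
    (x v w : E k) : D2 f x v w = fderiv ℝ f' x v w := by
  rw [D2, show fderiv ℝ f = f' from funext h]

theorem Pinched.scale (h : Pinched W a b) {c : ℝ} (hc : 0 < c) :
    Pinched (fun x => c * W x) (c * a) (c * b) := by
  have e : ∀ x v w, D2 (fun x => c * W x) x v w = c * D2 W x v w := fun x v w => by
    rw [D2_of_fderiv (f' := fun x => c • fderiv ℝ W x)
      (fun z => fderiv_const_mul (h.differentiable z) c),
      fderiv_fun_const_smul (h.contDiff_fderiv.differentiable one_ne_zero x) c]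
    simp [D2]
  refine ⟨contDiff_const.mul h.smooth, mul_pos hc h.pos, fun x w => ?_, fun x w => ?_⟩
  · rw [e, mul_assoc]
    exact mul_le_mul_of_nonneg_left (h.lower x w) hc.le
  · rw [e, mul_assoc]
    exact mul_le_mul_of_nonneg_left (h.upper x w) hc.le

theorem Pinched.sum2 {U : E k → ℝ} {c d : ℝ} (h : Pinched W a b) (h' : Pinched U c d) :
    Pinched (fun x => W x + U x) (a + c) (b + d) := by
  have e : ∀ x v w, D2 (fun x => W x + U x) x v w = D2 W x v w + D2 U x v w := fun x v w => by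
    rw [D2_of_fderiv (f' := fun x => fderiv ℝ W x + fderiv ℝ U x)
      (fun z => fderiv_fun_add (h.differentiable z) (h'.differentiable z)),
      fderiv_fun_add (h.contDiff_fderiv.differentiable one_ne_zero x)
        (h'.contDiff_fderiv.differentiable one_ne_zero x)]
    simp [D2]
  refine ⟨h.smooth.add h'.smooth, add_pos h.pos h'.pos, fun x w => ?_, fun x w => ?_⟩
  · rw [e, add_mul]; exact add_le_add (h.lower x w) (h'.lower x w)
  · rw [e, add_mul]; exact add_le_add (h.upper x w) (h'.upper x w)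

theorem Pinched.shift (h : Pinched W a b) (c : ℝ) : Pinched (fun x => W x + c) a b := by
  have e : ∀ x v w, D2 (fun x => W x + c) x v w = D2 W x v w := fun x v w => by
    rw [D2_of_fderiv (f' := fderiv ℝ W) (fun z => fderiv_add_const c)]
    rfl
  exact ⟨h.smooth.add contDiff_const, h.pos, fun x w => e x w w ▸ h.lower x w,
    fun x w => e x w w ▸ h.upper x w⟩

theorem Pinched.comp_smul (h : Pinched W a b) {c : ℝ} (hc : 0 < c) :
    Pinched (fun x => W (c • x)) (c ^ 2 * a) (c ^ 2 * b) := by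
  have hd : Differentiable ℝ (fderiv ℝ W) := h.contDiff_fderiv.differentiable one_ne_zero
  have e1 : ∀ x, fderiv ℝ (fun x => W (c • x)) x = c • fderiv ℝ W (c • x) := fun x => by
    have := (h.differentiable (c • x)).hasFDerivAt.comp x
      ((hasFDerivAt_id (𝕜 := ℝ) x).const_smul c)
    rw [show (fun x => W (c • x)) = W ∘ (fun x => c • x) from rfl]
    refine this.fderiv.trans ?_
    ext v
    simp
  have e : ∀ x v w, D2 (fun x => W (c • x)) x v w = c ^ 2 * D2 W (c • x) v w := fun x v w => by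
    have hl : HasFDerivAt (fun x => fderiv ℝ W (c • x)) _ x :=
      (hd (c • x)).hasFDerivAt.comp x ((hasFDerivAt_id (𝕜 := ℝ) x).const_smul c)
    rw [D2_of_fderiv e1, fderiv_fun_const_smul hl.differentiableAt c, hl.fderiv]
    simp [D2]
    ring
  refine ⟨h.smooth.comp (contDiff_const_smul c), by have := h.pos; positivity,
    fun x w => ?_, fun x w => ?_⟩
  · rw [e, mul_assoc]; exact mul_le_mul_of_nonneg_left (h.lower _ w) (sq_nonneg c)
  · rw [e, mul_assoc]; exact mul_le_mul_of_nonneg_left (h.upper _ w) (sq_nonneg c)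

theorem fderiv_quad (c : ℝ) (x : E k) :
    fderiv ℝ (fun x : E k => c / 2 * ‖x‖ ^ 2) x = c • innerSL ℝ x := by
  rw [((hasStrictFDerivAt_norm_sq x).hasFDerivAt.const_mul (c / 2)).fderiv]
  ext v
  simp
  ring

theorem pinched_quad {c : ℝ} (_hc : 0 < c) (ha : 0 < a) (hac : a ≤ c) (hcb : c ≤ b) :
    Pinched (fun x : E k => c / 2 * ‖x‖ ^ 2) a b := by
  have e : ∀ x w : E k, D2 (fun x : E k => c / 2 * ‖x‖ ^ 2) x w w = c * ‖w‖ ^ 2 := fun x w => by
    rw [D2_of_fderiv (fderiv_quad c),
      fderiv_fun_const_smul (innerSL ℝ).differentiableAt c, ContinuousLinearMap.fderiv]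
    simp only [smul_apply, smul_eq_mul]
    exact congrArg (c * ·) (real_inner_self_eq_norm_sq w)
  refine ⟨contDiff_const.mul (contDiff_norm_sq ℝ), ha, fun x w => ?_, fun x w => ?_⟩
  · rw [e]; exact mul_le_mul_of_nonneg_right hac (sq_nonneg _)
  · rw [e]; exact mul_le_mul_of_nonneg_right hcb (sq_nonneg _)

theorem Pinched.tame (h : Pinched W a b) : Tame W := by
  refine Tame.of_bound h.continuous
    (g := fun x => |W 0| + ‖fderiv ℝ W 0‖ * ‖x‖ + |b| / 2 * ‖x‖ ^ 2)
    (((Tame.const _).add (tame_id.norm.const_mul _)).add ((tame_id.norm.pow 2).const_mul _))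
    fun x => ?_
  have hl := abs_le.1 ((fderiv ℝ W 0).le_opNorm x)
  have h1 := h.quad_lower x
  have h2 := h.quad_upper x
  have h3 : b / 2 * ‖x‖ ^ 2 ≤ |b| / 2 * ‖x‖ ^ 2 :=
    mul_le_mul_of_nonneg_right (by linarith [le_abs_self b]) (sq_nonneg _)
  have h4 : 0 ≤ a / 2 * ‖x‖ ^ 2 := by have := h.pos; positivity
  have h5 : 0 ≤ |b| / 2 * ‖x‖ ^ 2 := by positivity
  rw [Real.norm_eq_abs, abs_le]
  constructor <;> linarith [le_abs_self (W 0), neg_abs_le (W 0), hl.1, hl.2]

/-- The symmetric second difference. -/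
noncomputable def secDiff (f : E k → ℝ) (x w : E k) : ℝ := f (x + w) + f (x - w) - 2 * f x

theorem Pinched.secDiff_mem (h : Pinched W a b) (x w : E k) :
    a * ‖w‖ ^ 2 ≤ secDiff W x w ∧ secDiff W x w ≤ b * ‖w‖ ^ 2 := by
  have key : ∀ w : E k, W x + fderiv ℝ W x w + a / 2 * ‖w‖ ^ 2 ≤ W (x + w) ∧
      W (x + w) ≤ W x + fderiv ℝ W x w + b / 2 * ‖w‖ ^ 2 := fun w => by
    have h1 := taylor_lower (h.hasDerivAt_line x w) (h.hasDerivAt_line2 x w w)
      fun t => h.lower _ w
    have h2 := taylor_lower (fun t => (h.hasDerivAt_line x w t).fun_neg)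
      (fun t => (h.hasDerivAt_line2 x w w t).fun_neg) (c := -(b * ‖w‖ ^ 2))
      fun t => neg_le_neg (h.upper _ w)
    simp only [zero_smul, add_zero, one_smul] at h1 h2
    constructor <;> linarith
  have h1 := key w
  have h2 := key (-w)
  simp only [← sub_eq_add_neg, map_neg, norm_neg] at h2
  simp only [secDiff]
  constructor <;> linarith [h1.1, h1.2, h2.1, h2.2]

theorem D2_nonneg_of_secDiff {f : E k → ℝ} (hf : ContDiff ℝ 2 f) (x w : E k) {c : ℝ}
    (h : ∀ t : ℝ, c * t ^ 2 ≤ secDiff f x (t • w)) : c ≤ D2 f x w w := by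
  by_contra hlt
  rw [not_le] at hlt
  have hdf : Differentiable ℝ f := hf.differentiable (by norm_num)
  have hdd : Differentiable ℝ (fderiv ℝ f) :=
    (hf.fderiv_right (m := 1) (by norm_num)).differentiable one_ne_zero
  have hline : ∀ (v : E k) (t : ℝ), HasDerivAt (fun t : ℝ => x + t • v) v t := fun v t => by
    simpa using ((hasDerivAt_id t).smul_const v).const_add x
  let g : ℝ → ℝ := fun t => f (x + t • w) + f (x + t • -w) - c * t ^ 2
  let g' : ℝ → ℝ := fun t =>
    fderiv ℝ f (x + t • w) w + fderiv ℝ f (x + t • -w) (-w) - 2 * c * t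
  have hg : ∀ t, HasDerivAt g (g' t) t := fun t => by
    refine HasDerivAt.congr_deriv (((((hdf _).hasFDerivAt.comp_hasDerivAt t (hline w t))).add
      ((hdf _).hasFDerivAt.comp_hasDerivAt t (hline (-w) t))).sub
      ((hasDerivAt_pow 2 t).const_mul c)) ?_
    simp only [g']
    push_cast
    ring
  have hg' : HasDerivAt g' (2 * (D2 f x w w - c)) 0 := by
    have h1 : ∀ v : E k, HasDerivAt (fun t : ℝ => fderiv ℝ f (x + t • v) v) (D2 f x v v) 0 :=
      fun v => by
        have := ((ContinuousLinearMap.apply ℝ ℝ v).hasFDerivAt.comp _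
          ((hdd (x + (0 : ℝ) • v)).hasFDerivAt)).comp_hasDerivAt (0 : ℝ) (hline v 0)
        simpa [D2, Function.comp_def] using this
    refine HasDerivAt.congr_deriv (((h1 w).add (h1 (-w))).sub
      ((hasDerivAt_id (0 : ℝ)).const_mul (2 * c))) ?_
    simp [D2]
    ring
  have h0 : g' 0 = 0 := by simp [g']
  have hev : ∀ᶠ t in 𝓝[>] (0 : ℝ), g' t < 0 := by
    have := (hasDerivAt_iff_tendsto_slope.1 hg').mono_left
      (nhdsWithin_mono (0 : ℝ) fun t (ht : 0 < t) => ne_of_gt ht)
    filter_upwards [this.eventually_lt_const (show 2 * (D2 f x w w - c) < 0 by linarith),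
      self_mem_nhdsWithin] with t ht htpos
    have htpos' : 0 < t := htpos
    rw [slope_def_field, h0, sub_zero, sub_zero, div_lt_iff₀ htpos', zero_mul] at ht
    exact ht
  obtain ⟨t, ht, hsub⟩ := (mem_nhdsGT_iff_exists_Ioo_subset.1 hev)
  have ht' : (0 : ℝ) < t := ht
  obtain ⟨ξ, hξ, he⟩ := exists_hasDerivAt_eq_slope g g' (half_pos ht')
    (fun z _ => (hg z).continuousAt.continuousWithinAt) fun z _ => hg z
  have hneg : g' ξ < 0 := hsub ⟨hξ.1, hξ.2.trans (half_lt_self ht')⟩
  have h2 := h (t / 2)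
  simp only [secDiff, sub_eq_add_neg, ← smul_neg] at h2
  rw [he, sub_zero, div_lt_iff₀ (half_pos ht')] at hneg
  simp only [g, zero_smul, add_zero, zero_mul] at hneg
  nlinarith [h2, hneg]

theorem pinched_of_secDiff {f : E k → ℝ} (hf : ContDiff ℝ 2 f) (ha : 0 < a)
    (h : ∀ x w, a * ‖w‖ ^ 2 ≤ secDiff f x w ∧ secDiff f x w ≤ b * ‖w‖ ^ 2) : Pinched f a b := by
  refine ⟨hf, ha, fun x w => D2_nonneg_of_secDiff hf x w fun t => ?_, fun x w => ?_⟩
  · refine (le_of_eq ?_).trans (h x (t • w)).1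
    rw [norm_smul, mul_pow, Real.norm_eq_abs, sq_abs]
    ring
  · have := D2_nonneg_of_secDiff hf.neg x w (c := -(b * ‖w‖ ^ 2)) fun t => by
      have h2 := (h x (t • w)).2
      rw [norm_smul, mul_pow, Real.norm_eq_abs, sq_abs] at h2
      simp only [secDiff] at h2 ⊢
      nlinarith
    have e : D2 (fun z => -f z) x w w = -D2 f x w w := by
      rw [D2_of_fderiv (f' := fun z => -fderiv ℝ f z) (fun z => fderiv_fun_neg), fderiv_fun_neg]
      simp [D2]
    linarith

/-! ## The half step -/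

/-- The soft Legendre transform. -/
noncomputable def soft (s : ℝ) (V φ : E k → ℝ) (y : E k) : ℝ :=
  s * Real.log (∫ x, Real.exp (-(V x + (φ x - ⟪x, y⟫) / s)))

theorem soft_eq_logLap (s : ℝ) (V φ : E k → ℝ) (y : E k) :
    soft s V φ y = s * logLap (fun x => V x + s⁻¹ * φ x) (s⁻¹ • y) := by
  simp only [soft, logLap, Zc, Skew.tilt, real_inner_smul_left]
  congr 3
  ext x
  rw [real_inner_comm y x]
  ring_nf

theorem pinched_soft (hs : 0 < s) (hb : 0 < b) (h : Pinched (fun x => V x + s⁻¹ * φ x) a b) :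
    Pinched (soft s V φ) (1 / (s * b)) (1 / (s * a)) := by
  rw [show soft s V φ = fun y => s * logLap (fun x => V x + s⁻¹ * φ x) (s⁻¹ • y) from
    funext (soft_eq_logLap s V φ)]
  convert ((h.pinched_logLap hb).comp_smul (inv_pos.2 hs)).scale hs using 1 <;>
    field_simp

theorem integrable_pinched_tilt (h : Pinched (fun x => V x + s⁻¹ * φ x) a b) (y : E k) :
    Integrable fun x => Real.exp (-(V x + (φ x - ⟪x, y⟫) / s)) := by
  refine (h.tilt (s⁻¹ • y)).integrable_exp.congr (Eventually.of_forall fun x => ?_)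
  simp only [Skew.tilt, real_inner_smul_left]
  rw [real_inner_comm y x]
  ring_nf

/-- A continuous function squeezed between zero and a quadratic. -/
structure Squeezed (Λ : ℝ) (φ : E k → ℝ) : Prop where
  cont : Continuous φ
  nonneg : ∀ x, 0 ≤ φ x
  le : ∀ x, φ x ≤ Λ / 2 * ‖x‖ ^ 2

theorem Squeezed.tame (h : Squeezed Λ φ) : Tame φ :=
  Tame.of_bound h.cont ((tame_id.norm.pow 2).const_mul (Λ / 2)) fun x => by
    rw [Real.norm_of_nonneg (h.nonneg x)]
    exact h.le x

theorem exp_arg_eq (s : ℝ) (V φ : E k → ℝ) (x y : E k) :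
    Real.exp (-(V x + (φ x - ⟪x, y⟫) / s))
      = Real.exp (-Skew.tilt V (s⁻¹ • y) x) • Real.exp (-(φ x / s)) := by
  rw [smul_eq_mul, ← Real.exp_add]
  congr 1
  simp only [Skew.tilt, real_inner_smul_left]
  rw [real_inner_comm y x]
  ring

theorem Squeezed.exp_tame (h : Squeezed Λ φ) (hs : 0 < s) :
    Tame fun x => Real.exp (-(φ x / s)) := by
  refine Tame.bounded (C := 1) (by have := h.cont; fun_prop) fun x => ?_
  rw [Real.norm_of_nonneg (Real.exp_pos _).le, Real.exp_le_one_iff, neg_nonpos]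
  exact div_nonneg (h.nonneg x) hs.le

theorem Squeezed.integrable (h : Squeezed Λ φ) (hV : Pinched V a b) (hs : 0 < s) (y : E k) :
    Integrable fun x => Real.exp (-(V x + (φ x - ⟪x, y⟫) / s)) := by
  simp only [exp_arg_eq]
  exact (hV.tilt _).integrable (h.exp_tame hs)

theorem Squeezed.contDiff_soft (h : Squeezed Λ φ) (hV : Pinched V a b) (hs : 0 < s) :
    ContDiff ℝ 2 (soft s V φ) := by
  have hc := (hV.contDiff_integral_tilt (h.exp_tame hs) 2).comp
    (contDiff_const_smul (𝕜 := ℝ) (F := E k) s⁻¹)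
  unfold soft
  simp only [exp_arg_eq]
  refine contDiff_const.mul (hc.log fun y => ne_of_gt ?_)
  simp only [Function.comp]
  have := integral_exp_pos (h.integrable hV hs y)
  simpa only [exp_arg_eq] using this

theorem exp_soft_div (hs : 0 < s) {y : E k}
    (hI : Integrable fun x => Real.exp (-(V x + (φ x - ⟪x, y⟫) / s))) :
    Real.exp (soft s V φ y / s) = ∫ x, Real.exp (-(V x + (φ x - ⟪x, y⟫) / s)) := by
  rw [soft, mul_div_cancel_left₀ _ hs.ne', Real.exp_log (integral_exp_pos hI)]

/-- Adding an affine function translates the transform. -/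
theorem soft_affine (hs : 0 < s) (hI : ∀ y, Integrable fun x => Real.exp (-(V x + (φ x - ⟪x, y⟫) / s)))
    (θ : E k) (c : ℝ) (y : E k) :
    soft s V (fun x => φ x - ⟪θ, x⟫ + c) y = soft s V φ (y + θ) - c := by
  have h : ∀ x, Real.exp (-(V x + (φ x - ⟪θ, x⟫ + c - ⟪x, y⟫) / s))
      = Real.exp (-c / s) * Real.exp (-(V x + (φ x - ⟪x, y + θ⟫) / s)) := fun x => by
    rw [← Real.exp_add]
    congr 1
    rw [inner_add_right, real_inner_comm x θ]
    field_simp
    ring
  simp only [soft, h, integral_const_mul]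
  rw [Real.log_mul (Real.exp_pos _).ne' (integral_exp_pos (hI _)).ne', Real.log_exp]
  field_simp
  ring

/-- The functional. -/
noncomputable def G (s : ℝ) (V φ : E k → ℝ) : ℝ := Real.log (Zc (soft s V φ)) - ex V φ

theorem ex_eq (hm : Zc V = 1) (f : E k → ℝ) : ex V f = ∫ x, Real.exp (-V x) * f x := by
  simp [ex, hm]

/-! ## The maximiser -/

/-- Normalised pinched potentials. -/
structure Good (ε Λ : ℝ) (φ : E k → ℝ) : Prop where
  pin : Pinched φ ε Λ
  zero : φ 0 = 0
  crit : fderiv ℝ φ 0 = 0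

theorem Good.squeezed (h : Good ε Λ φ) : Squeezed Λ φ := by
  refine ⟨h.pin.continuous, fun x => ?_, fun x => ?_⟩
  · have := h.pin.quad_lower x
    rw [h.zero, h.crit] at this
    simp only [zero_apply, zero_add] at this
    have := h.pin.pos
    exact le_trans (by positivity) ‹ε / 2 * ‖x‖ ^ 2 ≤ φ x›
  · have := h.pin.quad_upper x
    rw [h.zero, h.crit] at this
    simpa using this

theorem Good.lipschitz (h : Good ε Λ φ) (hΛ : 0 < Λ) {R : ℝ} {x y : E k} (hx : ‖x‖ ≤ R)
    (hy : ‖y‖ ≤ R) : |φ x - φ y| ≤ Λ * R * ‖x - y‖ := by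
  have hb : ∀ z ∈ Metric.closedBall (0 : E k) R, ‖fderiv ℝ φ z‖ ≤ Λ * R := fun z hz => by
    have := h.pin.norm_fderiv_le z
    rw [h.crit, norm_zero, zero_add, abs_of_pos hΛ] at this
    exact this.trans (mul_le_mul_of_nonneg_left (mem_closedBall_zero_iff.1 hz) hΛ.le)
  rw [← Real.norm_eq_abs]
  exact (convex_closedBall (0 : E k) R).norm_image_sub_le_of_norm_fderiv_le
    (fun z _ => h.pin.differentiable z) hb (mem_closedBall_zero_iff.2 hy)
    (mem_closedBall_zero_iff.2 hx)

/-- Pointwise limits of subsequences exist. -/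
theorem exists_limit {f : ℕ → E k → ℝ} (hf : ∀ n, Good ε Λ (f n)) (hΛ : 0 < Λ) :
    ∃ (ν : ℕ → ℕ) (φ : E k → ℝ), StrictMono ν ∧ Squeezed Λ φ ∧
      ∀ x, Tendsto (fun n => f (ν n) x) atTop (𝓝 (φ x)) := by
  let d : ℕ → E k := TopologicalSpace.denseSeq (E k)
  obtain ⟨g, -, ν, hν, hg⟩ := (isCompact_univ_pi fun j => isCompact_Icc
    (a := (0 : ℝ)) (b := Λ / 2 * ‖d j‖ ^ 2)).tendsto_subseq (x := fun n j => f n (d j))
    fun n j _ => ⟨(hf n).squeezed.nonneg _, (hf n).squeezed.le _⟩
  rw [tendsto_pi_nhds] at hg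
  have hcauchy : ∀ x, CauchySeq fun n => f (ν n) x := fun x => by
    rw [Metric.cauchySeq_iff]
    intro e he
    obtain ⟨δ, hδ, hδ1, hδe⟩ : ∃ δ : ℝ, 0 < δ ∧ δ ≤ 1 ∧ Λ * (‖x‖ + 1) * δ ≤ e / 4 := by
      refine ⟨min 1 (e / 4 / (Λ * (‖x‖ + 1))), lt_min one_pos (by positivity), min_le_left _ _, ?_⟩
      exact (mul_le_mul_of_nonneg_left (min_le_right _ _) (by positivity)).trans
        (le_of_eq (mul_div_cancel₀ _ (by positivity)))
    obtain ⟨j, hj⟩ := (TopologicalSpace.denseRange_denseSeq (E k)).exists_dist_lt x hδ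
    rw [dist_eq_norm] at hj
    have hd : ‖d j‖ ≤ ‖x‖ + 1 := by
      have := norm_le_norm_add_norm_sub' (d j) x
      rw [norm_sub_rev] at this
      have : ‖x - d j‖ < δ := hj
      linarith
    obtain ⟨N, hN⟩ := Metric.cauchySeq_iff.1 (hg j).cauchySeq (e / 4) (by positivity)
    refine ⟨N, fun m hm n hn => ?_⟩
    have h1 := (hf (ν m)).lipschitz hΛ (by linarith : ‖x‖ ≤ ‖x‖ + 1) hd
    have h2 := (hf (ν n)).lipschitz hΛ (by linarith : ‖x‖ ≤ ‖x‖ + 1) hd
    have h3 := hN m hm n hn
    have hk : Λ * (‖x‖ + 1) * ‖x - d j‖ ≤ e / 4 :=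
      (mul_le_mul_of_nonneg_left hj.le (by positivity)).trans hδe
    simp only [Function.comp] at h3
    rw [Real.dist_eq, abs_lt] at h3 ⊢
    rw [abs_le] at h1 h2
    constructor <;> linarith [h1.1, h1.2, h2.1, h2.2, h3.1, h3.2]
  choose φ hφ using fun x => cauchySeq_tendsto_of_complete (hcauchy x)
  refine ⟨ν, φ, hν, ⟨continuous_iff_continuousAt.2 fun x => ?_,
    fun x => ge_of_tendsto' (hφ x) fun n => (hf _).squeezed.nonneg x,
    fun x => le_of_tendsto' (hφ x) fun n => (hf _).squeezed.le x⟩, hφ⟩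
  rw [Metric.continuousAt_iff]
  intro e he
  refine ⟨min 1 (e / (2 * (Λ * (‖x‖ + 1)))), lt_min one_pos (by positivity), fun z hz => ?_⟩
  rw [dist_eq_norm] at hz
  have hz1 : ‖z‖ ≤ ‖x‖ + 1 := by
    have := norm_le_norm_add_norm_sub' z x
    have := hz.trans_le (min_le_left _ _)
    linarith
  have hle : |φ z - φ x| ≤ Λ * (‖x‖ + 1) * ‖z - x‖ :=
    le_of_tendsto' ((hφ z).sub (hφ x)).abs fun n =>
      (hf (ν n)).lipschitz hΛ hz1 (by linarith : ‖x‖ ≤ ‖x‖ + 1)
  rw [Real.dist_eq]
  refine lt_of_le_of_lt (hle.trans ((mul_le_mul_of_nonneg_left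
    (hz.le.trans (min_le_right _ _)) (by positivity)).trans (le_of_eq ?_))) (half_lt_self he)
  field_simp

theorem mul_mul_inv_pinched (hV : Pinched V ε Λ) (hφ : Pinched φ ε Λ) (hs : 0 < s) :
    Pinched (fun x => V x + s⁻¹ * φ x) ((1 + s) * ε / s) ((1 + s) * Λ / s) := by
  convert hV.sum2 (hφ.scale (inv_pos.2 hs)) using 1 <;> field_simp <;> ring

theorem soft_pinched_first (hV : Pinched V ε Λ) (hφ : Pinched φ ε Λ) (hs : 0 < s)
    (hΛ : 0 < Λ) : Pinched (soft s V φ) (1 / ((1 + s) * Λ)) (1 / ((1 + s) * ε)) := by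
  convert pinched_soft hs (by positivity) (mul_mul_inv_pinched hV hφ hs) using 1 <;> field_simp

theorem soft_le_of_le (hs : 0 < s) {φ' : E k → ℝ} (h : ∀ x, φ x ≤ φ' x) {y : E k}
    (h1 : Integrable fun x => Real.exp (-(V x + (φ x - ⟪x, y⟫) / s)))
    (h2 : Integrable fun x => Real.exp (-(V x + (φ' x - ⟪x, y⟫) / s))) :
    soft s V φ' y ≤ soft s V φ y := by
  refine mul_le_mul_of_nonneg_left (Real.log_le_log (integral_exp_pos h2)
    (integral_mono h2 h1 fun x => Real.exp_le_exp.2 ?_)) hs.le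
  have := (div_le_div_iff_of_pos_right hs).2 (sub_le_sub_right (h x) ⟪x, y⟫)
  linarith

theorem Squeezed.exp_soft_le (hV : Pinched V ε Λ) (hs : 0 < s) (hΛ : 0 < Λ) (hεΛ : ε ≤ Λ)
    (h : Squeezed Λ φ) (y : E k) :
    Real.exp (-soft s V φ y) ≤ Real.exp (-soft s V (fun x => Λ / 2 * ‖x‖ ^ 2) y) :=
  Real.exp_le_exp.2 (neg_le_neg (soft_le_of_le hs h.le (h.integrable hV hs y)
    (integrable_pinched_tilt
      (mul_mul_inv_pinched hV (pinched_quad hΛ hV.pos hεΛ le_rfl) hs) y)))

theorem Squeezed.integrable_exp_soft (hV : Pinched V ε Λ) (hs : 0 < s) (hΛ : 0 < Λ)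
    (hεΛ : ε ≤ Λ) (h : Squeezed Λ φ) : Integrable fun y => Real.exp (-soft s V φ y) :=
  (soft_pinched_first hV (pinched_quad hΛ hV.pos hεΛ le_rfl) hs hΛ).integrable_exp.mono'
    (Real.continuous_exp.comp (h.contDiff_soft hV hs).continuous.neg).aestronglyMeasurable
    (Eventually.of_forall fun y => by
      rw [Real.norm_of_nonneg (Real.exp_pos _).le]
      exact h.exp_soft_le hV hs hΛ hεΛ y)

variable {f : ℕ → E k → ℝ}

theorem tendsto_soft (hV : Pinched V ε Λ) (hs : 0 < s) (hf : ∀ n, Squeezed Λ (f n))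
    (hφ : Squeezed Λ φ) (hlim : ∀ x, Tendsto (fun n => f n x) atTop (𝓝 (φ x))) (y : E k) :
    Tendsto (fun n => soft s V (f n) y) atTop (𝓝 (soft s V φ y)) := by
  refine Tendsto.const_mul s (((Real.continuousAt_log
    (integral_exp_pos (hφ.integrable hV hs y)).ne').tendsto).comp ?_)
  refine tendsto_integral_of_dominated_convergence
    (fun x => Real.exp (-(V x + (0 - ⟪x, y⟫) / s)))
    (fun n => ((hf n).integrable hV hs y).aestronglyMeasurable)
    (Squeezed.integrable (Λ := 0) ⟨continuous_const, fun _ => le_rfl, fun _ => by simp⟩ hV hs y)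
    (fun n => Eventually.of_forall fun x => ?_) (Eventually.of_forall fun x => ?_)
  · rw [Real.norm_of_nonneg (Real.exp_pos _).le, Real.exp_le_exp]
    have := (div_le_div_iff_of_pos_right hs).2 (sub_le_sub_right ((hf n).nonneg x) ⟪x, y⟫)
    linarith
  · exact (Real.continuous_exp.tendsto _).comp
      ((tendsto_const_nhds.add (((hlim x).sub_const _).div_const s)).neg)

theorem tendsto_G (hV : Pinched V ε Λ) (hm : Zc V = 1) (hs : 0 < s) (hΛ : 0 < Λ)
    (hεΛ : ε ≤ Λ) (hf : ∀ n, Squeezed Λ (f n)) (hφ : Squeezed Λ φ)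
    (hlim : ∀ x, Tendsto (fun n => f n x) atTop (𝓝 (φ x))) :
    Tendsto (fun n => G s V (f n)) atTop (𝓝 (G s V φ)) := by
  refine Tendsto.sub (((Real.continuousAt_log
    (integral_exp_pos (hφ.integrable_exp_soft hV hs hΛ hεΛ)).ne').tendsto).comp ?_) ?_
  · refine tendsto_integral_of_dominated_convergence
      (fun y => Real.exp (-soft s V (fun x => Λ / 2 * ‖x‖ ^ 2) y))
      (fun n => ((hf n).integrable_exp_soft hV hs hΛ hεΛ).aestronglyMeasurable)
      (soft_pinched_first hV (pinched_quad hΛ hV.pos hεΛ le_rfl) hs hΛ).integrable_exp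
      (fun n => Eventually.of_forall fun y => ?_) (Eventually.of_forall fun y => ?_)
    · rw [Real.norm_of_nonneg (Real.exp_pos _).le]
      exact (hf n).exp_soft_le hV hs hΛ hεΛ y
    · exact (Real.continuous_exp.tendsto _).comp (tendsto_soft hV hs hf hφ hlim y).neg
  · simp only [ex_eq hm]
    refine tendsto_integral_of_dominated_convergence
      (fun x => Real.exp (-V x) * (Λ / 2 * ‖x‖ ^ 2))
      (fun n => by simpa using (hV.integrable (hf n).tame).aestronglyMeasurable)
      (by simpa using hV.integrable ((tame_id.norm.pow 2).const_mul (Λ / 2)))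
      (fun n => Eventually.of_forall fun x => ?_) (Eventually.of_forall fun x => ?_)
    · rw [Real.norm_of_nonneg (mul_nonneg (Real.exp_pos _).le ((hf n).nonneg x))]
      exact mul_le_mul_of_nonneg_left ((hf n).le x) (Real.exp_pos _).le
    · exact (hlim x).const_mul _

/-- The functional is bounded above on normalised potentials. -/
theorem G_le (hV : Pinched V ε Λ) (hm : Zc V = 1) (hs : 0 < s) (hΛ : 0 < Λ) (hεΛ : ε ≤ Λ)
    (h : Squeezed Λ φ) :
    G s V φ ≤ Real.log (Zc (soft s V fun x => Λ / 2 * ‖x‖ ^ 2)) := by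
  have h1 : Real.log (Zc (soft s V φ)) ≤ Real.log (Zc (soft s V fun x => Λ / 2 * ‖x‖ ^ 2)) :=
    Real.log_le_log (integral_exp_pos (h.integrable_exp_soft hV hs hΛ hεΛ))
      (integral_mono (h.integrable_exp_soft hV hs hΛ hεΛ)
        (soft_pinched_first hV (pinched_quad hΛ hV.pos hεΛ le_rfl) hs hΛ).integrable_exp
        fun y => h.exp_soft_le hV hs hΛ hεΛ y)
  have h2 : 0 ≤ ex V φ := by
    rw [ex_eq hm]
    exact integral_nonneg fun x => mul_nonneg (Real.exp_pos _).le (h.nonneg x)
  rw [G]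
  linarith

theorem exists_soft : SoftStmt := by
  intro k V B ε Λ hyp hεΛ s hs
  have hV := hyp.pin
  have hm := hyp.mass
  have hε := hV.pos
  have hΛ : 0 < Λ := hε.trans_le hεΛ
  have hquad : Good ε Λ fun x : E k => Λ / 2 * ‖x‖ ^ 2 :=
    ⟨pinched_quad hΛ hε hεΛ le_rfl, by simp, by rw [fderiv_quad]; simp⟩
  -- a maximiser
  let S : Set ℝ := G s V '' {φ | Good ε Λ φ}
  have hSne : S.Nonempty := ⟨_, _, hquad, rfl⟩
  have hSbdd : BddAbove S := ⟨_, Set.forall_mem_image.2 fun φ hφ =>
    G_le hV hm hs hΛ hεΛ (Good.squeezed hφ)⟩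
  obtain ⟨u, -, hu, huS⟩ := exists_seq_tendsto_sSup hSne hSbdd
  choose f hf hGf using huS
  obtain ⟨ν, φ, hν, hφ, hlim⟩ := exists_limit hf hΛ
  have hmax : G s V φ = sSup S := tendsto_nhds_unique
    (tendsto_G hV hm hs hΛ hεΛ (fun n => (hf (ν n)).squeezed) hφ hlim)
    (by simp only [hGf]; exact hu.comp hν.tendsto_atTop)
  -- its two half steps
  set q := 1 + s with hq
  have hq0 : 0 < q := by positivity
  set ψ := soft s V φ with hψdef
  have hψ : Pinched ψ (1 / (q * Λ)) (1 / (q * ε)) := by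
    refine pinched_of_secDiff (hφ.contDiff_soft hV hs) (by positivity) fun x w => ?_
    have ht : ∀ y, Tendsto (fun n => soft s V (f (ν n)) y) atTop (𝓝 (ψ y)) :=
      tendsto_soft hV hs (fun n => (hf (ν n)).squeezed) hφ hlim
    have hd : Tendsto (fun n => secDiff (soft s V (f (ν n))) x w) atTop (𝓝 (secDiff ψ x w)) :=
      ((ht _).add (ht _)).sub ((ht x).const_mul 2)
    exact ⟨ge_of_tendsto' hd fun n =>
        ((soft_pinched_first hV (hf (ν n)).pin hs hΛ).secDiff_mem x w).1,
      le_of_tendsto' hd fun n =>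
        ((soft_pinched_first hV (hf (ν n)).pin hs hΛ).secDiff_mem x w).2⟩
  have hW : Pinched (fun y => (fun _ : E k => (0 : ℝ)) y + s⁻¹ * (q * ψ y))
      (1 / (s * Λ)) (1 / (s * ε)) := by
    convert (hψ.scale hq0).scale (inv_pos.2 hs) using 1
    · ext y; simp
    all_goals field_simp
  set φ₁ := soft s (fun _ => 0) fun y => q * ψ y with hφ₁def
  have hφ₁ : Pinched φ₁ ε Λ := by
    convert pinched_soft hs (by positivity) hW using 1 <;> field_simp
  have hI₁ := integrable_pinched_tilt (mul_mul_inv_pinched hV hφ₁ hs)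
  set ψ₁ := soft s V φ₁ with hψ₁def
  have hψ₁ : Pinched ψ₁ (1 / (q * Λ)) (1 / (q * ε)) := soft_pinched_first hV hφ₁ hs hΛ
  set Z := Zc ψ with hZdef
  have hZ : 0 < Z := hψ.zc_pos
  set Z₁ := Zc ψ₁ with hZ₁def
  have hZ₁ : 0 < Z₁ := hψ₁.zc_pos
  let J : (E k → ℝ) → E k → E k → ℝ := fun g x y =>
    Real.exp (-(V x + (g x - ⟪x, y⟫) / s)) * Real.exp (-(q * ψ y / s))
  have hJc : ∀ g : E k → ℝ, Continuous g → Continuous (Function.uncurry (J g)) := fun g hg => by
    have := hV.continuous
    have := hψ.continuous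
    simp only [J]
    fun_prop
  have hinner : ∀ (g : E k → ℝ) (x : E k),
      Integrable (J g x) ∧ ∫ y, J g x y = Real.exp (-V x) * Real.exp ((φ₁ x - g x) / s) := by
    intro g x
    have e : ∀ y, J g x y = (Real.exp (-V x) * Real.exp (-(g x / s)))
        * Real.exp (-((0 : ℝ) + (q * ψ y - ⟪y, x⟫) / s)) := fun y => by
      simp only [J, ← Real.exp_add]
      rw [real_inner_comm y x]
      congr 1
      ring
    constructor
    · rw [funext e]
      exact (integrable_pinched_tilt hW x).const_mul _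
    · rw [integral_congr_ae (Eventually.of_forall e), integral_const_mul,
        ← exp_soft_div hs (integrable_pinched_tilt hW x), ← hφ₁def, mul_assoc, ← Real.exp_add,
        ← Real.exp_add, ← Real.exp_add]
      congr 1
      ring
  -- Fubini for `φ₁`
  have hJ₁ : Integrable (Function.uncurry (J φ₁)) (volume.prod volume) := by
    refine (integrable_prod_iff (hJc _ hφ₁.continuous).aestronglyMeasurable).2
      ⟨Eventually.of_forall fun x => (hinner φ₁ x).1, ?_⟩
    refine hV.integrable_exp.congr (Eventually.of_forall fun x => ?_)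
    have hnorm : ∀ y, ‖Function.uncurry (J φ₁) (x, y)‖ = J φ₁ x y := fun y =>
      Real.norm_of_nonneg (mul_nonneg (Real.exp_pos _).le (Real.exp_pos _).le)
    simp only [hnorm]
    rw [(hinner φ₁ x).2, sub_self, zero_div, Real.exp_zero, mul_one]
  have hy₁ : ∀ y, ∫ x, J φ₁ x y = Real.exp (-(q * ψ y / s) + ψ₁ y / s) := fun y => by
    simp only [J, integral_mul_const]
    rw [← exp_soft_div hs (hI₁ y), ← Real.exp_add, add_comm]
  have hI2 : Integrable fun y => Real.exp (-(q * ψ y / s) + ψ₁ y / s) := by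
    refine hJ₁.integral_prod_right.congr (Eventually.of_forall fun y => ?_)
    exact hy₁ y
  have hone : ∫ y, Real.exp (-(q * ψ y / s) + ψ₁ y / s) = 1 := by
    rw [← integral_congr_ae (Eventually.of_forall hy₁), ← integral_integral_swap hJ₁,
      integral_congr_ae (Eventually.of_forall fun x => (hinner φ₁ x).2)]
    simpa [Zc] using hm
  have hstep : q * Real.log Z ≤ Real.log Z₁ := by
    set L := Real.log Z₁ with hL
    have hpt : ∀ y, Real.exp (-ψ y) * Real.exp (-L / q)
        ≤ 1 / q * (Real.exp (-ψ₁ y) * Real.exp (-L))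
          + s / q * Real.exp (-(q * ψ y / s) + ψ₁ y / s) := fun y => by
      have := convexOn_exp.2 (Set.mem_univ (-ψ₁ y + -L))
        (Set.mem_univ (-(q * ψ y / s) + ψ₁ y / s)) (by positivity : (0 : ℝ) ≤ 1 / q)
        (by positivity : (0 : ℝ) ≤ s / q) (by field_simp; rw [hq])
      simp only [smul_eq_mul] at this
      rw [← Real.exp_add, ← Real.exp_add]
      refine le_trans (le_of_eq (congrArg Real.exp ?_)) this
      field_simp
      rw [hq]
      ring
    have hint := integral_mono (hψ.integrable_exp.mul_const _)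
      (((hψ₁.integrable_exp.mul_const _).const_mul _).add (hI2.const_mul _)) hpt
    simp only [integral_add ((hψ₁.integrable_exp.mul_const _).const_mul _) (hI2.const_mul _),
      Pi.add_apply, integral_const_mul, integral_mul_const, hone] at hint
    rw [show (∫ y, Real.exp (-ψ₁ y)) = Z₁ from rfl, show (∫ y, Real.exp (-ψ y)) = Z from rfl,
      Real.exp_neg L, hL, Real.exp_log hZ₁, mul_inv_cancel₀ hZ₁.ne'] at hint
    have h1 : Z * Real.exp (-Real.log Z₁ / q) ≤ 1 := hint.trans (le_of_eq (by field_simp; rw [hq]))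
    have h2 := Real.log_le_log (by positivity) h1
    rw [Real.log_mul hZ.ne' (Real.exp_pos _).ne', Real.log_exp, Real.log_one] at h2
    have h3 : q * (Real.log Z + -Real.log Z₁ / q) ≤ q * 0 := mul_le_mul_of_nonneg_left h2 hq0.le
    have h4 : q * (Real.log Z + -Real.log Z₁ / q) = q * Real.log Z - Real.log Z₁ := by
      field_simp
      ring
    linarith
  -- the first potential gains nothing
  have hGφ₁ : G s V φ₁ ≤ G s V φ := by
    set θ : E k := (InnerProductSpace.toDual ℝ (E k)).symm (fderiv ℝ φ₁ 0) with hθ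
    have hθx : ∀ x, ⟪θ, x⟫ = fderiv ℝ φ₁ 0 x := fun x =>
      InnerProductSpace.toDual_symm_apply
    set c := -φ₁ 0 with hc
    have hgood : Good ε Λ fun x => φ₁ x - ⟪θ, x⟫ + c := by
      refine ⟨(hφ₁.tilt θ).shift c, by simp [hc], ?_⟩
      rw [fderiv_add_const, show (fun x => φ₁ x - ⟪θ, x⟫) = Skew.tilt φ₁ θ from rfl,
        fderiv_tilt hφ₁]
      ext x
      simp [hθx]
    have hle : G s V (fun x => φ₁ x - ⟪θ, x⟫ + c) ≤ G s V φ :=
      hmax ▸ le_csSup hSbdd ⟨_, hgood, rfl⟩
    refine le_trans (le_of_eq ?_) hle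
    have hlin : ex V (fun x => ⟪θ, x⟫) = 0 := by
      simpa only [real_inner_comm θ] using hyp.mean θ
    have e1 : ex V (fun x => φ₁ x - ⟪θ, x⟫ + c) = ex V φ₁ + c := by
      have t : Tame fun x : E k => ⟪θ, x⟫ := tame_id.clm (innerSL ℝ θ)
      rw [show (fun x => φ₁ x - ⟪θ, x⟫ + c) = fun x => φ₁ x + ((-1) * ⟪θ, x⟫ + c) from
        funext fun x => by ring, hV.ex_add hφ₁.tame ((t.const_mul _).add (Tame.const _)),
        hV.ex_add (t.const_mul _) (Tame.const _), ex_const_mul, hlin, hV.ex_const]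
      ring
    have e2 : Zc (soft s V fun x => φ₁ x - ⟪θ, x⟫ + c) = Real.exp c * Z₁ := by
      have hp : ∀ y, Real.exp (-soft s V (fun x => φ₁ x - ⟪θ, x⟫ + c) y)
          = Real.exp c * Real.exp (-ψ₁ (y + θ)) := fun y => by
        rw [soft_affine hs hI₁, ← Real.exp_add, ← hψ₁def]
        congr 1
        ring
      simp only [Zc, hp, integral_const_mul]
      congr 1
      exact integral_add_right_eq_self (fun y => Real.exp (-ψ₁ y)) θ
    rw [G, G, e1, e2, Real.log_mul (Real.exp_pos c).ne' hZ₁.ne', Real.log_exp, hZ₁def]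
    ring
  -- equality in `exp u ≥ 1 + u`
  have hy : ∀ y, ∫ x, J φ x y = Real.exp (-ψ y) := fun y => by
    simp only [J, integral_mul_const]
    rw [← exp_soft_div hs (hφ.integrable hV hs y), ← Real.exp_add, ← hψdef]
    congr 1
    field_simp
    rw [hq]
    ring
  have hJφ : Integrable (Function.uncurry (J φ)) (volume.prod volume) := by
    refine (integrable_prod_iff' (hJc _ hφ.cont).aestronglyMeasurable).2
      ⟨Eventually.of_forall fun y => by
        simpa only [Function.uncurry, J] using (hφ.integrable hV hs y).mul_const _, ?_⟩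
    refine hψ.integrable_exp.congr (Eventually.of_forall fun y => ?_)
    have hnorm : ∀ x, ‖Function.uncurry (J φ) (x, y)‖ = J φ x y := fun x =>
      Real.norm_of_nonneg (mul_nonneg (Real.exp_pos _).le (Real.exp_pos _).le)
    simp only [hnorm]
    exact (hy y).symm
  set w : E k → ℝ := fun x => (φ₁ x - φ x) / s - Real.log Z with hw
  have hexp : ∀ x, Real.exp (-V x) * Real.exp ((φ₁ x - φ x) / s)
      = Z * (Real.exp (-V x) * Real.exp (w x)) := fun x => by
    rw [hw, Real.exp_sub _ (Real.log Z), Real.exp_log hZ]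
    field_simp
  have hwI : Integrable fun x => Real.exp (-V x) * Real.exp (w x) := by
    refine (hJφ.integral_prod_left.const_mul Z⁻¹).congr (Eventually.of_forall fun x => ?_)
    show Z⁻¹ * ∫ y, J φ x y = _
    rw [(hinner φ x).2, hexp, inv_mul_cancel_left₀ hZ.ne']
  have hwone : ∫ x, Real.exp (-V x) * Real.exp (w x) = 1 := by
    have h1 : ∫ x, Real.exp (-V x) * Real.exp ((φ₁ x - φ x) / s) = Z := by
      rw [← integral_congr_ae (Eventually.of_forall fun x => (hinner φ x).2),
        integral_integral_swap hJφ, integral_congr_ae (Eventually.of_forall hy)]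
      rfl
    simp only [hexp, integral_const_mul] at h1
    exact mul_left_cancel₀ hZ.ne' (h1.trans (mul_one Z).symm)
  have hwt : Tame w := by
    rw [show w = fun x => s⁻¹ * (φ₁ x - φ x) - Real.log Z from funext fun x => by
      simp only [hw]; ring]
    exact ((hφ₁.tame.sub hφ.tame).const_mul _).sub (Tame.const _)
  have hexw : 0 ≤ ∫ x, Real.exp (-V x) * w x := by
    have e : ex V w = s⁻¹ * (ex V φ₁ - ex V φ) - Real.log Z := by
      rw [show w = fun x => s⁻¹ * φ₁ x + ((-s⁻¹) * φ x + -Real.log Z) from funext fun x => by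
          simp only [hw]; ring, hV.ex_add (hφ₁.tame.const_mul _)
            ((hφ.tame.const_mul _).add (Tame.const _)),
        hV.ex_add (hφ.tame.const_mul _) (Tame.const _), ex_const_mul, ex_const_mul, hV.ex_const]
      ring
    have hb : s * Real.log Z ≤ ex V φ₁ - ex V φ := by
      have hG := hGφ₁
      simp only [G, ← hψ₁def, ← hψdef, ← hZ₁def, ← hZdef] at hG
      have : q * Real.log Z = Real.log Z + s * Real.log Z := by rw [hq]; ring
      linarith
    rw [← ex_eq hm w, e, sub_nonneg, le_inv_mul_iff₀ hs]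
    exact hb
  have hw0 : ∀ x, w x = 0 := by
    have hint : Integrable fun x => Real.exp (-V x) * w x := by simpa using hV.integrable hwt
    have hnn : ∀ x, 0 ≤ Real.exp (-V x) * Real.exp (w x) - Real.exp (-V x) * w x
        - Real.exp (-V x) := fun x => by
      have := mul_le_mul_of_nonneg_left (Real.add_one_le_exp (w x)) (Real.exp_pos (-V x)).le
      linarith
    have hz : ∫ x, (Real.exp (-V x) * Real.exp (w x) - Real.exp (-V x) * w x
        - Real.exp (-V x)) = 0 := by
      refine le_antisymm ?_ (integral_nonneg hnn)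
      have e1 : ∫ x, (Real.exp (-V x) * Real.exp (w x) - Real.exp (-V x) * w x
          - Real.exp (-V x))
          = (∫ x, (Real.exp (-V x) * Real.exp (w x) - Real.exp (-V x) * w x))
            - ∫ x, Real.exp (-V x) := integral_sub (hwI.sub hint) hV.integrable_exp
      rw [e1, integral_sub hwI hint, hwone, show (∫ x, Real.exp (-V x)) = 1 from hm]
      linarith
    have hcont : Continuous fun x => Real.exp (-V x) * Real.exp (w x) - Real.exp (-V x) * w x
        - Real.exp (-V x) := by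
      have := hV.continuous
      have := hwt.1
      fun_prop
    have hzero := (hcont.ae_eq_iff_eq volume continuous_const).1
      ((integral_eq_zero_iff_of_nonneg hnn ((hwI.sub hint).sub hV.integrable_exp)).1 hz)
    intro x
    by_contra hne
    have hlt := mul_lt_mul_of_pos_left (Real.add_one_lt_exp hne) (Real.exp_pos (-V x))
    have h0 : Real.exp (-V x) * Real.exp (w x) - Real.exp (-V x) * w x - Real.exp (-V x) = 0 :=
      congrFun hzero x
    linarith
  have hfix : ∀ x, φ x = φ₁ x - s * Real.log Z := fun x => by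
    have : (φ₁ x - φ x) / s - Real.log Z = 0 := hw0 x
    field_simp at this
    linarith
  refine ⟨⟨fun x => φ x + -Real.log Z, fun y => ψ y + Real.log Z, ?_, hψ.shift _, ?_, ?_, ?_⟩⟩
  · have : (fun x => φ x + -Real.log Z) = fun x => φ₁ x + (-q * Real.log Z) := funext fun x => by
      rw [hfix, hq]; ring
    rw [this]
    exact hφ₁.shift _
  · intro y
    have e : ∀ x, Real.exp (-(V x + (φ x + -Real.log Z - ⟪x, y⟫) / s))
        = Real.exp (Real.log Z / s) * Real.exp (-(V x + (φ x - ⟪x, y⟫) / s)) := fun x => by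
      rw [← Real.exp_add]; congr 1; ring
    rw [integral_congr_ae (Eventually.of_forall e), integral_const_mul,
      ← exp_soft_div hs (hφ.integrable hV hs y), ← Real.exp_add]
    congr 1
    ring
  · intro x
    have e : ∀ y, Real.exp (-((q * (ψ y + Real.log Z) - ⟪x, y⟫) / s))
        = Real.exp (-(q * Real.log Z / s))
          * Real.exp (-((0 : ℝ) + (q * ψ y - ⟪y, x⟫) / s)) := fun y => by
      rw [← Real.exp_add, real_inner_comm y x]; congr 1; ring
    rw [integral_congr_ae (Eventually.of_forall e), integral_const_mul,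
      ← exp_soft_div hs (integrable_pinched_tilt hW x), ← Real.exp_add]
    congr 1
    show _ + φ₁ x / s = _
    rw [hfix, hq]
    field_simp
    ring
  · have e : ∀ y, Real.exp (-(ψ y + Real.log Z)) = Z⁻¹ * Real.exp (-ψ y) := fun y => by
      rw [neg_add, Real.exp_add, Real.exp_neg (Real.log Z), Real.exp_log hZ, mul_comm]
    simp only [Zc, e, integral_const_mul]
    exact inv_mul_cancel₀ hZ.ne'

end Vale.P254.Skew
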