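import Vale.Agent.P254.Skew.Defs
import Vale.Agent.P074.BrascampLieb

/-! # Measures with pinched log-concave densities -/

namespace Vale.P254.Skew

open MeasureTheory Filter Topology
open scoped RealInnerProductSpace

variable {k : ℕ} {W : E k → ℝ} {a b : ℝ} {F : Type} [NormedAddCommGroup F] [NormedSpace ℝ F]

/-! ## Polynomial growth -/

theorem Tame.const (c : F) : Tame fun _ : E k => c :=
  ⟨continuous_const, ‖c‖, 0, fun _ => by simp⟩

theorem Tame.exists_exp {f : E k → F} (h : Tame f) :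
    ∃ C L : ℝ, 0 ≤ C ∧ 0 ≤ L ∧ ∀ x, ‖f x‖ ≤ C * Real.exp (L * ‖x‖) := by
  obtain ⟨-, C, n, hC⟩ := h
  refine ⟨max C 0, n, le_max_right _ _, Nat.cast_nonneg n, fun x => (hC x).trans ?_⟩
  refine le_trans (mul_le_mul_of_nonneg_right (le_max_left C 0) (by positivity)) ?_
  refine mul_le_mul_of_nonneg_left ?_ (le_max_right _ _)
  rw [Real.exp_nat_mul]
  exact pow_le_pow_left₀ (by positivity) (by linarith [Real.add_one_le_exp ‖x‖]) n

theorem Tame.of_bound {f : E k → F} (hc : Continuous f) {g : E k → ℝ} (hg : Tame g)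
    (h : ∀ x, ‖f x‖ ≤ g x) : Tame f := by
  obtain ⟨-, C, n, hC⟩ := hg
  exact ⟨hc, C, n, fun x => (h x).trans ((Real.le_norm_self _).trans (hC x))⟩

theorem Tame.norm {f : E k → F} (h : Tame f) : Tame fun x => ‖f x‖ := by
  obtain ⟨hc, C, n, hC⟩ := h
  exact ⟨hc.norm, C, n, fun x => by simpa using hC x⟩

theorem Tame.bounded {f : E k → F} (hc : Continuous f) {C : ℝ} (h : ∀ x, ‖f x‖ ≤ C) : Tame f :=
  ⟨hc, C, 0, fun x => by simpa using h x⟩

theorem Tame.add {f g : E k → F} (hf : Tame f) (hg : Tame g) : Tame fun x => f x + g x := by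
  obtain ⟨hfc, C, n, hC⟩ := hf
  obtain ⟨hgc, D, m, hD⟩ := hg
  refine ⟨hfc.add hgc, max C 0 + max D 0, max n m, fun x => (norm_add_le _ _).trans ?_⟩
  have h1 : (1 : ℝ) ≤ 1 + ‖x‖ := by linarith [norm_nonneg x]
  rw [add_mul]
  refine add_le_add ?_ ?_
  · exact (hC x).trans (mul_le_mul (le_max_left C 0) (pow_le_pow_right₀ h1 (le_max_left n m))
      (by positivity) (le_max_right _ _))
  · exact (hD x).trans (mul_le_mul (le_max_left D 0) (pow_le_pow_right₀ h1 (le_max_right n m))
      (by positivity) (le_max_right _ _))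

theorem Tame.bilin {G H : Type} [NormedAddCommGroup G] [NormedSpace ℝ G] [NormedAddCommGroup H]
    [NormedSpace ℝ H] (L : F →L[ℝ] G →L[ℝ] H) {f : E k → F} {g : E k → G} (hf : Tame f)
    (hg : Tame g) : Tame fun x => L (f x) (g x) := by
  obtain ⟨hfc, C, n, hC⟩ := hf
  obtain ⟨hgc, D, m, hD⟩ := hg
  refine ⟨by fun_prop, ‖L‖ * max C 0 * max D 0, n + m, fun x => ?_⟩
  refine (L.le_opNorm₂ _ _).trans ?_
  calc ‖L‖ * ‖f x‖ * ‖g x‖
      ≤ ‖L‖ * (max C 0 * (1 + ‖x‖) ^ n) * (max D 0 * (1 + ‖x‖) ^ m) := by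
        gcongr
        · exact (hC x).trans (mul_le_mul_of_nonneg_right (le_max_left C 0) (by positivity))
        · exact (hD x).trans (mul_le_mul_of_nonneg_right (le_max_left D 0) (by positivity))
    _ = ‖L‖ * max C 0 * max D 0 * (1 + ‖x‖) ^ (n + m) := by ring

theorem Tame.clm {G : Type} [NormedAddCommGroup G] [NormedSpace ℝ G] (L : F →L[ℝ] G)
    {f : E k → F} (hf : Tame f) : Tame fun x => L (f x) := by
  obtain ⟨hfc, C, n, hC⟩ := hf
  exact ⟨by fun_prop, ‖L‖ * C, n, fun x => (L.le_opNorm _).trans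
    ((mul_le_mul_of_nonneg_left (hC x) (norm_nonneg L)).trans_eq (mul_assoc _ _ _).symm)⟩

theorem Tame.mul {f g : E k → ℝ} (hf : Tame f) (hg : Tame g) : Tame fun x => f x * g x :=
  hf.bilin (ContinuousLinearMap.mul ℝ ℝ) hg

theorem Tame.smul {f : E k → ℝ} {g : E k → F} (hf : Tame f) (hg : Tame g) :
    Tame fun x => f x • g x :=
  hf.bilin (ContinuousLinearMap.lsmul ℝ ℝ) hg

theorem Tame.const_mul (c : ℝ) {f : E k → ℝ} (hf : Tame f) : Tame fun x => c * f x :=
  (Tame.const c).mul hf

theorem Tame.neg {f : E k → F} (hf : Tame f) : Tame fun x => -f x :=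
  hf.clm (-ContinuousLinearMap.id ℝ F)

theorem Tame.sub {f g : E k → F} (hf : Tame f) (hg : Tame g) : Tame fun x => f x - g x := by
  simpa [sub_eq_add_neg] using hf.add hg.neg

theorem tame_id : Tame fun x : E k => x :=
  ⟨continuous_id, 1, 1, fun x => by simp⟩

theorem tame_inner (w : E k) : Tame fun x : E k => ⟪x, w⟫ :=
  tame_id.clm ((innerSL ℝ).flip w)

theorem Tame.pow {f : E k → ℝ} (hf : Tame f) : ∀ n : ℕ, Tame fun x => f x ^ n
  | 0 => by simpa using Tame.const (1 : ℝ)
  | n + 1 => by simpa [pow_succ] using (hf.pow n).mul hf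

theorem Tame.sum {ι : Type*} (s : Finset ι) {f : ι → E k → F} (hf : ∀ i ∈ s, Tame (f i)) :
    Tame fun x => ∑ i ∈ s, f i x := by
  classical
  induction s using Finset.induction_on with
  | empty => simpa using Tame.const (k := k) (0 : F)
  | insert i s hi ih =>
    simp only [Finset.sum_insert hi]
    exact (hf i (Finset.mem_insert_self i s)).add
      (ih fun j hj => hf j (Finset.mem_insert_of_mem hj))

/-! ## Calculus along lines -/

theorem taylor_lower {g g' g'' : ℝ → ℝ} {c : ℝ} (h1 : ∀ t, HasDerivAt g (g' t) t)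
    (h2 : ∀ t, HasDerivAt g' (g'' t) t) (h3 : ∀ t, c ≤ g'' t) :
    g 0 + g' 0 + c / 2 ≤ g 1 := by
  have hm : Monotone fun t => g' t - c * t := monotone_of_hasDerivAt_nonneg
    (fun t => by simpa using (h2 t).fun_sub ((hasDerivAt_id t).const_mul c)) fun t => by
      simpa using h3 t
  have hk : MonotoneOn (fun t => g t - g' 0 * t - c / 2 * t ^ 2) (Set.Ici 0) := by
    refine monotoneOn_of_hasDerivWithinAt_nonneg (convex_Ici 0)
      (f' := fun t => g' t - g' 0 - c * t)
      (fun t _ => (((h1 t).fun_sub ((hasDerivAt_id t).const_mul (g' 0))).fun_sub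
        ((hasDerivAt_pow 2 t).const_mul (c / 2))).continuousAt.continuousWithinAt) ?_ ?_
    · intro t _
      refine HasDerivAt.hasDerivWithinAt ?_
      exact (((h1 t).fun_sub ((hasDerivAt_id t).const_mul (g' 0))).fun_sub
        ((hasDerivAt_pow 2 t).const_mul (c / 2))).congr_deriv (by push_cast; ring)
    · intro t ht
      rw [interior_Ici] at ht
      have := hm (le_of_lt ht)
      simp only [mul_zero, sub_zero] at this
      linarith
  have := hk (Set.self_mem_Ici) (Set.mem_Ici.2 zero_le_one) zero_le_one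
  simp only [mul_zero, ne_eq, OfNat.ofNat_ne_zero, not_false_eq_true, zero_pow, sub_zero, mul_one,
    one_pow] at this
  linarith

theorem Pinched.continuous (h : Pinched W a b) : Continuous W := h.smooth.continuous

theorem Pinched.differentiable (h : Pinched W a b) : Differentiable ℝ W :=
  h.smooth.differentiable (by norm_num)

theorem Pinched.contDiff_fderiv (h : Pinched W a b) : ContDiff ℝ 1 (fderiv ℝ W) :=
  h.smooth.fderiv_right (by norm_num)

theorem Pinched.hasDerivAt_line (h : Pinched W a b) (z w : E k) (t : ℝ) :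
    HasDerivAt (fun t : ℝ => W (z + t • w)) (fderiv ℝ W (z + t • w) w) t := by
  have hl : HasDerivAt (fun t : ℝ => z + t • w) w t := by
    simpa using ((hasDerivAt_id t).smul_const w).const_add z
  exact (h.differentiable (z + t • w)).hasFDerivAt.comp_hasDerivAt t hl

theorem Pinched.hasDerivAt_line2 (h : Pinched W a b) (z v w : E k) (t : ℝ) :
    HasDerivAt (fun t : ℝ => fderiv ℝ W (z + t • v) w) (D2 W (z + t • v) v w) t := by
  have hl : HasDerivAt (fun t : ℝ => z + t • v) v t := by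
    simpa using ((hasDerivAt_id t).smul_const v).const_add z
  have h1 := ((h.contDiff_fderiv.differentiable one_ne_zero) (z + t • v)).hasFDerivAt
  exact (((ContinuousLinearMap.apply ℝ ℝ w).hasFDerivAt.comp _ h1).comp_hasDerivAt t hl)

theorem Pinched.quad_lower (h : Pinched W a b) (x : E k) :
    W 0 + fderiv ℝ W 0 x + a / 2 * ‖x‖ ^ 2 ≤ W x := by
  have := taylor_lower (h.hasDerivAt_line 0 x) (h.hasDerivAt_line2 0 x x)
    fun t => h.lower _ x
  simp only [zero_add, zero_smul, one_smul] at this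
  linarith

theorem Pinched.quad_upper (h : Pinched W a b) (x : E k) :
    W x ≤ W 0 + fderiv ℝ W 0 x + b / 2 * ‖x‖ ^ 2 := by
  have := taylor_lower (fun t => (h.hasDerivAt_line 0 x t).fun_neg)
    (fun t => (h.hasDerivAt_line2 0 x x t).fun_neg) (c := -(b * ‖x‖ ^ 2))
    fun t => neg_le_neg (h.upper _ x)
  simp only [zero_add, zero_smul, one_smul] at this
  linarith

theorem D2_symm (h : Pinched W a b) (x v w : E k) : D2 W x v w = D2 W x w v :=
  (h.smooth.contDiffAt.isSymmSndFDerivAt (by simp)).eq v w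

theorem Pinched.D2_nonneg (h : Pinched W a b) (x w : E k) : 0 ≤ D2 W x w w :=
  (mul_nonneg h.pos.le (sq_nonneg _)).trans (h.lower x w)

theorem Pinched.sq_D2_le (h : Pinched W a b) (x v w : E k) :
    D2 W x v w ^ 2 ≤ D2 W x v v * D2 W x w w := by
  have key : ∀ t : ℝ, 0 ≤ D2 W x v v * (t * t) + 2 * D2 W x v w * t + D2 W x w w := fun t => by
    have := h.D2_nonneg x (t • v + w)
    have hs := D2_symm h x v w
    simp only [D2, map_add, map_smul, ContinuousLinearMap.add_apply, ContinuousLinearMap.smul_apply,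
      smul_eq_mul] at this hs ⊢
    rw [← hs] at this
    nlinarith
  have := discrim_le_zero key
  simp only [discrim] at this
  linarith

theorem Pinched.abs_D2_le (h : Pinched W a b) (x v w : E k) :
    |D2 W x v w| ≤ |b| * ‖v‖ * ‖w‖ := by
  refine abs_le_of_sq_le_sq ?_ (by positivity)
  refine (h.sq_D2_le x v w).trans ?_
  calc D2 W x v v * D2 W x w w ≤ (|b| * ‖v‖ ^ 2) * (|b| * ‖w‖ ^ 2) := by
        refine mul_le_mul ((h.upper x v).trans ?_) ((h.upper x w).trans ?_) (h.D2_nonneg x w)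
          (by positivity) <;> exact mul_le_mul_of_nonneg_right (le_abs_self b) (sq_nonneg _)
    _ = (|b| * ‖v‖ * ‖w‖) ^ 2 := by ring

theorem Pinched.norm_fderiv_le (h : Pinched W a b) (x : E k) :
    ‖fderiv ℝ W x‖ ≤ ‖fderiv ℝ W 0‖ + |b| * ‖x‖ := by
  have hb : ∀ z ∈ (Set.univ : Set (E k)), ‖fderiv ℝ (fderiv ℝ W) z‖ ≤ |b| := fun z _ =>
    ContinuousLinearMap.opNorm_le_bound _ (abs_nonneg b) fun v =>
      ContinuousLinearMap.opNorm_le_bound _ (by positivity) fun w => by
        simpa [D2, mul_assoc] using h.abs_D2_le z v w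
  have := convex_univ.norm_image_sub_le_of_norm_fderiv_le
    (fun z _ => h.contDiff_fderiv.differentiable one_ne_zero z) hb (Set.mem_univ 0) (Set.mem_univ x)
  rw [sub_zero] at this
  linarith [norm_le_norm_add_norm_sub' (fderiv ℝ W x) (fderiv ℝ W 0)]

theorem Pinched.tame_fderiv (h : Pinched W a b) : Tame (fderiv ℝ W) := by
  refine Tame.of_bound h.contDiff_fderiv.continuous
    (g := fun x => ‖fderiv ℝ W 0‖ + |b| * ‖x‖)
    ((Tame.const _).add (tame_id.norm.const_mul _)) h.norm_fderiv_le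

theorem Pinched.tame_fderiv_apply (h : Pinched W a b) (w : E k) :
    Tame fun x => fderiv ℝ W x w :=
  h.tame_fderiv.clm (ContinuousLinearMap.apply ℝ ℝ w)

theorem Pinched.tame_D2 (h : Pinched W a b) (v w : E k) : Tame fun x => D2 W x v w := by
  refine Tame.bounded ?_ (C := |b| * ‖v‖ * ‖w‖) fun x => by simpa using h.abs_D2_le x v w
  have := (h.smooth.fderiv_right (m := 1) (by norm_num)).continuous_fderiv one_ne_zero
  exact (this.clm_apply continuous_const).clm_apply continuous_const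

theorem Pinched.contDiff_fderiv_apply (h : Pinched W a b) (w : E k) :
    ContDiff ℝ 1 fun x => fderiv ℝ W x w :=
  h.contDiff_fderiv.clm_apply contDiff_const

theorem Pinched.fderiv_fderiv_apply (h : Pinched W a b) (x v w : E k) :
    fderiv ℝ (fun z => fderiv ℝ W z w) x v = D2 W x v w := by
  rw [fderiv_clm_apply (h.contDiff_fderiv.differentiable one_ne_zero x)
    (differentiableAt_const w)]
  simp [D2]

/-! ## Integrability -/

theorem Pinched.gauss_bound (h : Pinched W a b) {f : E k → F} (hf : Tame f) (R : ℝ) :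
    ∃ C : ℝ, ∀ x, Real.exp (-W x + R * ‖x‖) * ‖f x‖ ≤ C * Real.exp (-(a / 4) * ‖x‖ ^ 2) := by
  obtain ⟨C, L, hC, hL, hb⟩ := hf.exists_exp
  set M := ‖fderiv ℝ W 0‖ + R + L with hM
  refine ⟨C * Real.exp (-W 0 + M ^ 2 / a), fun x => ?_⟩
  refine (mul_le_mul_of_nonneg_left (hb x) (Real.exp_pos _).le).trans ?_
  rw [mul_left_comm, mul_assoc, ← Real.exp_add, ← Real.exp_add]
  refine mul_le_mul_of_nonneg_left (Real.exp_le_exp.2 ?_) hC
  have h1 := h.quad_lower x
  have h2 : -(‖fderiv ℝ W 0‖ * ‖x‖) ≤ fderiv ℝ W 0 x :=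
    neg_le_of_abs_le ((fderiv ℝ W 0).le_opNorm x)
  have h3 : M * ‖x‖ ≤ a / 4 * ‖x‖ ^ 2 + M ^ 2 / a := by
    have := h.pos
    rw [← sub_nonneg, show a / 4 * ‖x‖ ^ 2 + M ^ 2 / a - M * ‖x‖
      = (a * ‖x‖ - 2 * M) ^ 2 / (4 * a) by field_simp; ring]
    positivity
  rw [hM] at h3 ⊢
  nlinarith

theorem integrable_gauss {c : ℝ} (hc : 0 < c) :
    Integrable fun x : E k => Real.exp (-c * ‖x‖ ^ 2) := by
  have := (GaussianFourier.integrable_cexp_neg_mul_sq_norm_add (b := (c : ℂ)) (by simpa) 0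
    (0 : E k)).norm
  refine this.congr (Eventually.of_forall fun x => ?_)
  simp [Complex.norm_exp, ← Complex.ofReal_pow]

theorem Pinched.integrable (h : Pinched W a b) {f : E k → F} (hf : Tame f) :
    Integrable fun x => Real.exp (-W x) • f x := by
  obtain ⟨C, hC⟩ := h.gauss_bound hf 0
  refine ((integrable_gauss (k := k) (by linarith [h.pos] : 0 < a / 4)).const_mul C).mono'
    ((Real.continuous_exp.comp h.continuous.neg).smul hf.1).aestronglyMeasurable
    (Eventually.of_forall fun x => ?_)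
  rw [norm_smul, Real.norm_of_nonneg (Real.exp_pos _).le]
  simpa using hC x

theorem Pinched.integrable_exp (h : Pinched W a b) : Integrable fun x => Real.exp (-W x) := by
  simpa using h.integrable (Tame.const (1 : ℝ))

theorem Pinched.zc_pos (h : Pinched W a b) : 0 < Zc W :=
  integral_exp_pos h.integrable_exp

theorem fderiv_tilt (h : Pinched W a b) (θ x : E k) :
    fderiv ℝ (Skew.tilt W θ) x = fderiv ℝ W x - innerSL ℝ θ :=
  ((h.differentiable x).hasFDerivAt.sub (innerSL ℝ θ).hasFDerivAt).fderiv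

theorem Pinched.tilt (h : Pinched W a b) (θ : E k) : Pinched (Skew.tilt W θ) a b := by
  have e : ∀ x v w, D2 (Skew.tilt W θ) x v w = D2 W x v w := fun x v w => by
    have h1 : fderiv ℝ (Skew.tilt W θ) = fun z => fderiv ℝ W z - innerSL ℝ θ :=
      funext (fderiv_tilt h θ)
    rw [D2, D2, h1, fderiv_sub_const]
  exact ⟨h.smooth.sub (innerSL ℝ θ).contDiff, h.pos, fun x w => (e x w w).symm ▸ h.lower x w,
    fun x w => (e x w w).symm ▸ h.upper x w⟩

/-! ## Expectations -/

theorem ex_congr {f g : E k → F} (h : ∀ x, f x = g x) : ex W f = ex W g := by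
  rw [funext h]

theorem Pinched.ex_add (h : Pinched W a b) {f g : E k → F} (hf : Tame f) (hg : Tame g) :
    ex W (fun x => f x + g x) = ex W f + ex W g := by
  simp only [ex, smul_add, integral_add (h.integrable hf) (h.integrable hg)]

theorem Pinched.ex_sub (h : Pinched W a b) {f g : E k → F} (hf : Tame f) (hg : Tame g) :
    ex W (fun x => f x - g x) = ex W f - ex W g := by
  simp only [ex, smul_sub, integral_sub (h.integrable hf) (h.integrable hg)]

theorem ex_const_mul (c : ℝ) (f : E k → ℝ) : ex W (fun x => c * f x) = c * ex W f := by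
  simp only [ex, smul_eq_mul, mul_left_comm _ c, integral_const_mul]

theorem ex_mul_const (c : ℝ) (f : E k → ℝ) : ex W (fun x => f x * c) = ex W f * c := by
  rw [mul_comm _ c, ← ex_const_mul]
  simp only [mul_comm]

theorem ex_neg (f : E k → F) : ex W (fun x => -f x) = -ex W f := by
  simp only [ex, smul_neg, integral_neg]

theorem Pinched.ex_const (h : Pinched W a b) (c : ℝ) : ex W (fun _ => c) = c := by
  simp only [ex, smul_eq_mul, integral_mul_const]
  rw [← mul_assoc, show (∫ x, Real.exp (-W x)) = Zc W from rfl, inv_mul_cancel₀ h.zc_pos.ne',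
    one_mul]

theorem Pinched.ex_sum {ι : Type*} (h : Pinched W a b) (s : Finset ι) {f : ι → E k → F}
    (hf : ∀ i ∈ s, Tame (f i)) :
    ex W (fun x => ∑ i ∈ s, f i x) = ∑ i ∈ s, ex W (f i) := by
  simp only [ex, Finset.smul_sum]
  rw [integral_finsetSum s fun i hi => h.integrable (hf i hi), Finset.smul_sum]

theorem Pinched.ex_clm [CompleteSpace F] {G : Type} [NormedAddCommGroup G] [NormedSpace ℝ G]
    [CompleteSpace G] (h : Pinched W a b) (L : F →L[ℝ] G) {f : E k → F} (hf : Tame f) :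
    ex W (fun x => L (f x)) = L (ex W f) := by
  simp only [ex, ← map_smul L]
  rw [L.integral_comp_comm (h.integrable hf), map_smul]

theorem Pinched.ex_mono (h : Pinched W a b) {f g : E k → ℝ} (hf : Tame f) (hg : Tame g)
    (hle : ∀ x, f x ≤ g x) : ex W f ≤ ex W g :=
  mul_le_mul_of_nonneg_left (integral_mono (h.integrable hf) (h.integrable hg) fun x =>
    mul_le_mul_of_nonneg_left (hle x) (Real.exp_pos _).le) (inv_nonneg.2 h.zc_pos.le)

theorem Pinched.ex_nonneg (h : Pinched W a b) {f : E k → ℝ} (hle : ∀ x, 0 ≤ f x) :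
    0 ≤ ex W f :=
  mul_nonneg (inv_nonneg.2 h.zc_pos.le)
    (integral_nonneg fun x => mul_nonneg (Real.exp_pos _).le (hle x))

/-! ## Brascamp-Lieb -/

/-- Brascamp-Lieb, in completed-square form. -/
theorem Pinched.bl (h : Pinched W a b) {f G : E k → ℝ} (hf : ContDiff ℝ 1 f) (hft : Tame f)
    (hGt : Tame G) (hG : ∀ x w, 0 ≤ G x + 2 * fderiv ℝ f x w + D2 W x w w) :
    ex W (fun x => f x ^ 2) - ex W f ^ 2 ≤ ex W G := by
  let J := (InnerProductSpace.toDual ℝ (E k)).symm.toContinuousLinearEquiv.toContinuousLinearMap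
  have hJ : ∀ (l : E k →L[ℝ] ℝ) (w : E k), ⟪J l, w⟫ = l w := fun l w =>
    InnerProductSpace.toDual_symm_apply
  let A : E k → E k →L[ℝ] E k := fun z => J.comp (fderiv ℝ (fderiv ℝ W) z)
  have hA : ∀ z w, ⟪w, A z w⟫ = D2 W z w w := fun z w => by
    rw [real_inner_comm]
    exact hJ _ _
  have hball : ∀ n : ℕ, (0 : ℝ) < n + 1 := fun n => by positivity
  let K : ℕ → Set (E k) := fun n => Metric.closedBall 0 (n + 1)
  have hmain : ∀ n, (∫ x in K n, Real.exp (-W x)) * (∫ x in K n, Real.exp (-W x) * f x ^ 2)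
      - (∫ x in K n, Real.exp (-W x) * f x) ^ 2
      ≤ (∫ x in K n, Real.exp (-W x)) * ∫ x in K n, Real.exp (-W x) * G x := by
    intro n
    refine Vale.Agent.P074.brascamp_lieb (isCompact_closedBall _ _) (convex_closedBall _ _)
      (Metric.measure_closedBall_pos volume _ (hball n)) (V1 := fun z w => fderiv ℝ W z w) (A := A)
      (Dg := fun z => J (fderiv ℝ f z)) h.continuous.continuousOn hf.continuous.continuousOn
      hGt.1.continuousOn ?_ ?_ (fun w z _ => by simpa using h.hasDerivAt_line z w 0)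
      (fun w z _ => ?_) (fun w z _ => ?_) h.pos (fun z _ w => (hA z w).symm ▸ h.lower z w)
      (fun z _ w => ?_)
    · exact ((ContinuousLinearMap.compL ℝ (E k) (E k →L[ℝ] ℝ) (E k) J).continuous.comp
        (h.contDiff_fderiv.continuous_fderiv one_ne_zero)).continuousOn
    · exact (J.continuous.comp (hf.continuous_fderiv one_ne_zero)).continuousOn
    · simpa [hA] using h.hasDerivAt_line2 z w w 0
    · have hl : HasDerivAt (fun t : ℝ => z + t • w) w 0 := by
        simpa using ((hasDerivAt_id (0 : ℝ)).smul_const w).const_add z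
      have := (hf.differentiable one_ne_zero (z + (0 : ℝ) • w)).hasFDerivAt.comp_hasDerivAt
        (0 : ℝ) hl
      simpa [hJ, Function.comp_def] using this
    · rw [hA, hJ]
      exact hG z w
  have hmon : Monotone K := fun m n hmn =>
    Metric.closedBall_subset_closedBall (by simpa using hmn)
  have hU : (⋃ n, K n) = Set.univ := Set.eq_univ_of_forall fun x => by
    obtain ⟨n, hn⟩ := exists_nat_ge ‖x‖
    exact Set.mem_iUnion.2 ⟨n, by simp only [K, mem_closedBall_zero_iff]; linarith⟩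
  have hlim : ∀ {g : E k → ℝ}, Tame g → Tendsto (fun n => ∫ x in K n, Real.exp (-W x) * g x)
      atTop (𝓝 (∫ x, Real.exp (-W x) * g x)) := fun {g} hg => by
    have := tendsto_setIntegral_of_monotone (μ := volume) (f := fun x => Real.exp (-W x) * g x)
      (fun n => measurableSet_closedBall) hmon ((h.integrable hg).integrableOn)
    rwa [hU, setIntegral_univ] at this
  have hZ := hlim (Tame.const (k := k) (1 : ℝ))
  simp only [mul_one] at hZ
  have key := le_of_tendsto_of_tendsto' ((hZ.mul (hlim (hft.pow 2))).sub ((hlim hft).pow 2))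
    (hZ.mul (hlim hGt)) hmain
  have hz := h.zc_pos
  have e : (∫ x, Real.exp (-W x)) = Zc W := rfl
  rw [e] at key
  simp only [ex, smul_eq_mul]
  rw [mul_pow, sub_le_iff_le_add, ← mul_le_mul_iff_right₀ (pow_pos hz 2)]
  field_simp
  linarith

/-- Integration by parts. -/
theorem Pinched.ibp (h : Pinched W a b) {f : E k → ℝ} (hf : ContDiff ℝ 1 f) (hft : Tame f)
    (w : E k) (hdt : Tame fun x => fderiv ℝ f x w) :
    ex W (fun x => f x * fderiv ℝ W x w) = ex W (fun x => fderiv ℝ f x w) := by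
  have he : Differentiable ℝ fun x => Real.exp (-W x) := h.differentiable.neg.exp
  have hd : ∀ x, fderiv ℝ (fun x => Real.exp (-W x)) x w
      = -(Real.exp (-W x) * fderiv ℝ W x w) := fun x => by
    rw [(h.differentiable x).hasFDerivAt.fun_neg.exp.fderiv]
    simp
  have key := integral_mul_fderiv_eq_neg_fderiv_mul_of_integrable (μ := volume) (f := f)
    (g := fun x => Real.exp (-W x)) (v := w) ?_ ?_ ?_
    (fun x _ => hf.differentiable one_ne_zero x) (fun x _ => he x)
  · simp only [hd, mul_neg, integral_neg, neg_inj] at key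
    simp only [ex, smul_eq_mul]
    congr 1
    calc ∫ x, Real.exp (-W x) * (f x * fderiv ℝ W x w)
        = ∫ x, f x * (Real.exp (-W x) * fderiv ℝ W x w) := by congr 1; ext x; ring
      _ = _ := key.trans (by congr 1; ext x; ring)
  · exact (h.integrable hdt).congr (Eventually.of_forall fun x => by simp [mul_comm])
  · refine ((h.integrable (hft.mul (h.tame_fderiv_apply w))).neg).congr
      (Eventually.of_forall fun x => ?_)
    simp [hd]
    ring
  · exact (h.integrable hft).congr (Eventually.of_forall fun x => by simp [mul_comm])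

/-! ## Tilts -/

theorem Pinched.hasFDerivAt_integral_tilt [CompleteSpace F] (h : Pinched W a b) {f : E k → F}
    (hf : Tame f) (θ : E k) :
    HasFDerivAt (fun θ => ∫ x, Real.exp (-Skew.tilt W θ x) • f x)
      (∫ x, Real.exp (-Skew.tilt W θ x) • (innerSL ℝ x).smulRight (f x)) θ := by
  obtain ⟨C, hC⟩ := h.gauss_bound (tame_id.norm.mul hf.norm) (‖θ‖ + 1)
  have hsm : Tame fun x : E k => (innerSL ℝ x).smulRight (f x) :=
    (tame_id.clm (innerSL ℝ)).bilin (ContinuousLinearMap.smulRightL ℝ (E k) F) hf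
  refine hasFDerivAt_integral_of_dominated_of_fderiv_le
    (F' := fun η x => Real.exp (-Skew.tilt W η x) • (innerSL ℝ x).smulRight (f x))
    (bound := fun x => C * Real.exp (-(a / 4) * ‖x‖ ^ 2)) (Metric.ball_mem_nhds θ one_pos)
    (Eventually.of_forall fun η => ((h.tilt η).integrable hf).aestronglyMeasurable)
    ((h.tilt θ).integrable hf) ((h.tilt θ).integrable hsm).aestronglyMeasurable
    (Eventually.of_forall fun x η hη => ?_)
    ((integrable_gauss (by linarith [h.pos])).const_mul C)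
    (Eventually.of_forall fun x η _ => ?_)
  · have hb : ‖η‖ ≤ ‖θ‖ + 1 := by
      have := norm_le_norm_add_norm_sub' η θ
      rw [Metric.mem_ball, dist_eq_norm] at hη
      linarith
    rw [norm_smul, Real.norm_of_nonneg (Real.exp_pos _).le,
      ContinuousLinearMap.norm_smulRight_apply, innerSL_apply_norm]
    refine le_trans (mul_le_mul_of_nonneg_right (Real.exp_le_exp.2
      (?_ : -Skew.tilt W η x ≤ -W x + (‖θ‖ + 1) * ‖x‖)) (by positivity))
      ((le_of_eq ?_).trans (hC x))
    · have := real_inner_le_norm η x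
      have := mul_le_mul_of_nonneg_right hb (norm_nonneg x)
      simp only [Skew.tilt]
      linarith
    · simp
  · have h1 : HasFDerivAt (fun η => -Skew.tilt W η x) (innerSL ℝ x) η := by
      simp only [Skew.tilt, neg_sub]
      exact ((innerSL ℝ x).hasFDerivAt.congr_of_eventuallyEq
        (Eventually.of_forall fun η => real_inner_comm x η)).sub_const _
    refine (h1.exp.smul_const (f x)).congr_fderiv ?_
    ext v
    simp [smul_smul]

theorem Pinched.contDiff_integral_tilt [CompleteSpace F] (h : Pinched W a b) {f : E k → F}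
    (hf : Tame f) (n : ℕ) :
    ContDiff ℝ n fun θ => ∫ x, Real.exp (-Skew.tilt W θ x) • f x := by
  induction n generalizing F with
  | zero =>
    exact contDiff_zero.2 (continuous_iff_continuousAt.2 fun θ =>
      (h.hasFDerivAt_integral_tilt hf θ).continuousAt)
  | succ n ih =>
    have hsm : Tame fun x : E k => (innerSL ℝ x).smulRight (f x) :=
      (tame_id.clm (innerSL ℝ)).bilin (ContinuousLinearMap.smulRightL ℝ (E k) F) hf
    rw [show ((n + 1 : ℕ) : WithTop ℕ∞) = (n : WithTop ℕ∞) + 1 from rfl,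
      contDiff_succ_iff_fderiv]
    refine ⟨fun θ => (h.hasFDerivAt_integral_tilt hf θ).differentiableAt, by simp, ?_⟩
    rw [show (fderiv ℝ fun θ => ∫ x, Real.exp (-Skew.tilt W θ x) • f x) = _ from
      funext fun θ => (h.hasFDerivAt_integral_tilt hf θ).fderiv]
    exact ih hsm

theorem Pinched.contDiff_zc (h : Pinched W a b) (n : ℕ) :
    ContDiff ℝ n fun θ => Zc (Skew.tilt W θ) := by
  simpa [Zc] using h.contDiff_integral_tilt (Tame.const (k := k) (1 : ℝ)) n

theorem Pinched.hasFDerivAt_ex_tilt (h : Pinched W a b) {f : E k → ℝ} (hf : Tame f)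
    (θ v : E k) :
    fderiv ℝ (fun η => ex (Skew.tilt W η) f) θ v
      = ex (Skew.tilt W θ) (fun x => ⟪x, v⟫ * f x)
        - ex (Skew.tilt W θ) (fun x => ⟪x, v⟫) * ex (Skew.tilt W θ) f := by
  have hZ : HasFDerivAt (fun η => Zc (Skew.tilt W η))
      (∫ x, Real.exp (-Skew.tilt W θ x) • (innerSL ℝ x).smulRight (1 : ℝ)) θ := by
    simpa [Zc] using h.hasFDerivAt_integral_tilt (Tame.const (k := k) (1 : ℝ)) θ
  have hN := h.hasFDerivAt_integral_tilt hf θ
  have hz := (h.tilt θ).zc_pos
  have hap : ∀ g : E k → ℝ, Tame g →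
      (∫ x, Real.exp (-Skew.tilt W θ x) • (innerSL ℝ x).smulRight (g x)) v
        = ∫ x, Real.exp (-Skew.tilt W θ x) * (⟪x, v⟫ * g x) := fun g hg => by
    rw [ContinuousLinearMap.integral_apply]
    · simp
    · exact (h.tilt θ).integrable
        ((tame_id.clm (innerSL ℝ)).bilin (ContinuousLinearMap.smulRightL ℝ (E k) ℝ) hg)
  have := ((hasFDerivAt_inv hz.ne').comp θ hZ).mul hN
  simp only [ex, smul_eq_mul]
  rw [show (fun η => (Zc (Skew.tilt W η))⁻¹ * ∫ x, Real.exp (-Skew.tilt W η x) * f x)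
    = (Inv.inv ∘ fun η => Zc (Skew.tilt W η)) * (fun η => ∫ x, Real.exp (-Skew.tilt W η x) • f x)
    from rfl, this.fderiv]
  simp [hap f hf, hap (fun _ => 1) (Tame.const 1)]
  field_simp
  ring

theorem Pinched.contDiff_logLap (h : Pinched W a b) (n : ℕ) : ContDiff ℝ n (logLap W) :=
  (h.contDiff_zc n).log fun θ => (h.tilt θ).zc_pos.ne'

theorem Pinched.fderiv_logLap (h : Pinched W a b) (θ w : E k) :
    fderiv ℝ (logLap W) θ w = ex (Skew.tilt W θ) fun x => ⟪x, w⟫ := by
  have hZ : HasFDerivAt (fun η => Zc (Skew.tilt W η))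
      (∫ x, Real.exp (-Skew.tilt W θ x) • (innerSL ℝ x).smulRight (1 : ℝ)) θ := by
    simpa [Zc] using h.hasFDerivAt_integral_tilt (Tame.const (k := k) (1 : ℝ)) θ
  rw [show logLap W = fun η => Real.log (Zc (Skew.tilt W η)) from rfl,
    (hZ.log (h.tilt θ).zc_pos.ne').fderiv]
  simp only [ContinuousLinearMap.smul_apply, ex, smul_eq_mul]
  rw [ContinuousLinearMap.integral_apply]
  · simp
  · exact (h.tilt θ).integrable
      ((tame_id.clm (innerSL ℝ)).bilin (ContinuousLinearMap.smulRightL ℝ (E k) ℝ) (Tame.const 1))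

theorem Pinched.d2_logLap (h : Pinched W a b) (θ v w : E k) :
    D2 (logLap W) θ v w = ex (Skew.tilt W θ) (fun x => ⟪x, v⟫ * ⟪x, w⟫)
      - ex (Skew.tilt W θ) (fun x => ⟪x, v⟫) * ex (Skew.tilt W θ) (fun x => ⟪x, w⟫) := by
  have hd : Differentiable ℝ (fderiv ℝ (logLap W)) :=
    ((h.contDiff_logLap 2).fderiv_right (m := 1) (by norm_num)).differentiable one_ne_zero
  rw [← h.hasFDerivAt_ex_tilt (tame_inner w) θ v,
    show (fun η => ex (Skew.tilt W η) fun x => ⟪x, w⟫) = fun η => fderiv ℝ (logLap W) η w from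
      funext fun η => (h.fderiv_logLap η w).symm,
    fderiv_clm_apply (hd θ) (differentiableAt_const w)]
  simp [D2]

theorem Pinched.var_le (h : Pinched W a b) (w : E k) :
    ex W (fun x => ⟪x, w⟫ ^ 2) - ex W (fun x => ⟪x, w⟫) ^ 2 ≤ ‖w‖ ^ 2 / a := by
  refine (h.bl (f := fun x => ⟪x, w⟫) (G := fun _ => ‖w‖ ^ 2 / a) ?_ (tame_inner w)
    (Tame.const _) fun x v => ?_).trans (h.ex_const _).le
  · exact ((innerSL ℝ).flip w).contDiff
  · rw [show (fun x => ⟪x, w⟫) = ((innerSL ℝ).flip w : E k → ℝ) from rfl,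
      ContinuousLinearMap.fderiv]
    have h1 := h.lower x v
    have h2 : -(‖v‖ * ‖w‖) ≤ ⟪v, w⟫ := neg_le_of_abs_le (abs_real_inner_le_norm v w)
    have ha := h.pos
    have h3 : 2 * (‖v‖ * ‖w‖) ≤ ‖w‖ ^ 2 / a + a * ‖v‖ ^ 2 := by
      rw [div_add' _ _ _ ha.ne', le_div_iff₀ ha]
      nlinarith [sq_nonneg (a * ‖v‖ - ‖w‖)]
    show 0 ≤ ‖w‖ ^ 2 / a + 2 * ⟪v, w⟫ + D2 W x v v
    linarith

theorem Pinched.le_var (h : Pinched W a b) (hb : 0 < b) (w : E k) :
    ‖w‖ ^ 2 / b ≤ ex W (fun x => ⟪x, w⟫ ^ 2) - ex W (fun x => ⟪x, w⟫) ^ 2 := by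
  set m := ex W fun x => ⟪x, w⟫ with hm
  have t1 := tame_inner (k := k) w
  have t2 := h.tame_fderiv_apply w
  have c1 : ContDiff ℝ 1 fun x : E k => ⟪x, w⟫ := ((innerSL ℝ).flip w).contDiff
  have d1 : ∀ x : E k, fderiv ℝ (fun x => ⟪x, w⟫) x w = ‖w‖ ^ 2 := fun x => by
    rw [show (fun x => ⟪x, w⟫) = ((innerSL ℝ).flip w : E k → ℝ) from rfl,
      ContinuousLinearMap.fderiv]
    exact real_inner_self_eq_norm_sq w
  have e1 : ex W (fun x => ⟪x, w⟫ * fderiv ℝ W x w) = ‖w‖ ^ 2 := by
    rw [h.ibp c1 t1 w (by simp only [d1]; exact Tame.const _)]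
    simp only [d1, h.ex_const]
  have e2 : ex W (fun x => fderiv ℝ W x w) = 0 := by
    have := h.ibp (f := fun _ => (1 : ℝ)) contDiff_const (Tame.const _) w (by simpa using Tame.const (0 : ℝ))
    simpa [h.ex_const] using this
  have e3 : ex W (fun x => fderiv ℝ W x w * fderiv ℝ W x w) ≤ b * ‖w‖ ^ 2 := by
    rw [h.ibp (h.contDiff_fderiv_apply w) t2 w
      (by simp only [h.fderiv_fderiv_apply]; exact h.tame_D2 w w)]
    simp only [h.fderiv_fderiv_apply]
    exact (h.ex_mono (h.tame_D2 w w) (Tame.const _) fun x => h.upper x w).trans (h.ex_const _).le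
  have key : 0 ≤ ex W (fun x => (⟪x, w⟫ - m - fderiv ℝ W x w / b) ^ 2) :=
    h.ex_nonneg fun x => sq_nonneg _
  have expand : ∀ x, (⟪x, w⟫ - m - fderiv ℝ W x w / b) ^ 2
      = (⟪x, w⟫ ^ 2 + (-2 * m) * ⟪x, w⟫) + ((-2 / b) * (⟪x, w⟫ * fderiv ℝ W x w)
        + ((2 * m / b) * fderiv ℝ W x w + ((1 / b ^ 2) * (fderiv ℝ W x w * fderiv ℝ W x w)
          + m ^ 2))) := fun x => by ring
  rw [ex_congr expand, h.ex_add ((t1.pow 2).add (t1.const_mul _))
      (((t1.mul t2).const_mul _).add ((t2.const_mul _).add (((t2.mul t2).const_mul _).add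
        (Tame.const _)))),
    h.ex_add (t1.pow 2) (t1.const_mul _),
    h.ex_add ((t1.mul t2).const_mul _) ((t2.const_mul _).add (((t2.mul t2).const_mul _).add
      (Tame.const _))),
    h.ex_add (t2.const_mul _) (((t2.mul t2).const_mul _).add (Tame.const _)),
    h.ex_add ((t2.mul t2).const_mul _) (Tame.const _), ex_const_mul, ex_const_mul, ex_const_mul,
    ex_const_mul, h.ex_const, e1, e2, ← hm] at key
  have h4 : (1 / b ^ 2) * ex W (fun x => fderiv ℝ W x w * fderiv ℝ W x w) ≤ ‖w‖ ^ 2 / b := by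
    refine (mul_le_mul_of_nonneg_left e3 (by positivity)).trans (le_of_eq ?_)
    field_simp
  have h5 : (-2 / b) * ‖w‖ ^ 2 = -2 * (‖w‖ ^ 2 / b) := by ring
  nlinarith

theorem Pinched.pinched_logLap (h : Pinched W a b) (hb : 0 < b) :
    Pinched (logLap W) (1 / b) (1 / a) := by
  refine ⟨h.contDiff_logLap 2, by positivity, fun θ w => ?_, fun θ w => ?_⟩
  · rw [h.d2_logLap]
    have := (h.tilt θ).le_var hb w
    simp only [sq] at this ⊢
    rw [one_div, inv_mul_eq_div]
    linarith
  · rw [h.d2_logLap]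
    have := (h.tilt θ).var_le w
    simp only [sq] at this ⊢
    rw [one_div, inv_mul_eq_div]
    linarith

end Vale.P254.Skew
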