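import Mathlib

/-! # Pinched matrices and cubic tensors -/

namespace Vale.P254.Skew

open Matrix

variable {k : ℕ}

/-- Square matrices. -/
abbrev Mat (k : ℕ) : Type := Matrix (Fin k) (Fin k) ℝ

/-- Tensors with three indices. -/
abbrev Ten (k : ℕ) : Type := Fin k → Fin k → Fin k → ℝ

/-- Symmetric and positive semidefinite. -/
def Psd (A : Mat k) : Prop := A.transpose = A ∧ ∀ v, 0 ≤ v ⬝ᵥ A *ᵥ v

/-- Symmetric with spectrum between `a` and `b`. -/
structure Sand (A : Mat k) (a b : ℝ) : Prop where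
  symm : A.transpose = A
  pos : 0 < a
  pos' : 0 < b
  lower : ∀ v, a * (v ⬝ᵥ v) ≤ v ⬝ᵥ A *ᵥ v
  upper : ∀ v, v ⬝ᵥ A *ᵥ v ≤ b * (v ⬝ᵥ v)

variable {A A' : Mat k} {a b : ℝ}

theorem dot_symm (h : A.transpose = A) (v w : Fin k → ℝ) :
    v ⬝ᵥ A *ᵥ w = w ⬝ᵥ A *ᵥ v := by
  rw [dotProduct_mulVec, ← mulVec_transpose, h, dotProduct_comm]

theorem dot_self_nonneg (v : Fin k → ℝ) : 0 ≤ v ⬝ᵥ v :=
  Finset.sum_nonneg fun i _ => mul_self_nonneg (v i)

theorem dot_single (A : Mat k) (i j : Fin k) :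
    Pi.single i 1 ⬝ᵥ A *ᵥ Pi.single j (1 : ℝ) = A i j := by
  simp

theorem Sand.psd (h : Sand A a b) : Psd A :=
  ⟨h.symm, fun v => (mul_nonneg h.pos.le (dot_self_nonneg v)).trans (h.lower v)⟩

theorem Psd.diag_nonneg (h : Psd A) (i : Fin k) : 0 ≤ A i i := by
  simpa using h.2 (Pi.single i 1)

theorem Psd.two_abs_entry (h : Psd A) (i j : Fin k) : 2 * |A i j| ≤ A i i + A j j := by
  have e : A j i = A i j := congrFun (congrFun h.1 i) j
  have h1 := h.2 (Pi.single i 1 + Pi.single j 1)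
  have h2 := h.2 (Pi.single i 1 - Pi.single j 1)
  simp only [mulVec_add, mulVec_sub, dotProduct_add, add_dotProduct, dotProduct_sub,
    sub_dotProduct, dot_single, e] at h1 h2
  rcases abs_cases (A i j) with ⟨he, -⟩ | ⟨he, -⟩ <;> rw [he] <;> linarith

theorem Sand.abs_entry (h : Sand A a b) (i j : Fin k) : |A i j| ≤ b := by
  have hd : ∀ i, A i i ≤ b := fun i => by simpa using h.upper (Pi.single i 1)
  have := h.psd.two_abs_entry i j
  have := hd i
  have := hd j
  linarith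

theorem Sand.isUnit (h : Sand A a b) : IsUnit A := by
  refine mulVec_injective_iff_isUnit.1 fun v w hvw => ?_
  have h0 : A *ᵥ (v - w) = 0 := by rw [mulVec_sub, sub_eq_zero]; exact hvw
  have h1 := h.lower (v - w)
  rw [h0, dotProduct_zero] at h1
  exact sub_eq_zero.1 (dotProduct_self_eq_zero.1
    (le_antisymm (by nlinarith [h.pos]) (dot_self_nonneg _)))

theorem Sand.det_ne (h : Sand A a b) : A.det ≠ 0 :=
  ((isUnit_iff_isUnit_det A).1 h.isUnit).ne_zero

theorem Sand.mul_inv (h : Sand A a b) : A * A⁻¹ = 1 :=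
  mul_nonsing_inv A ((isUnit_iff_isUnit_det A).1 h.isUnit)

theorem Sand.inv_mul (h : Sand A a b) : A⁻¹ * A = 1 :=
  nonsing_inv_mul A ((isUnit_iff_isUnit_det A).1 h.isUnit)

theorem Sand.completed_sq (h : Sand A a b) (v w : Fin k → ℝ) :
    0 ≤ v ⬝ᵥ A⁻¹ *ᵥ v + 2 * (v ⬝ᵥ w) + w ⬝ᵥ A *ᵥ w := by
  have h0 := h.psd.2 (A⁻¹ *ᵥ v + w)
  have e : A *ᵥ (A⁻¹ *ᵥ v) = v := by rw [mulVec_mulVec, h.mul_inv, one_mulVec]
  rw [mulVec_add, e, add_dotProduct, dotProduct_add, dotProduct_add, dot_symm h.symm _ w, e,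
    dotProduct_comm (A⁻¹ *ᵥ v) v, dotProduct_comm w v] at h0
  linarith

theorem Sand.inv (h : Sand A a b) : Sand A⁻¹ (1 / b) (1 / a) where
  symm := by rw [transpose_nonsing_inv, h.symm]
  pos := one_div_pos.2 h.pos'
  pos' := one_div_pos.2 h.pos
  lower := fun v => by
    have h1 := h.completed_sq v (-(1 / b) • v)
    have h2 := h.upper v
    simp only [mulVec_smul, dotProduct_smul, smul_dotProduct, smul_eq_mul] at h1
    have h3 := mul_le_mul_of_nonneg_left h2 (sq_nonneg (1 / b))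
    have h4 : (1 / b) ^ 2 * (b * (v ⬝ᵥ v)) = 1 / b * (v ⬝ᵥ v) := by
      field_simp [h.pos'.ne']
    nlinarith
  upper := fun v => by
    set w := A⁻¹ *ᵥ v
    have e : A *ᵥ w = v := by rw [mulVec_mulVec, h.mul_inv, one_mulVec]
    have h1 := h.lower w
    rw [e, dotProduct_comm w v] at h1
    have h2 := dot_self_nonneg (v - a • w)
    simp only [sub_dotProduct, dotProduct_sub, smul_dotProduct, dotProduct_smul, smul_eq_mul,
      dotProduct_comm w v] at h2
    rw [one_div_mul_eq_div, le_div_iff₀ h.pos]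
    nlinarith [h.pos]

theorem Sand.inv_anti {a' b' : ℝ} (h : Sand A a b) (h' : Sand A' a' b')
    (hle : ∀ v, v ⬝ᵥ A *ᵥ v ≤ v ⬝ᵥ A' *ᵥ v) : Psd (A⁻¹ - A'⁻¹) := by
  refine ⟨by rw [transpose_sub, h.inv.symm, h'.inv.symm], fun v => ?_⟩
  have e : A' *ᵥ (A'⁻¹ *ᵥ v) = v := by rw [mulVec_mulVec, h'.mul_inv, one_mulVec]
  have h1 := h.completed_sq v (-(A'⁻¹ *ᵥ v))
  have h2 := hle (-(A'⁻¹ *ᵥ v))
  simp only [mulVec_neg, dotProduct_neg, neg_dotProduct, neg_neg, e,
    dotProduct_comm (A'⁻¹ *ᵥ v) v] at h1 h2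
  rw [sub_mulVec, dotProduct_sub]
  linarith

theorem Psd.posSemidef (h : Psd A) : A.PosSemidef :=
  PosSemidef.of_dotProduct_mulVec_nonneg (by simpa [IsHermitian] using h.1)
    fun v => by simpa using h.2 v

open scoped MatrixOrder in
theorem Psd.exists_decomp (h : Psd A) :
    ∃ u : Fin k → Fin k → ℝ, ∀ i j, A i j = ∑ l, u l i * u l j := by
  obtain ⟨B, hB⟩ := CStarAlgebra.nonneg_iff_eq_star_mul_self.1 h.posSemidef.nonneg
  exact ⟨fun l i => B l i, fun i j => by simp [hB, mul_apply, star_apply]⟩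

theorem Psd.abs_entry (h : Psd A) (i j : Fin k) : |A i j| ≤ A.trace := by
  have hd : ∀ i, A i i ≤ A.trace := fun i =>
    Finset.single_le_sum (f := fun l => A l l) (fun l _ => h.diag_nonneg l) (Finset.mem_univ i)
  have := h.two_abs_entry i j
  have := hd i
  have := hd j
  linarith

theorem Psd.trace_mul_nonneg (h : Psd A) (h' : Psd A') : 0 ≤ (A * A').trace := by
  obtain ⟨u, hu⟩ := h'.exists_decomp
  have e : (A * A').trace = ∑ l, u l ⬝ᵥ A *ᵥ u l := by
    simp only [trace, diag, mul_apply, hu, dotProduct, mulVec, Finset.mul_sum]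
    rw [Finset.sum_comm_cycle]
    exact Finset.sum_congr rfl fun l _ => Finset.sum_congr rfl fun i _ =>
      Finset.sum_congr rfl fun j _ => by ring
  rw [e]
  exact Finset.sum_nonneg fun l _ => h.2 _

theorem Sand.trace_mul_ge (h : Sand A a b) (h' : Psd A') :
    a * A'.trace ≤ (A * A').trace := by
  have hp : Psd (A - a • (1 : Mat k)) := by
    refine ⟨by simp [h.symm], fun v => ?_⟩
    simp only [sub_mulVec, smul_mulVec, one_mulVec, dotProduct_sub, dotProduct_smul, smul_eq_mul]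
    linarith [h.lower v]
  have := hp.trace_mul_nonneg h'
  simp only [sub_mul, Matrix.smul_mul, one_mul, trace_sub, trace_smul, smul_eq_mul] at this
  linarith

theorem trace_cube_ge (h : Psd A) (h' : Psd A') :
    3 * (A' * A).trace - 2 * A'.trace ≤ (A' * (A * A * A)).trace := by
  have hB : (A - 1).transpose = A - 1 := by simp [h.1]
  have hp : Psd ((A - 1) * (A + 2 • (1 : Mat k)) * (A - 1)) := by
    refine ⟨?_, fun v => ?_⟩
    · rw [transpose_mul, transpose_mul, hB, transpose_add, h.1, transpose_smul, transpose_one,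
        mul_assoc]
    · rw [← mulVec_mulVec, ← mulVec_mulVec, dotProduct_mulVec, ← mulVec_transpose, hB]
      set w := (A - 1) *ᵥ v
      rw [two_smul, add_mulVec, add_mulVec, one_mulVec, dotProduct_add, dotProduct_add]
      have := h.2 w
      have := dot_self_nonneg w
      linarith
  have := h'.trace_mul_nonneg hp
  have e : (A - 1) * (A + 2 • (1 : Mat k)) * (A - 1) = A * A * A - 3 • A + 2 • (1 : Mat k) := by
    noncomm_ring
  rw [e, mul_add, mul_sub, trace_add, trace_sub, mul_smul_comm, mul_smul_comm, trace_smul,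
    trace_smul, mul_one] at this
  simp only [nsmul_eq_mul, Nat.cast_ofNat] at this
  linarith

theorem continuous_inv_of_sand {X : Type} [TopologicalSpace X] {f : X → Mat k}
    (hf : Continuous f) (h : ∀ x, Sand (f x) a b) : Continuous fun x => (f x)⁻¹ := by
  simp only [inv_def, Ring.inverse_eq_inv]
  exact (hf.matrix_det.inv₀ fun x => (h x).det_ne).smul hf.matrix_adjugate

/-! ## Tensors -/

/-- Contraction of two tensors through three matrices. -/
def cPhi (A B C : Mat k) (X Y : Ten k) : ℝ :=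
  ∑ a, ∑ b, ∑ c, ∑ a', ∑ b', ∑ c', X a b c * A a a' * B b b' * C c c' * Y a' b' c'

/-- Invariant under all permutations of the indices. -/
def Symm3 (X : Ten k) : Prop := ∀ a b c, X a b c = X b a c ∧ X a b c = X a c b

/-- The sum of the three actions of a matrix. -/
def cS (A : Mat k) (X : Ten k) : Ten k :=
  fun a b c => ∑ d, (A a d * X d b c + A b d * X a d c + A c d * X a b d)

open Classical in
/-- The solution of `cS A X = 3 • C`. -/
noncomputable def cX (A : Mat k) (C : Ten k) : Ten k :=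
  if h : ∃ X, cS A X = (3 : ℝ) • C then h.choose else 0

/-- Euclidean norm of a tensor. -/
noncomputable def tnrm (C : Ten k) : ℝ := Real.sqrt (∑ a, ∑ b, ∑ c, C a b c ^ 2)

/-- A tensor as a vector. -/
def tvec (X : Ten k) : Fin k × Fin k × Fin k → ℝ := fun p => X p.1 p.2.1 p.2.2

/-- Three matrices acting on the three indices. -/
def kr (A B C : Mat k) : Matrix (Fin k × Fin k × Fin k) (Fin k × Fin k × Fin k) ℝ :=
  kroneckerMap (· * ·) A (kroneckerMap (· * ·) B C)

theorem cPhi_eq (A B C : Mat k) (X Y : Ten k) :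
    cPhi A B C X Y = tvec X ⬝ᵥ kr A B C *ᵥ tvec Y := by
  simp only [cPhi, tvec, kr, dotProduct, mulVec, Fintype.sum_prod_type, kroneckerMap_apply,
    Finset.mul_sum]
  refine Finset.sum_congr rfl fun _ _ => Finset.sum_congr rfl fun _ _ => Finset.sum_congr rfl
    fun _ _ => Finset.sum_congr rfl fun _ _ => Finset.sum_congr rfl fun _ _ =>
    Finset.sum_congr rfl fun _ _ => by ring

theorem kr_mul (A B C A' B' C' : Mat k) :
    kr A B C * kr A' B' C' = kr (A * A') (B * B') (C * C') := by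
  rw [kr, kr, kr, mul_kronecker_mul, mul_kronecker_mul]

theorem kr_transpose (A B C : Mat k) :
    (kr A B C).transpose = kr A.transpose B.transpose C.transpose := by
  ext ⟨a, b, c⟩ ⟨a', b', c'⟩
  simp [kr]

theorem kr_apply (A B C : Mat k) (X : Ten k) (a b c : Fin k) :
    (kr A B C *ᵥ tvec X) (a, b, c) = ∑ d, ∑ e, ∑ f, A a d * B b e * C c f * X d e f := by
  simp only [kr, tvec, mulVec, dotProduct, Fintype.sum_prod_type, kroneckerMap_apply]
  exact Finset.sum_congr rfl fun _ _ => Finset.sum_congr rfl fun _ _ =>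
    Finset.sum_congr rfl fun _ _ => by ring

theorem tvec_cS (A : Mat k) (X : Ten k) :
    tvec (cS A X) = kr A 1 1 *ᵥ tvec X + kr 1 A 1 *ᵥ tvec X + kr 1 1 A *ᵥ tvec X := by
  funext ⟨a, b, c⟩
  simp [tvec, cS, kr_apply, one_apply, Finset.sum_add_distrib, Pi.add_apply]

theorem cS_perm₁ (A : Mat k) (X : Ten k) :
    cS A (fun a b c => X b a c) = fun a b c => cS A X b a c := by
  funext a b c
  exact Finset.sum_congr rfl fun d _ => by ring

theorem cS_perm₂ (A : Mat k) (X : Ten k) :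
    cS A (fun a b c => X a c b) = fun a b c => cS A X a c b := by
  funext a b c
  exact Finset.sum_congr rfl fun d _ => by ring

theorem cS_add (A : Mat k) (X Y : Ten k) : cS A (X + Y) = cS A X + cS A Y := by
  funext a b c
  simp only [cS, Pi.add_apply, ← Finset.sum_add_distrib]
  exact Finset.sum_congr rfl fun d _ => by ring

theorem cS_smul (A : Mat k) (r : ℝ) (X : Ten k) : cS A (r • X) = r • cS A X := by
  funext a b c
  simp only [cS, Pi.smul_apply, smul_eq_mul, Finset.mul_sum]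
  exact Finset.sum_congr rfl fun d _ => by ring

theorem tnrm_sq (C : Ten k) : tnrm C ^ 2 = ∑ a, ∑ b, ∑ c, C a b c ^ 2 :=
  Real.sq_sqrt (Finset.sum_nonneg fun _ _ => Finset.sum_nonneg fun _ _ =>
    Finset.sum_nonneg fun _ _ => sq_nonneg _)

theorem abs_le_tnrm (C : Ten k) (i j l : Fin k) : |C i j l| ≤ tnrm C := by
  rw [← Real.sqrt_sq_eq_abs]
  refine Real.sqrt_le_sqrt ?_
  calc C i j l ^ 2 ≤ ∑ c, C i j c ^ 2 :=
        Finset.single_le_sum (f := fun c => C i j c ^ 2) (fun c _ => sq_nonneg _)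
          (Finset.mem_univ l)
    _ ≤ ∑ b, ∑ c, C i b c ^ 2 :=
        Finset.single_le_sum (f := fun b => ∑ c, C i b c ^ 2)
          (fun b _ => Finset.sum_nonneg fun c _ => sq_nonneg _) (Finset.mem_univ j)
    _ ≤ _ :=
        Finset.single_le_sum (f := fun a => ∑ b, ∑ c, C a b c ^ 2)
          (fun a _ => Finset.sum_nonneg fun b _ => Finset.sum_nonneg fun c _ => sq_nonneg _)
          (Finset.mem_univ i)

theorem Sand.cS_ip (h : Sand A a b) (X : Ten k) :
    3 * a * ∑ p, ∑ q, ∑ r, X p q r ^ 2 ≤ ∑ p, ∑ q, ∑ r, X p q r * cS A X p q r := by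
  have hs : ∀ f : Fin k → ℝ, a * ∑ p, f p ^ 2 ≤ ∑ p, f p * ∑ d, A p d * f d := fun f => by
    simpa [dotProduct, mulVec, sq] using h.lower f
  have h1 : a * ∑ p, ∑ q, ∑ r, X p q r ^ 2
      ≤ ∑ p, ∑ q, ∑ r, X p q r * ∑ d, A p d * X d q r := by
    rw [Finset.sum_comm_cycle (f := fun p q r => X p q r ^ 2),
      Finset.sum_comm_cycle (f := fun p q r => X p q r * ∑ d, A p d * X d q r), Finset.mul_sum]
    refine Finset.sum_le_sum fun r _ => ?_
    rw [Finset.sum_comm (f := fun p q => X p q r ^ 2),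
      Finset.sum_comm (f := fun p q => X p q r * ∑ d, A p d * X d q r), Finset.mul_sum]
    exact Finset.sum_le_sum fun q _ => hs fun p => X p q r
  have h2 : a * ∑ p, ∑ q, ∑ r, X p q r ^ 2
      ≤ ∑ p, ∑ q, ∑ r, X p q r * ∑ d, A q d * X p d r := by
    rw [Finset.mul_sum]
    refine Finset.sum_le_sum fun p _ => ?_
    rw [Finset.sum_comm (f := fun q r => X p q r ^ 2),
      Finset.sum_comm (f := fun q r => X p q r * ∑ d, A q d * X p d r), Finset.mul_sum]
    exact Finset.sum_le_sum fun r _ => hs fun q => X p q r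
  have h3 : a * ∑ p, ∑ q, ∑ r, X p q r ^ 2
      ≤ ∑ p, ∑ q, ∑ r, X p q r * ∑ d, A r d * X p q d := by
    simp only [Finset.mul_sum (a := a)]
    exact Finset.sum_le_sum fun p _ => Finset.sum_le_sum fun q _ => by
      rw [← Finset.mul_sum]; exact hs fun r => X p q r
  simp only [cS, Finset.sum_add_distrib, mul_add]
  linarith

theorem Sand.entry_le (h : Sand A a b) {Z D : Ten k} (hZ : cS A Z = (3 : ℝ) • D) (i j l : Fin k) :
    |Z i j l| ≤ tnrm D / a := by
  refine (abs_le_tnrm Z i j l).trans ?_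
  rw [le_div_iff₀ h.pos]
  set n := tnrm Z with hn
  have h1 := h.cS_ip Z
  rw [← tnrm_sq, ← hn, hZ] at h1
  have h2 : ∑ p, ∑ q, ∑ r, Z p q r * ((3 : ℝ) • D) p q r ≤ 3 * (n * tnrm D) := by
    have := Real.sum_mul_le_sqrt_mul_sqrt Finset.univ (tvec Z) (tvec D)
    simp only [tvec, Fintype.sum_prod_type] at this
    simp only [Pi.smul_apply, smul_eq_mul, mul_left_comm _ (3 : ℝ), ← Finset.mul_sum]
    exact mul_le_mul_of_nonneg_left this (by norm_num)
  rcases eq_or_lt_of_le (show 0 ≤ n from Real.sqrt_nonneg _) with h0 | h0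
  · rw [← h0, zero_mul]; exact Real.sqrt_nonneg _
  · exact le_of_mul_le_mul_left (by nlinarith) h0

theorem Sand.cS_inj (h : Sand A a b) {X Y : Ten k} (he : cS A X = cS A Y) : X = Y := by
  funext i j l
  have h0 : cS A (X + (-1 : ℝ) • Y) = (3 : ℝ) • 0 := by
    rw [cS_add, cS_smul, he]
    simp
  have := h.entry_le h0 i j l
  simp [tnrm] at this
  linarith

theorem abs_cPhi_le {A B C : Mat k} {X Y : Ten k} {α β γ ξ υ : ℝ} (hA : ∀ i j, |A i j| ≤ α)
    (hB : ∀ i j, |B i j| ≤ β) (hC : ∀ i j, |C i j| ≤ γ) (hX : ∀ i j l, |X i j l| ≤ ξ)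
    (hY : ∀ i j l, |Y i j l| ≤ υ) :
    |cPhi A B C X Y| ≤ (k : ℝ) ^ 6 * (α * β * γ * ξ * υ) := by
  have hb : ∀ a b c a' b' c', |X a b c * A a a' * B b b' * C c c' * Y a' b' c'|
      ≤ α * β * γ * ξ * υ := by
    intro a b c a' b' c'
    have hξ := (abs_nonneg _).trans (hX a b c)
    have hα := (abs_nonneg _).trans (hA a a')
    have hβ := (abs_nonneg _).trans (hB b b')
    have hγ := (abs_nonneg _).trans (hC c c')
    simp only [abs_mul]
    calc |X a b c| * |A a a'| * |B b b'| * |C c c'| * |Y a' b' c'| ≤ ξ * α * β * γ * υ := by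
          gcongr
          exacts [hX a b c, hA a a', hB b b', hC c c', hY a' b' c']
      _ = _ := by ring
  have h1 : ∀ {g : Fin k → ℝ} {r : ℝ}, (∀ i, |g i| ≤ r) → |∑ i, g i| ≤ (k : ℝ) * r :=
    fun {g r} hg => (Finset.abs_sum_le_sum_abs _ _).trans
      ((Finset.sum_le_sum fun i _ => hg i).trans_eq (by simp))
  refine (h1 fun a => h1 fun b => h1 fun c => h1 fun a' => h1 fun b' => h1 fun c' =>
    hb a b c a' b' c').trans_eq ?_
  ring

theorem cPhi_comp (A B C M : Mat k) (X Y : Ten k) :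
    cPhi A B C X (fun a b c => ∑ d, M a d * Y d b c) = cPhi (A * M) B C X Y := by
  have e : tvec (fun a b c => ∑ d, M a d * Y d b c) = kr M 1 1 *ᵥ tvec Y := by
    funext ⟨a, b, c⟩
    simp [kr_apply, one_apply]
    rfl
  rw [cPhi_eq, cPhi_eq, e, mulVec_mulVec, kr_mul, mul_one, mul_one]

theorem Sand.cS_cX (h : Sand A a b) (C : Ten k) : cS A (cX A C) = (3 : ℝ) • C := by
  let L : Ten k →ₗ[ℝ] Ten k :=
    { toFun := cS A, map_add' := cS_add A, map_smul' := cS_smul A }
  have hinj : Function.Injective L := fun X Y he => h.cS_inj he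
  have hex : ∃ X, cS A X = (3 : ℝ) • C :=
    (LinearMap.injective_iff_surjective.1 hinj) ((3 : ℝ) • C)
  rw [cX, dif_pos hex]
  exact hex.choose_spec

theorem Sand.symm3_cX (h : Sand A a b) {C : Ten k} (hC : Symm3 C) : Symm3 (cX A C) := by
  have e1 : (fun a b c => cX A C b a c) = cX A C := h.cS_inj (by
    rw [cS_perm₁, h.cS_cX]
    funext a b c
    simp [← (hC a b c).1])
  have e2 : (fun a b c => cX A C a c b) = cX A C := h.cS_inj (by
    rw [cS_perm₂, h.cS_cX]
    funext a b c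
    simp [← (hC a b c).2])
  exact fun a b c => ⟨(congrFun (congrFun (congrFun e1 a) b) c).symm,
    (congrFun (congrFun (congrFun e2 a) b) c).symm⟩

theorem Sand.abs_cX_le (h : Sand A a b) (C : Ten k) (i j l : Fin k) :
    |cX A C i j l| ≤ tnrm C / a :=
  h.entry_le (h.cS_cX C) i j l

theorem Sand.cX_lipschitz (h : Sand A a b) (h' : Sand A' a b) (C : Ten k) (i j l : Fin k) :
    |cX A C i j l - cX A' C i j l|
      ≤ (k : ℝ) ^ 2 * tnrm C / a ^ 2 * ∑ p, ∑ q, |A p q - A' p q| := by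
  set X := cX A C with hX
  set X' := cX A' C with hX'
  set S := ∑ p, ∑ q, |A p q - A' p q| with hS
  set ξ := tnrm C / a with hξ
  have hξ0 : 0 ≤ ξ := div_nonneg (Real.sqrt_nonneg _) h.pos.le
  have hS0 : 0 ≤ S := Finset.sum_nonneg fun _ _ => Finset.sum_nonneg fun _ _ => abs_nonneg _
  set D : Ten k := (1 / 3 : ℝ) • cS (A' - A) X' with hD
  have hZ : cS A (X + (-1 : ℝ) • X') = (3 : ℝ) • D := by
    rw [cS_add, cS_smul, h.cS_cX C, ← h'.cS_cX C, hD]
    funext a b c
    simp only [cS, Pi.add_apply, Pi.smul_apply, smul_eq_mul, Matrix.sub_apply, Finset.mul_sum,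
      ← Finset.sum_add_distrib, ← hX']
    exact Finset.sum_congr rfl fun d _ => by ring
  have hDb : ∀ p q r, D p q r ^ 2 ≤ (S * ξ) ^ 2 := fun p q r => by
    have hrow : ∀ p (g : Fin k → ℝ), (∀ d, |g d| ≤ ξ) → |∑ d, (A' - A) p d * g d| ≤ S * ξ := by
      intro p g hg
      refine (Finset.abs_sum_le_sum_abs _ _).trans ?_
      calc ∑ d, |(A' - A) p d * g d| ≤ ∑ d, |A p d - A' p d| * ξ := by
            refine Finset.sum_le_sum fun d _ => ?_
            rw [abs_mul, Matrix.sub_apply, abs_sub_comm]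
            exact mul_le_mul_of_nonneg_left (hg d) (abs_nonneg _)
        _ ≤ S * ξ := by
            rw [← Finset.sum_mul]
            refine mul_le_mul_of_nonneg_right ?_ hξ0
            exact Finset.single_le_sum (f := fun p => ∑ d, |A p d - A' p d|)
              (fun p _ => Finset.sum_nonneg fun d _ => abs_nonneg _) (Finset.mem_univ p)
    have b1 := hrow p (fun d => X' d q r) (fun d => h'.abs_cX_le C d q r)
    have b2 := hrow q (fun d => X' p d r) (fun d => h'.abs_cX_le C p d r)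
    have b3 := hrow r (fun d => X' p q d) (fun d => h'.abs_cX_le C p q d)
    refine sq_le_sq' ?_ ?_ <;>
      simp only [hD, Pi.smul_apply, smul_eq_mul, cS, Finset.sum_add_distrib] <;>
      linarith [abs_le.1 b1, abs_le.1 b2, abs_le.1 b3]
  have hk : (1 : ℝ) ≤ k := by exact_mod_cast i.pos
  have hDn : tnrm D ≤ (k : ℝ) ^ 2 * (S * ξ) := by
    rw [tnrm, Real.sqrt_le_iff]
    refine ⟨by positivity, (Finset.sum_le_sum fun p _ => Finset.sum_le_sum fun q _ =>
      Finset.sum_le_sum fun r _ => hDb p q r).trans ?_⟩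
    simp only [Finset.sum_const, Finset.card_univ, Fintype.card_fin, nsmul_eq_mul]
    nlinarith [mul_nonneg (mul_nonneg (show (0 : ℝ) ≤ k ^ 3 by positivity) (sub_nonneg.2 hk))
      (sq_nonneg (S * ξ))]
  have := (h.entry_le hZ i j l).trans (div_le_div_of_nonneg_right hDn h.pos.le)
  simp only [Pi.add_apply, Pi.smul_apply, smul_eq_mul, neg_mul, one_mul] at this
  rw [← sub_eq_add_neg] at this
  refine this.trans_eq ?_
  rw [hξ]
  field_simp

theorem Sand.continuous_cX {X : Type} [TopologicalSpace X] {f : X → Mat k}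
    (hf : Continuous f) (h : ∀ x, Sand (f x) a b) (C : Ten k) (i j l : Fin k) :
    Continuous fun x => cX (f x) C i j l := by
  refine continuous_iff_continuousAt.2 fun x₀ => ?_
  have hs : Filter.Tendsto
      (fun x => (k : ℝ) ^ 2 * tnrm C / a ^ 2 * ∑ p, ∑ q, |f x p q - f x₀ p q|)
      (nhds x₀) (nhds 0) := by
    have hc : Continuous fun x =>
        (k : ℝ) ^ 2 * tnrm C / a ^ 2 * ∑ p, ∑ q, |f x p q - f x₀ p q| := by fun_prop
    simpa using hc.tendsto x₀
  rw [ContinuousAt, tendsto_iff_norm_sub_tendsto_zero]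
  refine squeeze_zero (fun x => norm_nonneg _) (fun x => ?_) hs
  rw [Real.norm_eq_abs]
  exact (h x).cX_lipschitz (h x₀) C i j l

/-- The gain identity. -/
theorem Sand.cPhi_cX (h : Sand A a b) {C Y : Ten k} (hC : Symm3 C) (hY : Symm3 Y) :
    cPhi 1 1 A (cX A C) Y = ∑ i, ∑ j, ∑ l, C i j l * Y i j l := by
  set X := cX A C with hX
  have hXs : Symm3 X := h.symm3_cX hC
  have hA : ∀ p q, A p q = A q p := fun p q => congrFun (congrFun h.symm q) p
  have e : cPhi 1 1 A X Y = ∑ p, ∑ q, ∑ r, (∑ d, A r d * X p q d) * Y p q r := by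
    simp only [cPhi, one_apply, mul_ite, ite_mul, mul_one, mul_zero, zero_mul,
      Finset.sum_ite_irrel, Finset.sum_const_zero, Finset.sum_ite_eq, Finset.mem_univ, if_true]
    refine Finset.sum_congr rfl fun p _ => Finset.sum_congr rfl fun q _ => ?_
    rw [Finset.sum_comm]
    refine Finset.sum_congr rfl fun r _ => ?_
    rw [Finset.sum_mul]
    exact Finset.sum_congr rfl fun d _ => by rw [hA r d]; ring
  have e1 : ∑ p, ∑ q, ∑ r, (∑ d, A p d * X d q r) * Y p q r = cPhi 1 1 A X Y := by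
    rw [e, Finset.sum_comm_cycle, Finset.sum_comm_cycle]
    refine Finset.sum_congr rfl fun u _ => Finset.sum_congr rfl fun v _ =>
      Finset.sum_congr rfl fun w _ => ?_
    rw [(hY w u v).1, (hY u w v).2]
    congr 1
    exact Finset.sum_congr rfl fun d _ => by rw [(hXs d u v).1, (hXs u d v).2]
  have e2 : ∑ p, ∑ q, ∑ r, (∑ d, A q d * X p d r) * Y p q r = cPhi 1 1 A X Y := by
    rw [e]
    refine Finset.sum_congr rfl fun p _ => ?_
    rw [Finset.sum_comm]
    refine Finset.sum_congr rfl fun r _ => Finset.sum_congr rfl fun q _ => ?_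
    rw [(hY p q r).2]
    congr 1
    exact Finset.sum_congr rfl fun d _ => by rw [(hXs p d r).2]
  have h3 : ∑ p, ∑ q, ∑ r, cS A X p q r * Y p q r
      = 3 * ∑ p, ∑ q, ∑ r, C p q r * Y p q r := by
    rw [hX, h.cS_cX C]
    simp only [Finset.mul_sum, Pi.smul_apply, smul_eq_mul, mul_assoc]
  simp only [cS, Finset.sum_add_distrib, add_mul] at h3
  rw [e1, e2, ← e] at h3
  linarith

theorem cPhi_swap₁ (A B C : Mat k) {X Y : Ten k} (hX : Symm3 X) (hY : Symm3 Y) :
    cPhi A B C X Y = cPhi B A C X Y := by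
  rw [cPhi, cPhi, Finset.sum_comm]
  refine Finset.sum_congr rfl fun a _ => Finset.sum_congr rfl fun b _ =>
    Finset.sum_congr rfl fun c _ => ?_
  rw [Finset.sum_comm]
  refine Finset.sum_congr rfl fun a' _ => Finset.sum_congr rfl fun b' _ =>
    Finset.sum_congr rfl fun c' _ => ?_
  rw [(hX a b c).1, (hY a' b' c').1]
  ring

theorem cPhi_swap₂ (A B C : Mat k) {X Y : Ten k} (hX : Symm3 X) (hY : Symm3 Y) :
    cPhi A B C X Y = cPhi A C B X Y := by
  rw [cPhi, cPhi]
  refine Finset.sum_congr rfl fun a _ => ?_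
  rw [Finset.sum_comm]
  refine Finset.sum_congr rfl fun b _ => Finset.sum_congr rfl fun c _ =>
    Finset.sum_congr rfl fun a' _ => ?_
  rw [Finset.sum_comm]
  refine Finset.sum_congr rfl fun b' _ => Finset.sum_congr rfl fun c' _ => ?_
  rw [(hX a b c).2, (hY a' b' c').2]
  ring

theorem Psd.kr_nonneg (h : Psd A) (Z : Fin k × Fin k × Fin k → ℝ) :
    0 ≤ Z ⬝ᵥ kr A 1 1 *ᵥ Z := by
  have e : Z ⬝ᵥ kr A 1 1 *ᵥ Z
      = ∑ q, ∑ r, (fun p => Z (p, q, r)) ⬝ᵥ A *ᵥ fun p => Z (p, q, r) := by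
    simp only [dotProduct, mulVec, kr, Fintype.sum_prod_type, kroneckerMap_apply, one_apply,
      mul_ite, ite_mul, mul_one, mul_zero, zero_mul, Finset.sum_ite_irrel, Finset.sum_const_zero,
      Finset.sum_ite_eq, Finset.mem_univ, if_true]
    rw [Finset.sum_comm]
    exact Finset.sum_congr rfl fun q _ => Finset.sum_comm
  rw [e]
  exact Finset.sum_nonneg fun q _ => Finset.sum_nonneg fun r _ => h.2 _

/-- The cost inequality. Proof: with `m p q r = cPhi (A^p) (A^q) (A^r) X X` for `X = cX A C`, symmetric in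
`p q r`, testing the nonnegative form `cPhi A 1 1` on the differences of two actions gives
`m 3 0 0 ≥ m 2 1 0 ≥ m 1 1 1`, and `27 * cPhi A 1 1 C C = 3 * m 3 0 0 + 18 * m 2 1 0 + 6 * m 1 1 1`. -/
theorem Sand.cPhi_cube_le (h : Sand A a b) {C : Ten k} (hC : Symm3 C) :
    cPhi A A A (cX A C) (cX A C) ≤ cPhi A 1 1 C C := by
  set X := cX A C with hX
  have hs : Symm3 X := h.symm3_cX hC
  set x := tvec X with hx
  have hpair : ∀ P Q R P' Q' R' : Mat k,
      (kr P Q R *ᵥ x) ⬝ᵥ kr A 1 1 *ᵥ (kr P' Q' R' *ᵥ x)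
        = cPhi (P.transpose * A * P') (Q.transpose * Q') (R.transpose * R') X X := by
    intro P Q R P' Q' R'
    rw [cPhi_eq, mulVec_mulVec, kr_mul, dotProduct_comm, dotProduct_mulVec,
      ← mulVec_transpose, mulVec_mulVec, kr_transpose, kr_mul, one_mul, one_mul, mul_assoc,
      dotProduct_comm]
  have hC3 : (3 : ℝ) • tvec C = kr A 1 1 *ᵥ x + kr 1 A 1 *ᵥ x + kr 1 1 A *ᵥ x := by
    rw [← tvec_cS, hX, h.cS_cX C]
    rfl
  have p1 := h.psd.kr_nonneg (kr A 1 1 *ᵥ x - kr 1 A 1 *ᵥ x)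
  have p2 := h.psd.kr_nonneg (kr 1 A 1 *ᵥ x - kr 1 1 A *ᵥ x)
  have p3 : 9 * cPhi A 1 1 C C = ((3 : ℝ) • tvec C) ⬝ᵥ kr A 1 1 *ᵥ ((3 : ℝ) • tvec C) := by
    rw [cPhi_eq, mulVec_smul, dotProduct_smul, smul_dotProduct, smul_eq_mul, smul_eq_mul]
    ring
  rw [hC3] at p3
  simp only [mulVec_add, mulVec_sub, dotProduct_add, dotProduct_sub, add_dotProduct,
    sub_dotProduct] at p1 p2 p3
  simp only [hpair, transpose_one, h.symm, one_mul, mul_one] at p1 p2 p3
  have w1 : cPhi A (A * A) 1 X X = cPhi (A * A) A 1 X X := cPhi_swap₁ _ _ _ hs hs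
  have w2 : cPhi A 1 (A * A) X X = cPhi (A * A) A 1 X X := by rw [cPhi_swap₂ _ _ _ hs hs, w1]
  have w3 : cPhi (A * A) 1 A X X = cPhi (A * A) A 1 X X := cPhi_swap₂ _ _ _ hs hs
  rw [w1, w3, w2] at p3
  rw [w1] at p1
  rw [w1, w2] at p2
  linarith

end Vale.P254.Skew
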