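import Mathlib

/-! # Skewness of isotropic log-concave measures: definitions -/

namespace Vale.P254.Skew

open MeasureTheory

/-- Euclidean space. -/
abbrev E (k : ℕ) : Type := EuclideanSpace ℝ (Fin k)

variable {k : ℕ}

/-- The Hessian. -/
noncomputable def D2 (W : E k → ℝ) (x v w : E k) : ℝ := fderiv ℝ (fderiv ℝ W) x v w

/-- Twice differentiable with Hessian between `a` and `b`. -/
structure Pinched (W : E k → ℝ) (a b : ℝ) : Prop where
  smooth : ContDiff ℝ 2 W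
  pos : 0 < a
  lower : ∀ x w, a * ‖w‖ ^ 2 ≤ D2 W x w w
  upper : ∀ x w, D2 W x w w ≤ b * ‖w‖ ^ 2

/-- Continuous of at most polynomial growth. -/
def Tame {F : Type*} [NormedAddCommGroup F] (f : E k → F) : Prop :=
  Continuous f ∧ ∃ (C : ℝ) (n : ℕ), ∀ x, ‖f x‖ ≤ C * (1 + ‖x‖) ^ n

/-- The mass of `exp (-W)`. -/
noncomputable def Zc (W : E k → ℝ) : ℝ := ∫ x, Real.exp (-W x)

/-- The expectation for the probability measure proportional to `exp (-W)`. -/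
noncomputable def ex {F : Type*} [NormedAddCommGroup F] [NormedSpace ℝ F] (W : E k → ℝ)
    (f : E k → F) : F :=
  (Zc W)⁻¹ • ∫ x, Real.exp (-W x) • f x

/-- The tilt by a linear function. -/
noncomputable def tilt (W : E k → ℝ) (θ : E k) : E k → ℝ := fun x => W x - inner ℝ θ x

/-- The logarithmic Laplace transform. -/
noncomputable def logLap (W : E k → ℝ) (θ : E k) : ℝ := Real.log (Zc (tilt W θ))

/-- The hypotheses on the potential. -/
structure Hyp (V : E k → ℝ) (B : E k →L[ℝ] E k →L[ℝ] ℝ) (ε Λ : ℝ) : Prop where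
  pin : Pinched V ε Λ
  Bsymm : ∀ v w, B v w = B w v
  Bnonneg : ∀ w, 0 ≤ B w w
  Ble : ∀ x w, B w w ≤ D2 V x w w
  mass : Zc V = 1
  mean : ∀ w : E k, ex V (fun x => inner ℝ x w) = 0
  cov : ∀ v w : E k, ex V (fun x => inner ℝ x v * inner ℝ x w) = inner ℝ v w

/-- The coordinate third moment. -/
noncomputable def third (V : E k → ℝ) (i j l : Fin k) : ℝ :=
  ex V (fun x => x i * x j * x l)

/-- The trace of `B`. -/
noncomputable def trB (B : E k →L[ℝ] E k →L[ℝ] ℝ) : ℝ :=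
  ∑ i, B (EuclideanSpace.single i 1) (EuclideanSpace.single i 1)

/-- The goal of this folder. -/
def SkewStmt : Prop :=
  ∀ (k : ℕ) (V : E k → ℝ) (B : E k →L[ℝ] E k →L[ℝ] ℝ) (ε Λ : ℝ), Hyp V B ε Λ →
    ∑ i, ∑ j, ∑ l, third V i j l ^ 2 ≤ 4 * ((k : ℝ) - trB B)

/-- A soft moment map at scale `s`. -/
structure Soft (V : E k → ℝ) (ε Λ s : ℝ) where
  φ : E k → ℝ
  ψ : E k → ℝ
  pinφ : Pinched φ ε Λ
  pinψ : Pinched ψ (1 / ((1 + s) * Λ)) (1 / ((1 + s) * ε))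
  margX : ∀ y, ∫ x, Real.exp (-(V x + (φ x - inner ℝ x y) / s)) = Real.exp (ψ y / s)
  margY : ∀ x, ∫ y, Real.exp (-(((1 + s) * ψ y - inner ℝ x y) / s)) = Real.exp (φ x / s)
  mass : Zc ψ = 1

/-- Existence of soft moment maps. -/
def SoftStmt : Prop :=
  ∀ (k : ℕ) (V : E k → ℝ) (B : E k →L[ℝ] E k →L[ℝ] ℝ) (ε Λ : ℝ), Hyp V B ε Λ → ε ≤ Λ →
    ∀ s : ℝ, 0 < s → Nonempty (Soft V ε Λ s)

end Vale.P254.Skew
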