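import Vale.Agent.P254.Skew.Prim

/-! # The four costs agree up to `O(σ)`, where `s = σ ^ 4` -/

namespace Vale.P254.Skew

open MeasureTheory Matrix

variable {k : ℕ} {V : E k → ℝ} {B : E k →L[ℝ] E k →L[ℝ] ℝ} {ε Λ s : ℝ}

theorem Pinched.abs_ex_sub_le {W : E k → ℝ} {a b : ℝ} (h : Pinched W a b) {f g m : E k → ℝ}
    (hf : Tame f) (hg : Tame g) (hm : Tame m) (hle : ∀ x, |f x - g x| ≤ m x) :
    |ex W f - ex W g| ≤ ex W m := by
  rw [← h.ex_sub hf hg]
  exact (h.ex_abs_le (hf.sub hg)).trans (h.ex_mono (hf.sub hg).norm hm hle)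

/-- `σ ^ n ≤ σ` for `0 < σ ≤ 1` and `n ≠ 0`, with a constant. -/
theorem const_mul_pow_le {K σ : ℝ} (hK : 0 ≤ K) (h0 : 0 < σ) (h1 : σ ≤ 1) {n : ℕ} (hn : n ≠ 0) :
    K * σ ^ n ≤ K * σ :=
  mul_le_mul_of_nonneg_left (pow_le_of_le_one h0.le h1 hn) hK

namespace Ctx

variable (c : Ctx V B ε Λ s)

theorem abs_EE_sub_le {F F' M : E k → E k → ℝ} (hF : Tame2 F) (hF' : Tame2 F') (hM : Tame2 M)
    (h : ∀ x y, |F x y - F' x y| ≤ M x y) : |c.EE F - c.EE F'| ≤ c.EE M := by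
  rw [← c.EE_sub hF hF', abs_le]
  constructor
  · rw [neg_le, show -c.EE (fun x y => F x y - F' x y)
      = c.EE (fun x y => (-1 : ℝ) * (F x y - F' x y)) by rw [c.EE_const_mul, neg_one_mul]]
    exact c.EE_mono ((Tame2.const _).mul (hF.sub hF')) hM fun x y => by
      linarith [(abs_le.1 (h x y)).1]
  · exact c.EE_mono (hF.sub hF') hM fun x y => (le_abs_self _).trans (h x y)

theorem EE_quad {v : E k → E k → Fin k → ℝ} (hv : ∀ i, Tame2 fun x y => v x y i)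
    {Q : Fin k × Fin k → E k → ℝ} (hQ : ∀ pq, Tame (Q pq)) :
    c.EE (fun x y => ∑ pq : Fin k × Fin k, sq1 (v x y) pq.1 pq.2 * Q pq x)
      = ex V fun x => ∑ pq : Fin k × Fin k,
          c.Ex x (fun y => v x y pq.1 * v x y pq.2) * Q pq x := by
  refine ex_congr fun x => ?_
  simp only [sq1, Matrix.of_apply, Ex]
  rw [(c.pinU' x).ex_sum _ fun pq _ =>
    (((hv pq.1).section_right x).mul ((hv pq.2).section_right x)).mul (Tame.const _)]
  exact Finset.sum_congr rfl fun pq _ => ex_mul_const _ _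

theorem EE_sum_sq_sq_le {v : E k → E k → Fin k → ℝ} (hv : ∀ i, Tame2 fun x y => v x y i)
    {r : ℝ} (h : ∀ i, c.EE (fun x y => v x y i ^ 4) ≤ r) :
    c.EE (fun x y => (∑ l, v x y l ^ 2) ^ 2) ≤ (k : ℝ) ^ 2 * r := by
  have t4 : ∀ i, Tame2 fun x y => v x y i ^ 4 := fun i => (hv i).pow 4
  refine (c.EE_mono ((Tame2.sum _ fun i _ => (hv i).pow 2).pow 2)
    ((Tame2.const (k : ℝ)).mul (Tame2.sum Finset.univ fun i _ => t4 i)) fun x y => ?_).trans ?_
  · have h2 := sq_sum_le_card_mul_sum_sq (s := (Finset.univ : Finset (Fin k)))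
      (f := fun l => v x y l ^ 2)
    simp only [Finset.card_univ, Fintype.card_fin, ← pow_mul] at h2
    exact h2
  · rw [c.EE_const_mul]
    refine (mul_le_mul_of_nonneg_left ?_ (Nat.cast_nonneg k)).trans_eq
      (show (k : ℝ) * (k * r) = (k : ℝ) ^ 2 * r by ring)
    rw [EE, show ex V (fun x => c.Ex x fun y => ∑ i, v x y i ^ 4)
        = ex V (fun x => ∑ i, c.Ex x fun y => v x y i ^ 4) from
      ex_congr fun x => (c.pinU' x).ex_sum _ fun i _ => (t4 i).section_right x,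
      c.hyp.pin.ex_sum _ fun i _ => c.tame_Ex (t4 i)]
    exact (Finset.sum_le_sum fun i _ => h i).trans_eq (by simp)

theorem EE_sq_dh1_le :
    c.EE (fun x y => c.dh1 x y ^ 2) ≤ (k : ℝ) ^ 2 * (s * ((k : ℝ) ^ 2 * (2 / ε) ^ 2)) := by
  refine (c.EE_mono (c.tame2_dh1.pow 2) ((Tame2.const _).mul c.tame2_dh2) c.sq_dh1_le).trans ?_
  rw [c.EE_const_mul]
  exact mul_le_mul_of_nonneg_left c.EE_dh2_le (by positivity)

theorem abs_h_sub_H_le (x y : E k) (i j : Fin k) : |c.h y i j - c.H x i j| ≤ c.dh1 x y :=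
  abs_le_l1 (c.h y - c.H x) i j

theorem dh1_nonneg (x y : E k) : 0 ≤ c.dh1 x y := l1_nonneg _

end Ctx

/-- Replacing `h` by `H` in a rank-one square. -/
theorem abs_sq1_mulVec_sub_le {M M' : Mat k} {μ d : ℝ} (hM : ∀ i j, |M i j| ≤ μ)
    (hM' : ∀ i j, |M' i j| ≤ μ) (hd : ∀ i j, |M i j - M' i j| ≤ d) (v : Fin k → ℝ) (i j : Fin k) :
    |sq1 (M *ᵥ v) i j - sq1 (M' *ᵥ v) i j| ≤ 2 * k * μ * d * ∑ l, v l ^ 2 := by
  have hv : ∀ (N : Mat k) (r : ℝ), (∀ i j, |N i j| ≤ r) → ∀ i, |(N *ᵥ v) i| ≤ r * ∑ l, |v l| := by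
    intro N r hN i
    rw [Finset.mul_sum]
    show |∑ l, N i l * v l| ≤ _
    refine (Finset.abs_sum_le_sum_abs _ _).trans (Finset.sum_le_sum fun l _ => ?_)
    rw [abs_mul]
    exact mul_le_mul_of_nonneg_right (hN i l) (abs_nonneg _)
  have e : sq1 (M *ᵥ v) i j - sq1 (M' *ᵥ v) i j
      = ((M - M') *ᵥ v) i * (M *ᵥ v) j + (M' *ᵥ v) i * ((M - M') *ᵥ v) j := by
    simp only [sq1, Matrix.of_apply, Matrix.sub_mulVec, Pi.sub_apply]
    ring
  have hd' : ∀ i j, |(M - M') i j| ≤ d := hd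
  set S := ∑ l, |v l|
  have hS : S ^ 2 ≤ k * ∑ l, v l ^ 2 := by
    have h := sq_sum_le_card_mul_sum_sq (s := (Finset.univ : Finset (Fin k))) (f := fun l => |v l|)
    simpa [sq_abs, S] using h
  have h1 := mul_le_mul (hv _ _ hd' i) (hv _ _ hM j) (abs_nonneg _)
    ((abs_nonneg _).trans (hv _ _ hd' i))
  have h2 := mul_le_mul (hv _ _ hM' i) (hv _ _ hd' j) (abs_nonneg _)
    ((abs_nonneg _).trans (hv _ _ hM' i))
  rw [e]
  refine (abs_add_le _ _).trans ?_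
  rw [abs_mul, abs_mul]
  have h3 : 2 * μ * d * S ^ 2 ≤ 2 * μ * d * (k * ∑ l, v l ^ 2) := by
    refine mul_le_mul_of_nonneg_left hS ?_
    have := (abs_nonneg _).trans (hM i j)
    have := (abs_nonneg _).trans (hd i j)
    positivity
  linarith

/-- `G` against `H`: `|G - H| ≤ kD * D`. -/
theorem est_cost_GGH (hyp : Hyp V B ε Λ) (C : Ten k) :
    ∃ K : ℝ, ∀ σ : ℝ, ∀ c : Ctx V B ε Λ (σ ^ 4), 0 < σ → σ ≤ 1 →
      |ex V (fun x => cPhi (c.G x) (c.G x) (c.H x) (cX (c.H x) C) (cX (c.H x) C))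
        - ex V (c.cost C)| ≤ K * σ := by
  set K := (k : ℝ) ^ 6 * (2 * kD B ε * (2 / ε) ^ 2 * xB Λ C ^ 2)
      * (2 * Λ * ((k : ℝ) ^ 2 * (2 / ε) ^ 2) + 1)
  refine ⟨|K|, fun σ c hσ hσ1 => ?_⟩
  have hu := fun x => (c.sand_H x).abs_entry
  have hg := fun x => (c.sand_G x).abs_entry
  have hX := fun x => c.abs_cX_H_le C x
  have hkD : 0 ≤ kD B ε := zero_le_one.trans c.kD_nonneg
  refine (hyp.pin.abs_ex_sub_le
    (Ctx.tame_cPhi c.tame_G c.tame_G c.tame_H (c.tame_cX_H C) (c.tame_cX_H C))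
    (c.tame_cost C)
    (c.tame_D.const_mul ((k : ℝ) ^ 6 * (2 * kD B ε * (2 / ε) ^ 2 * xB Λ C ^ 2))) fun x => ?_).trans
    ?_
  · refine (abs_cPhi_sub_le (hg x) (hu x) (hg x) (hu x) (hu x) (hu x) (hX x) (hX x) (hX x) (hX x)
      (c.abs_G_sub_H_le x) (c.abs_G_sub_H_le x) (dC := 0) (dX := 0) (dY := 0)
      (fun i j => by simp) (fun i j l => by simp) (fun i j l => by simp)).trans (le_of_eq ?_)
    ring
  · rw [ex_const_mul]
    refine (mul_le_mul_of_nonneg_left c.ex_D_le (by positivity)).trans ?_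
    calc _ = K * σ ^ 4 := by ring
      _ ≤ |K| * σ ^ 4 := mul_le_mul_of_nonneg_right (le_abs_self _) (by positivity)
      _ ≤ _ := const_mul_pow_le (abs_nonneg _) hσ hσ1 (by norm_num)

/-- `h` against `H`: `dh1 ≤ k² σ² + dh2 / σ²`. -/
theorem est_cost_hhh (hyp : Hyp V B ε Λ) (C : Ten k) :
    ∃ K : ℝ, ∀ σ : ℝ, ∀ c : Ctx V B ε Λ (σ ^ 4), 0 < σ → σ ≤ 1 →
      |ex c.soft.ψ (fun y => cPhi (c.h y) (c.h y) (c.h y) (cX (c.h y) C) (cX (c.h y) C))
        - ex V (c.cost C)| ≤ K * σ := by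
  set K1 := (k : ℝ) ^ 6 * (3 * (2 / ε) ^ 2 * xB Λ C ^ 2 + 2 * (2 / ε) ^ 3 * xB Λ C * xL Λ C)
  refine ⟨|K1| * ((k : ℝ) ^ 2 + (k : ℝ) ^ 2 * (2 / ε) ^ 2), fun σ c hσ hσ1 => ?_⟩
  have hh := fun y => (c.sand_h y).abs_entry
  have hu := fun x => (c.sand_H x).abs_entry
  have th := Ctx.tame_cPhi c.tame_h c.tame_h c.tame_h (c.tame_cX_h C) (c.tame_cX_h C)
  rw [← c.EE_right th, ← c.EE_left (c.tame_cost C)]
  refine (c.abs_EE_sub_le th.tame2_right (c.tame_cost C).tame2_left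
    ((Tame2.const |K1|).mul ((Tame2.const ((k : ℝ) ^ 2 * σ ^ 2)).add
      ((Tame2.const (σ ^ 2)⁻¹).mul c.tame2_dh2))) fun x y => ?_).trans ?_
  · refine (abs_cPhi_sub_le (hh y) (hu x) (hh y) (hu x) (hh y) (hu x) (c.abs_cX_h_le C y)
      (c.abs_cX_H_le C x) (c.abs_cX_h_le C y) (c.abs_cX_H_le C x) (c.abs_h_sub_H_le x y)
      (c.abs_h_sub_H_le x y) (c.abs_h_sub_H_le x y) (c.abs_cX_sub_le C x y)
      (c.abs_cX_sub_le C x y)).trans ?_
    calc _ = K1 * c.dh1 x y := by ring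
      _ ≤ |K1| * c.dh1 x y := mul_le_mul_of_nonneg_right (le_abs_self _) (c.dh1_nonneg x y)
      _ ≤ _ := by
        refine mul_le_mul_of_nonneg_left ?_ (abs_nonneg _)
        rw [inv_mul_eq_div]
        exact c.dh1_le (by positivity) x y
  · rw [c.EE_const_mul, c.EE_add (Tame2.const _) ((Tame2.const _).mul c.tame2_dh2),
      c.EE_left (Tame.const _), hyp.pin.ex_const, c.EE_const_mul]
    calc _ ≤ |K1| * ((k : ℝ) ^ 2 * σ ^ 2 + (σ ^ 2)⁻¹ * (σ ^ 4 * ((k : ℝ) ^ 2 * (2 / ε) ^ 2))) := by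
          gcongr
          exact c.EE_dh2_le
      _ = |K1| * ((k : ℝ) ^ 2 + (k : ℝ) ^ 2 * (2 / ε) ^ 2) * σ ^ 2 := by field_simp
      _ ≤ _ := const_mul_pow_le (by positivity) hσ hσ1 (by norm_num)

/-- Replace `h` by `H` (`|η|² dh1 ≤ |η|⁴/σ² + σ² dh1²`), then `E[η ηᵀ|x] = s g` and `G g G = G`. -/
theorem est_cost_QY (hyp : Hyp V B ε Λ) (C : Ten k) :
    ∃ K : ℝ, ∀ σ : ℝ, ∀ c : Ctx V B ε Λ (σ ^ 4), 0 < σ → σ ≤ 1 →
      |(σ ^ 4)⁻¹ * c.EE (c.QY C) - ex V (c.cost C)| ≤ K * σ := by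
  set K1 := (k : ℝ) ^ 6 * (k * (2 / ε) ^ 2 * (2 / ε) * xB Λ C ^ 2)
  set K2 := (k : ℝ) ^ 2 * (96 * Λ ^ 2) + (k : ℝ) ^ 2 * ((k : ℝ) ^ 2 * (2 / ε) ^ 2)
  set K3 := (k : ℝ) ^ 6 * (kD B ε * (2 / ε) ^ 2 * xB Λ C ^ 2)
  set K4 := 2 * Λ * ((k : ℝ) ^ 2 * (2 / ε) ^ 2) + 1
  refine ⟨|K1| * K2 + |K3| * |K4|, fun σ c hσ hσ1 => ?_⟩
  have hh := fun y => (c.sand_h y).abs_entry
  have hu := fun x => (c.sand_H x).abs_entry
  have hg := fun x => (c.sand_G x).abs_entry
  have hX := fun x => c.abs_cX_H_le C x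
  set Q : Fin k × Fin k → E k → ℝ := fun pq x =>
    cPhi (colOuter (c.G x) pq.1 pq.2) (c.H x) (c.H x) (cX (c.H x) C) (cX (c.H x) C) with hQ
  have tQ : ∀ pq, Tame (Q pq) := fun pq => Ctx.tame_cPhi
    (fun i j => (c.tame_G i pq.1).mul (c.tame_G j pq.2)) c.tame_H c.tame_H (c.tame_cX_H C)
    (c.tame_cX_H C)
  set F : E k → E k → ℝ := fun x y =>
    cPhi (sq1 (c.G x *ᵥ c.η x y)) (c.H x) (c.H x) (cX (c.H x) C) (cX (c.H x) C)
  have tF : Tame2 F := by
    have e : F = fun x y => ∑ pq : Fin k × Fin k, sq1 (c.η x y) pq.1 pq.2 * Q pq x :=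
      funext fun x => funext fun y => cPhi_sq1 _ _ _ _ _ _
    rw [e]
    exact Tame2.sum _ fun pq _ =>
      ((c.tame2_η pq.1).mul (c.tame2_η pq.2)).mul (tQ pq).tame2_left
  -- replace `h` by `H`
  set S : E k → E k → ℝ := fun x y => ∑ l, c.η x y l ^ 2
  have tS : Tame2 S := Tame2.sum _ fun l _ => (c.tame2_η l).pow 2
  have h1 : |c.EE (c.QY C) - c.EE F| ≤ |K1| * K2 * σ ^ 6 := by
    refine (c.abs_EE_sub_le (c.tame2_QY C) tF ((Tame2.const |K1|).mul
      (((Tame2.const (σ ^ 2)⁻¹).mul (tS.pow 2)).add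
        ((Tame2.const (σ ^ 2)).mul (c.tame2_dh1.pow 2)))) fun x y => ?_).trans ?_
    · have hq := abs_sq1_mulVec_le (hg x) (c.η x y)
      refine (abs_cPhi_sub_le hq hq (hh y) (hu x) (hu x) (hu x) (hX x) (hX x) (hX x) (hX x)
        (dA := 0) (dC := 0) (dX := 0) (dY := 0) (fun i j => by simp) (c.abs_h_sub_H_le x y)
        (fun i j => by simp) (fun i j l => by simp) (fun i j l => by simp)).trans ?_
      have hS : 0 ≤ S x y := Finset.sum_nonneg fun l _ => sq_nonneg _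
      calc _ = K1 * (S x y * c.dh1 x y) := by ring
        _ ≤ |K1| * (S x y * c.dh1 x y) :=
            mul_le_mul_of_nonneg_right (le_abs_self _) (mul_nonneg hS (c.dh1_nonneg x y))
        _ ≤ _ := by
          refine mul_le_mul_of_nonneg_left ?_ (abs_nonneg _)
          have h0 := two_mul_le_add_sq (S x y / σ) (σ * c.dh1 x y)
          rw [show 2 * (S x y / σ) * (σ * c.dh1 x y) = 2 * (S x y * c.dh1 x y) by field_simp,
            div_pow, div_eq_inv_mul, mul_pow] at h0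
          linarith [mul_nonneg hS (c.dh1_nonneg x y)]
    · rw [c.EE_const_mul, c.EE_add ((Tame2.const _).mul (tS.pow 2))
        ((Tame2.const _).mul (c.tame2_dh1.pow 2)), c.EE_const_mul, c.EE_const_mul, mul_assoc |K1|]
      refine mul_le_mul_of_nonneg_left ?_ (abs_nonneg _)
      refine (add_le_add (mul_le_mul_of_nonneg_left
        (c.EE_sum_sq_sq_le c.tame2_η c.EE_η_four_le) (by positivity))
        (mul_le_mul_of_nonneg_left c.EE_sq_dh1_le (sq_nonneg σ))).trans (le_of_eq ?_)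
      simp only [K2]
      field_simp
  -- the main term
  have h2 : c.EE F = σ ^ 4 * ex V (fun x =>
      cPhi (c.G x) (c.H x) (c.H x) (cX (c.H x) C) (cX (c.H x) C)) := by
    rw [← ex_const_mul, show F = fun x y => ∑ pq : Fin k × Fin k,
      sq1 (c.η x y) pq.1 pq.2 * Q pq x from funext fun x => funext fun y => cPhi_sq1 _ _ _ _ _ _,
      c.EE_quad c.tame2_η tQ]
    refine ex_congr fun x => ?_
    simp only [c.Ex_ηη, hQ, mul_assoc, ← Finset.mul_sum]
    rw [← cPhi_sum_left Finset.univ (fun pq : Fin k × Fin k => c.g x pq.1 pq.2),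
      sum_smul_colOuter, c.G_mul_g, Matrix.one_mul, (c.sand_G x).symm]
  have tG := Ctx.tame_cPhi c.tame_G c.tame_H c.tame_H (c.tame_cX_H C) (c.tame_cX_H C)
  have h3 : |ex V (fun x => cPhi (c.G x) (c.H x) (c.H x) (cX (c.H x) C) (cX (c.H x) C))
      - ex V (c.cost C)| ≤ |K3| * |K4| * σ ^ 4 := by
    refine (hyp.pin.abs_ex_sub_le tG (c.tame_cost C) (c.tame_D.const_mul K3) fun x => ?_).trans ?_
    · refine (abs_cPhi_sub_le (hg x) (hu x) (hu x) (hu x) (hu x) (hu x) (hX x) (hX x) (hX x)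
        (hX x) (c.abs_G_sub_H_le x) (dB := 0) (dC := 0) (dX := 0) (dY := 0)
        (fun i j => by simp) (fun i j => by simp) (fun i j l => by simp)
        (fun i j l => by simp)).trans (le_of_eq ?_)
      ring
    · rw [ex_const_mul]
      calc K3 * ex V c.D ≤ |K3| * ex V c.D :=
            mul_le_mul_of_nonneg_right (le_abs_self _) (hyp.pin.ex_nonneg c.D_nonneg)
        _ ≤ |K3| * (σ ^ 4 * K4) := mul_le_mul_of_nonneg_left c.ex_D_le (abs_nonneg _)
        _ ≤ |K3| * (σ ^ 4 * |K4|) := by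
          gcongr
          exact le_abs_self _
        _ = _ := by ring
  have h4 : |(σ ^ 4)⁻¹ * c.EE (c.QY C) - ex V (fun x =>
      cPhi (c.G x) (c.H x) (c.H x) (cX (c.H x) C) (cX (c.H x) C))| ≤ |K1| * K2 * σ ^ 2 := by
    have e : (σ ^ 4)⁻¹ * c.EE (c.QY C) - ex V (fun x =>
        cPhi (c.G x) (c.H x) (c.H x) (cX (c.H x) C) (cX (c.H x) C))
        = (σ ^ 4)⁻¹ * (c.EE (c.QY C) - c.EE F) := by rw [h2]; field_simp
    rw [e, abs_mul, abs_inv, abs_of_pos (pow_pos hσ 4)]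
    calc _ ≤ (σ ^ 4)⁻¹ * (|K1| * K2 * σ ^ 6) := mul_le_mul_of_nonneg_left h1 (by positivity)
      _ = _ := by field_simp
  refine (abs_sub_le _ _ _).trans ((add_le_add h4 h3).trans ?_)
  rw [add_mul]
  exact add_le_add (const_mul_pow_le (by positivity) hσ hσ1 (by norm_num))
    (const_mul_pow_le (by positivity) hσ hσ1 (by norm_num))

/-- Replace `h` by `H` (`dh1 |W'|² ≤ dh1²/σ⁶ + σ⁶ |W'|⁴`), then `E[W'W'ᵀ|x] = ∇V∇Vᵀ + g/s` by `dW_eq`,
and `H g H` is `H` up to `H g (H - G)`. -/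
theorem est_cost_QX (hyp : Hyp V B ε Λ) (C : Ten k) :
    ∃ K : ℝ, ∀ σ : ℝ, ∀ c : Ctx V B ε Λ (σ ^ 4), 0 < σ → σ ≤ 1 →
      |σ ^ 4 * c.EE (c.QX C) - ex V (c.cost C)| ≤ K * σ := by
  set u := (2 : ℝ) / ε with hudef
  set ξ := xB Λ C with hξdef
  set K1 := (k : ℝ) ^ 6 * (u * (2 * k * u) * u * ξ ^ 2 + u * (k * u ^ 2) * ξ ^ 2
    + 2 * (u * (k * u ^ 2) * u * ξ * xL Λ C))
  set dv : Fin k → E k → ℝ := fun i x => fderiv ℝ V x (bv i) with hdv
  set M4 := (∑ i, ex V (fun x => dv i x ^ 4))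
  set K2 := (k : ℝ) ^ 2 * (8 * (M4 + 96 * Λ ^ 2)) + (k : ℝ) ^ 2 * ((k : ℝ) ^ 2 * u ^ 2)
  set β := (k : ℝ) ^ 2 * u ^ 2 * Λ + u with hβ
  set K3 := (k : ℝ) ^ 6 * (2 * kD B ε * β * u * ξ ^ 2
    + u * ((k : ℝ) ^ 2 * u * Λ * kD B ε) * u * ξ ^ 2)
  set K4 := 2 * Λ * ((k : ℝ) ^ 2 * u ^ 2) + 1
  set K5 := (k : ℝ) ^ 6 * (u * u ^ 2 * u * ξ ^ 2)
  set M2 := (∑ pq : Fin k × Fin k, ex V (fun x => dv pq.1 x ^ 2 + dv pq.2 x ^ 2))
  refine ⟨|K1| * |K2| + |K3| * |K4| + |K5| * |M2|, fun σ c hσ hσ1 => ?_⟩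
  have hh := fun y => (c.sand_h y).abs_entry
  have hu := fun x => (c.sand_H x).abs_entry
  have hΓ := fun x => (c.sand_Γ x).abs_entry
  have hg := fun x => (c.sand_g x).abs_entry
  have hX := fun x => c.abs_cX_H_le C x
  have hkD : 0 ≤ kD B ε := zero_le_one.trans c.kD_nonneg
  have hΛ := c.hΛ
  have hu0 : 0 < u := c.hu
  have tv : ∀ i, Tame (dv i) := fun i => hyp.pin.tame_fderiv_apply _
  set Q : Fin k × Fin k → E k → ℝ := fun pq x =>
    cPhi (c.Γ x) (colOuter (c.H x) pq.1 pq.2) (c.H x) (cX (c.H x) C) (cX (c.H x) C) with hQ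
  have tQ : ∀ pq, Tame (Q pq) := fun pq => Ctx.tame_cPhi c.tame_Γ
    (fun i j => (c.tame_H i pq.1).mul (c.tame_H j pq.2)) c.tame_H (c.tame_cX_H C) (c.tame_cX_H C)
  set F : E k → E k → ℝ := fun x y =>
    cPhi (c.Γ x) (sq1 (c.H x *ᵥ c.dW y x)) (c.H x) (cX (c.H x) C) (cX (c.H x) C)
  have eF : F = fun x y => ∑ pq : Fin k × Fin k, sq1 (c.dW y x) pq.1 pq.2 * Q pq x :=
    funext fun x => funext fun y => cPhi_sq1_mid _ _ _ _ _ _
  have tF : Tame2 F := by
    rw [eF]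
    exact Tame2.sum _ fun pq _ =>
      ((c.tame2_dW pq.1).mul (c.tame2_dW pq.2)).mul (tQ pq).tame2_left
  set S : E k → E k → ℝ := fun x y => ∑ l, c.dW y x l ^ 2
  have tS : Tame2 S := Tame2.sum _ fun l _ => (c.tame2_dW l).pow 2
  -- replace `h` by `H`
  have h1 : |σ ^ 4 * c.EE (c.QX C) - σ ^ 4 * c.EE F| ≤ |K1| * |K2| * σ ^ 2 := by
    rw [← mul_sub, abs_mul, abs_of_pos (pow_pos hσ 4)]
    refine (mul_le_mul_of_nonneg_left ((c.abs_EE_sub_le (c.tame2_QX C) tF ((Tame2.const |K1|).mul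
      (((Tame2.const (σ ^ 6)).mul (tS.pow 2)).add
        ((Tame2.const (σ ^ 6)⁻¹).mul (c.tame2_dh1.pow 2)))) fun x y => ?_).trans ?_)
      (by positivity)).trans (le_of_eq (show σ ^ 4 * (|K1| * (|K2| / σ ^ 2)) = _ by field_simp))
    · have hq := abs_sq1_mulVec_le (hh y) (c.dW y x)
      have hq' := abs_sq1_mulVec_le (hu x) (c.dW y x)
      refine (abs_cPhi_sub_le (hΓ x) (hΓ x) hq hq' (hh y) (hu x) (c.abs_cX_h_le C y) (hX x)
        (c.abs_cX_h_le C y) (hX x) (dA := 0) (fun i j => by simp)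
        (abs_sq1_mulVec_sub_le (hh y) (hu x) (c.abs_h_sub_H_le x y) (c.dW y x))
        (c.abs_h_sub_H_le x y) (c.abs_cX_sub_le C x y) (c.abs_cX_sub_le C x y)).trans ?_
      have hS : 0 ≤ S x y := Finset.sum_nonneg fun l _ => sq_nonneg _
      calc _ = K1 * (S x y * c.dh1 x y) := by ring
        _ ≤ |K1| * (S x y * c.dh1 x y) :=
            mul_le_mul_of_nonneg_right (le_abs_self _) (mul_nonneg hS (c.dh1_nonneg x y))
        _ ≤ _ := by
          refine mul_le_mul_of_nonneg_left ?_ (abs_nonneg _)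
          have h0 := two_mul_le_add_sq (σ ^ 3 * S x y) (c.dh1 x y / σ ^ 3)
          rw [show 2 * (σ ^ 3 * S x y) * (c.dh1 x y / σ ^ 3) = 2 * (S x y * c.dh1 x y) by
            field_simp, div_pow, div_eq_inv_mul, mul_pow, ← pow_mul] at h0
          linarith [mul_nonneg hS (c.dh1_nonneg x y)]
    · rw [c.EE_const_mul, c.EE_add ((Tame2.const _).mul (tS.pow 2))
        ((Tame2.const _).mul (c.tame2_dh1.pow 2)), c.EE_const_mul, c.EE_const_mul]
      refine mul_le_mul_of_nonneg_left ?_ (abs_nonneg _)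
      have hM : ∀ i, c.EE (fun x y => c.dW y x i ^ 4) ≤ 8 * (M4 + 96 * Λ ^ 2) / (σ ^ 4) ^ 2 :=
        fun i => by
        refine (c.EE_dW_four_le i).trans ?_
        gcongr
        exact Finset.single_le_sum (f := fun i => ex V fun x => dv i x ^ 4)
          (fun i _ => hyp.pin.ex_nonneg fun x => by positivity) (Finset.mem_univ i)
      refine (add_le_add (mul_le_mul_of_nonneg_left
        (c.EE_sum_sq_sq_le c.tame2_dW hM) (by positivity))
        (mul_le_mul_of_nonneg_left c.EE_sq_dh1_le (by positivity))).trans ?_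
      refine (le_of_eq ?_).trans (div_le_div_of_nonneg_right (le_abs_self K2) (sq_nonneg σ))
      simp only [K2, ← hudef]
      field_simp
  -- the main term
  have hEx : ∀ x p q, c.Ex x (fun y => c.dW y x p * c.dW y x q)
      = dv p x * dv q x + (σ ^ 4)⁻¹ * c.g x p q := by
    intro x p q
    have hp := c.pinU' x
    have te := fun i => (c.tame2_η i).section_right x
    have e : ∀ y, c.dW y x p * c.dW y x q = dv p x * dv q x
        + ((σ ^ 4)⁻¹ * (σ ^ 4)⁻¹ * (c.η x y p * c.η x y q)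
          + (-((σ ^ 4)⁻¹ * dv q x) * c.η x y p + -((σ ^ 4)⁻¹ * dv p x) * c.η x y q)) := fun y => by
      simp only [c.dW_eq, hdv]
      ring
    have hη := fun i => c.Ex_η x i
    have hηη := c.Ex_ηη x p q
    simp only [Ctx.Ex] at hη hηη ⊢
    rw [ex_congr e, hp.ex_add (Tame.const _) ((((te p).mul (te q)).const_mul _).add
      (((te p).const_mul _).add ((te q).const_mul _))),
      hp.ex_add (((te p).mul (te q)).const_mul _) (((te p).const_mul _).add ((te q).const_mul _)),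
      hp.ex_add ((te p).const_mul _) ((te q).const_mul _), hp.ex_const, ex_const_mul, ex_const_mul,
      ex_const_mul, hη, hη, hηη]
    field_simp
    ring
  have tgH := Ctx.tame_cPhi c.tame_Γ
    (B' := fun x => c.H x * c.g x * c.H x) (fun i j => by
      simp only [Matrix.mul_apply]
      exact Tame.sum _ fun l _ => (Tame.sum _ fun m _ =>
        (c.tame_H i m).mul (c.soft.pinφ.tame_D2 (bv m) (bv l))).mul (c.tame_H l j))
    c.tame_H (c.tame_cX_H C) (c.tame_cX_H C)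
  have tav : Tame fun x => ∑ pq : Fin k × Fin k, dv pq.1 x * dv pq.2 x * Q pq x :=
    Tame.sum _ fun pq _ => ((tv _).mul (tv _)).mul (tQ pq)
  have h2 : σ ^ 4 * c.EE F
      = σ ^ 4 * ex V (fun x => ∑ pq : Fin k × Fin k, dv pq.1 x * dv pq.2 x * Q pq x)
        + ex V fun x => cPhi (c.Γ x) (c.H x * c.g x * c.H x) (c.H x) (cX (c.H x) C)
            (cX (c.H x) C) := by
    rw [eF, c.EE_quad c.tame2_dW tQ, ← ex_const_mul, ← ex_const_mul,
      ← hyp.pin.ex_add (tav.const_mul _) tgH]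
    refine ex_congr fun x => ?_
    simp only [hEx, add_mul, Finset.sum_add_distrib, mul_add]
    congr 1
    rw [Finset.mul_sum]
    have e : ∀ pq : Fin k × Fin k, σ ^ 4 * ((σ ^ 4)⁻¹ * c.g x pq.1 pq.2 * Q pq x)
        = c.g x pq.1 pq.2 * Q pq x := fun pq => by field_simp
    simp only [e]
    simp only [hQ]
    rw [← cPhi_sum_mid Finset.univ (fun pq : Fin k × Fin k => c.g x pq.1 pq.2),
      sum_smul_colOuter, (c.sand_H x).symm]
  have h3 : |ex V (fun x => cPhi (c.Γ x) (c.H x * c.g x * c.H x) (c.H x) (cX (c.H x) C)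
      (cX (c.H x) C)) - ex V (c.cost C)| ≤ |K3| * |K4| * σ ^ 4 := by
    refine (hyp.pin.abs_ex_sub_le tgH (c.tame_cost C) (c.tame_D.const_mul K3) fun x => ?_).trans ?_
    · have hHg := fun i j => abs_mul_entry_le (c.H x) (c.g x) i j (hu x) (hg x)
      have hβ1 : ∀ i j, |(c.H x * c.g x * c.H x) i j| ≤ β := fun i j =>
        (abs_mul_entry_le _ _ i j hHg (hu x)).trans (by rw [hβ, ← hudef]; linarith)
      have hβ2 : ∀ i j, |c.H x i j| ≤ β := fun i j =>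
        (hu x i j).trans (by rw [hβ, ← hudef]; nlinarith [mul_nonneg (sq_nonneg ((k:ℝ) * u)) hΛ.le])
      have hdB : ∀ i j, |(c.H x * c.g x * c.H x) i j - c.H x i j|
          ≤ (k : ℝ) ^ 2 * u * Λ * kD B ε * c.D x := by
        intro i j
        have e : c.H x * c.g x * c.H x - c.H x = c.H x * c.g x * (c.H x - c.G x) := by
          rw [Matrix.mul_sub, Matrix.mul_assoc (c.H x) (c.g x) (c.G x),
            show c.g x * c.G x = 1 from (c.sand_g x).mul_inv, Matrix.mul_one]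
        have := abs_mul_entry_le (c.H x * c.g x) (c.H x - c.G x) i j hHg
          (fun p q => (abs_sub_comm _ _).trans_le (c.abs_G_sub_H_le x p q))
        rw [← e, Matrix.sub_apply] at this
        exact this.trans (le_of_eq (by ring))
      refine (abs_cPhi_sub_le (hΓ x) (hu x) hβ1 hβ2 (hu x) (hu x) (hX x) (hX x) (hX x) (hX x)
        (c.abs_Γ_sub_H_le x) hdB (dC := 0) (dX := 0) (dY := 0) (fun i j => by simp)
        (fun i j l => by simp) (fun i j l => by simp)).trans (le_of_eq ?_)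
      simp only [K3, ← hudef, ← hξdef]
      ring
    · rw [ex_const_mul]
      calc K3 * ex V c.D ≤ |K3| * ex V c.D :=
            mul_le_mul_of_nonneg_right (le_abs_self _) (hyp.pin.ex_nonneg c.D_nonneg)
        _ ≤ |K3| * (σ ^ 4 * K4) := mul_le_mul_of_nonneg_left c.ex_D_le (abs_nonneg _)
        _ ≤ |K3| * (σ ^ 4 * |K4|) := by
          gcongr
          exact le_abs_self _
        _ = _ := by ring
  have h4 : |ex V (fun x => ∑ pq : Fin k × Fin k, dv pq.1 x * dv pq.2 x * Q pq x)|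
      ≤ |K5| * |M2| := by
    have tM : Tame fun x => ∑ pq : Fin k × Fin k, (dv pq.1 x ^ 2 + dv pq.2 x ^ 2) :=
      Tame.sum _ fun pq _ => ((tv _).pow 2).add ((tv _).pow 2)
    refine (hyp.pin.ex_abs_le tav).trans ((hyp.pin.ex_mono tav.norm (tM.const_mul |K5|)
      fun x => ?_).trans ?_)
    · rw [Finset.mul_sum]
      refine (Finset.abs_sum_le_sum_abs _ _).trans (Finset.sum_le_sum fun pq _ => ?_)
      rw [abs_mul, mul_comm |K5|]
      refine mul_le_mul ?_ ((abs_cPhi_le (hΓ x) (fun i j => show |c.H x i pq.1 * c.H x j pq.2| ≤ u ^ 2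
        by rw [abs_mul, sq]; exact mul_le_mul (hu x _ _) (hu x _ _) (abs_nonneg _) hu0.le)
        (hu x) (hX x) (hX x)).trans ((le_of_eq ?_).trans (le_abs_self K5))) (abs_nonneg _)
        (by positivity)
      · have h0 := two_mul_le_add_sq (|dv pq.1 x|) (|dv pq.2 x|)
        rw [sq_abs, sq_abs] at h0
        rw [abs_mul]
        linarith [mul_nonneg (abs_nonneg (dv pq.1 x)) (abs_nonneg (dv pq.2 x))]
      · simp only [K5, ← hudef, ← hξdef]
        ring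
    · rw [ex_const_mul, hyp.pin.ex_sum _ fun pq _ => ((tv _).pow 2).add ((tv _).pow 2)]
      exact mul_le_mul_of_nonneg_left (le_abs_self _) (abs_nonneg _)
  have h5 : |σ ^ 4 * ex V (fun x => ∑ pq : Fin k × Fin k, dv pq.1 x * dv pq.2 x * Q pq x)|
      ≤ |K5| * |M2| * σ ^ 4 := by
    rw [abs_mul, abs_of_pos (pow_pos hσ 4), mul_comm]
    exact mul_le_mul_of_nonneg_right h4 (by positivity)
  have e1 : ∀ {K : ℝ} {n : ℕ}, 0 ≤ K → n ≠ 0 → K * σ ^ n ≤ K * σ := fun hK hn =>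
    const_mul_pow_le hK hσ hσ1 hn
  have c1 := e1 (n := 2) (mul_nonneg (abs_nonneg K1) (abs_nonneg K2)) (by norm_num)
  have c3 := e1 (n := 4) (mul_nonneg (abs_nonneg K3) (abs_nonneg K4)) (by norm_num)
  have c5 := e1 (n := 4) (mul_nonneg (abs_nonneg K5) (abs_nonneg M2)) (by norm_num)
  have hh1 := abs_le.1 h1
  have hh3 := abs_le.1 h3
  have hh5 := abs_le.1 h5
  rw [abs_le]
  constructor <;> linarith

end Vale.P254.Skew
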