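import Vale.Agent.P254.Skew.Prim

/-! # The gains, and the strong convexity term, up to `O(σ)`, where `s = σ ^ 4` -/

namespace Vale.P254.Skew

open MeasureTheory Matrix

variable {k : ℕ} {V : E k → ℝ} {B : E k →L[ℝ] E k →L[ℝ] ℝ} {ε Λ : ℝ}

namespace Ctx

variable {s : ℝ} (c : Ctx V B ε Λ s)

theorem abs_EE_le {F G : E k → E k → ℝ} (hF : Tame2 F) (hG : Tame2 G)
    (h : ∀ x y, |F x y| ≤ G x y) : |c.EE F| ≤ c.EE G := by
  have h1 := c.EE_mono hF hG fun x y => (le_abs_self _).trans (h x y)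
  have h2 := c.EE_mono ((Tame2.const (-1)).mul hF) hG fun x y => by
    linarith [(neg_abs_le (F x y)), h x y]
  rw [c.EE_const_mul] at h2
  exact abs_le.2 ⟨by linarith, h1⟩

theorem EE_sum {ι : Type*} (t : Finset ι) {F : ι → E k → E k → ℝ} (hF : ∀ i, Tame2 (F i)) :
    c.EE (fun x y => ∑ i ∈ t, F i x y) = ∑ i ∈ t, c.EE (F i) := by
  classical
  induction t using Finset.induction_on with
  | empty =>
    simp only [Finset.sum_empty]
    exact (c.EE_left (Tame.const 0)).trans (c.hyp.pin.ex_const 0)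
  | insert i t hi ih =>
    simp only [Finset.sum_insert hi]
    rw [c.EE_add (hF i) (Tame2.sum _ fun j _ => hF j), ih]

end Ctx

/-- `|a| ≤ p + q` from `a ^ 2 ≤ p * q`. -/
theorem abs_le_add_of_sq_le {a p q : ℝ} (hp : 0 ≤ p) (hq : 0 ≤ q) (h : a ^ 2 ≤ p * q) :
    |a| ≤ p + q :=
  abs_le_of_sq_le_sq (by nlinarith [mul_nonneg hp hq]) (add_nonneg hp hq)

/-- `dH = g kbar + R` with `R² ≤ const * trace del * vh / s`, so `|R| ≤ const * (D/σ² + σ² vh/s)`;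
then `cPhi_comp`, `G g = 1`, `Sand.cPhi_cX` and `mean_kbar`. -/
theorem est_J0 (_hyp : Hyp V B ε Λ) {C : Ten k} (hC : Symm3 C) :
    ∃ K : ℝ, ∀ σ : ℝ, ∀ c : Ctx V B ε Λ (σ ^ 4), 0 < σ → σ ≤ 1 →
      |ex V (c.J0 C) - ∑ i, ∑ j, ∑ l, C i j l * c.K3 i j l| ≤ K * σ := by
  refine ⟨(k : ℝ) ^ 6 * (2 / ε * 1 * (2 / ε) * xB Λ C) *
    (k * Λ ^ 2 * (2 * Λ * ((k : ℝ) ^ 2 * (2 / ε) ^ 2) + 1) + (k : ℝ) ^ 2 * (2 / ε) ^ 2),
    fun σ c hσ hσ1 => ?_⟩
  have hε := c.hε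
  have hΛ := c.hΛ
  have hxB : 0 ≤ xB Λ C := div_nonneg (Real.sqrt_nonneg _) c.hl.le
  set A := (k : ℝ) ^ 6 * (2 / ε * 1 * (2 / ε) * xB Λ C) with hA
  have hA0 : 0 ≤ A := by have := c.hu; positivity
  set KD := 2 * Λ * ((k : ℝ) ^ 2 * (2 / ε) ^ 2) + 1 with hKD
  set M2 := (k : ℝ) ^ 2 * (2 / ε) ^ 2 with hM2
  have hM20 : 0 ≤ M2 := by positivity
  have hKD0 : 0 ≤ KD := by positivity
  have hV := c.hyp.pin
  let T : E k → ℝ := fun x => ∑ i, ∑ j, ∑ l, C i j l * c.kbar x i j l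
  have tT : Tame T := Tame.sum _ fun i _ => Tame.sum _ fun j _ => Tame.sum _ fun l _ =>
    (c.tame_kbar i j l).const_mul _
  have hT : ex V T = ∑ i, ∑ j, ∑ l, C i j l * c.K3 i j l := by
    rw [hV.ex_sum _ fun i _ => Tame.sum _ fun j _ => Tame.sum _ fun l _ =>
      (c.tame_kbar i j l).const_mul _]
    refine Finset.sum_congr rfl fun i _ => ?_
    rw [hV.ex_sum _ fun j _ => Tame.sum _ fun l _ => (c.tame_kbar i j l).const_mul _]
    refine Finset.sum_congr rfl fun j _ => ?_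
    rw [hV.ex_sum _ fun l _ => (c.tame_kbar i j l).const_mul _]
    exact Finset.sum_congr rfl fun l _ => by rw [ex_const_mul, c.mean_kbar]
  let Q : E k → ℝ := fun x =>
    A * (k * Λ ^ 2 / σ ^ 2 * c.D x + σ ^ 2 / σ ^ 4 * c.vh x)
  have tQ : Tame Q := ((c.tame_D.const_mul _).add (c.tame_vh.const_mul _)).const_mul _
  have hpt : ∀ x, |c.J0 C x - T x| ≤ Q x := by
    intro x
    have e1 : cPhi (c.G x) 1 (c.H x) (cX (c.H x) C)
        (fun a i j => ∑ d, c.g x a d * c.kbar x d i j) = T x := by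
      rw [cPhi_comp, c.G_mul_g]
      exact (c.sand_H x).cPhi_cX hC (c.symm3_kbar x)
    rw [Ctx.J0, ← e1, cPhi_sub_Y]
    refine (abs_cPhi_le (c.sand_G x).abs_entry Ctx.abs_one_le (c.sand_H x).abs_entry
      (c.abs_cX_H_le C x) (υ := k * Λ ^ 2 / σ ^ 2 * c.D x + σ ^ 2 / σ ^ 4 * c.vh x)
      fun a i j => ?_).trans_eq (by simp only [Q, hA]; ring)
    have h4 : 0 < σ ^ 4 := pow_pos hσ 4
    have htr : (c.del x).trace ≤ c.D x := by
      simp only [Ctx.D]; linarith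
    have hr := c.sq_rem_le x a i j
    have hD := c.D_nonneg x
    have hv := c.vh_nonneg x
    refine abs_le_add_of_sq_le (mul_nonneg (by positivity) hD) (mul_nonneg (by positivity) hv) ?_
    have hr2 : σ ^ 4 * (c.dH x a i j - ∑ d, c.g x a d * c.kbar x d i j) ^ 2
        ≤ k * Λ ^ 2 * c.D x * c.vh x :=
      hr.trans (mul_le_mul_of_nonneg_right (mul_le_mul_of_nonneg_left htr (by positivity)) hv)
    simp only [Pi.sub_apply]
    refine le_of_mul_le_mul_left ?_ h4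
    refine hr2.trans_eq ?_
    field_simp
  rw [← hT, ← hV.ex_sub (c.tame_J0 C) tT]
  refine (hV.ex_abs_le ((c.tame_J0 C).sub tT)).trans ?_
  refine (hV.ex_mono ((c.tame_J0 C).sub tT).norm tQ hpt).trans ?_
  simp only [Q]
  rw [ex_const_mul, hV.ex_add (c.tame_D.const_mul _) (c.tame_vh.const_mul _), ex_const_mul,
    ex_const_mul]
  calc A * (k * Λ ^ 2 / σ ^ 2 * ex V c.D + σ ^ 2 / σ ^ 4 * ex V c.vh)
      ≤ A * (k * Λ ^ 2 / σ ^ 2 * (σ ^ 4 * KD) + σ ^ 2 / σ ^ 4 * (σ ^ 4 * M2)) :=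
        mul_le_mul_of_nonneg_left (add_le_add
          (mul_le_mul_of_nonneg_left c.ex_D_le (by positivity))
          (mul_le_mul_of_nonneg_left c.ex_vh_le (by positivity))) hA0
    _ = A * (k * Λ ^ 2 * KD + M2) * σ ^ 2 := by field_simp
    _ ≤ A * (k * Λ ^ 2 * KD + M2) * σ :=
        mul_le_mul_of_nonneg_left (by nlinarith) (by positivity)

namespace Ctx

/-- `Γ` against `q • H` in the cross term: `D |W'| ≤ D/σ³ + const * σ⁹ |W'|⁴`. -/
theorem abs_Jx_sub_JH_le (C : Ten k) {σ : ℝ} (c : Ctx V B ε Λ (σ ^ 4)) (hσ : 0 < σ) :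
    |c.EE (c.Jx C) - (1 + σ ^ 4) * c.EE (c.JH C)| ≤
      (k : ℝ) ^ 4 * (kD B ε * xB Λ C * (2 / ε) ^ 2) *
        (∑ b : Fin k, ((2 * Λ * ((k : ℝ) ^ 2 * (2 / ε) ^ 2) + 1) + (k * (6 / ε) + 1) *
          (8 * (ex V (fun x => fderiv ℝ V x (bv b) ^ 4) + 96 * Λ ^ 2)))) * σ := by
  have hε := c.hε
  have hΛ := c.hΛ
  have hu := c.hu
  have hxB : 0 ≤ xB Λ C := div_nonneg (Real.sqrt_nonneg _) c.hl.le
  have hkD : 0 ≤ kD B ε := zero_le_one.trans c.kD_nonneg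
  set M2 := (k : ℝ) ^ 2 * (2 / ε) ^ 2 with hM2
  set KD := 2 * Λ * M2 + 1 with hKD
  set Dm := (k : ℝ) * (6 / ε) + 1 with hDm
  have hM20 : 0 ≤ M2 := by positivity
  have hKD0 : 0 ≤ KD := by positivity
  have hDm0 : 0 ≤ Dm := by positivity
  set P := kD B ε * xB Λ C * (2 / ε) ^ 2 with hP
  have hP0 : 0 ≤ P := by positivity
  set Qb : Fin k → ℝ :=
    fun b => 8 * (ex V (fun x => fderiv ℝ V x (bv b) ^ 4) + 96 * Λ ^ 2) with hQb
  have h4 : 0 < σ ^ 4 := pow_pos hσ 4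
  -- replacing `Γ` by `q • H`
  let F : E k → E k → ℝ := fun x y => c.Jx C x y - (1 + σ ^ 4) * c.JH C x y
  have tF : Tame2 F := (c.tame2_Jx C).sub ((Tame2.const _).mul (c.tame2_JH C))
  let W : Fin k → E k → E k → ℝ :=
    fun b x y => (σ ^ 3)⁻¹ * c.D x + Dm * σ ^ 9 * c.dW y x b ^ 4
  have tW : ∀ b, Tame2 (W b) := fun b =>
    (c.tame_D.const_mul _).tame2_left.add ((Tame2.const _).mul ((c.tame2_dW b).pow 4))
  have hFpt : ∀ x y, |F x y| ≤ (k : ℝ) ^ 4 * P * ∑ b, W b x y := by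
    intro x y
    have hD := c.D_nonneg x
    have e : F x y = ∑ i, ∑ a, ∑ p, ∑ l, ∑ b, (c.Γ x i a - (1 + σ ^ 4) * c.H x i a) *
        cX (c.h y) C a p l * c.h y p b * c.h y l i * c.dW y x b := by
      simp only [F, Ctx.Jx, Ctx.JH, Finset.mul_sum, ← Finset.sum_sub_distrib]
      exact Finset.sum_congr rfl fun i _ => Finset.sum_congr rfl fun a _ =>
        Finset.sum_congr rfl fun p _ => Finset.sum_congr rfl fun l _ =>
          Finset.sum_congr rfl fun b _ => by ring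
    have hterm : ∀ i a p l b, |(c.Γ x i a - (1 + σ ^ 4) * c.H x i a) *
        cX (c.h y) C a p l * c.h y p b * c.h y l i * c.dW y x b| ≤ P * W b x y := by
      intro i a p l b
      have hyoung : c.D x * |c.dW y x b| ≤ W b x y := by
        have hw : |c.dW y x b| ≤ (σ ^ 3)⁻¹ + σ ^ 9 * c.dW y x b ^ 4 := by
          have h3 : 0 < σ ^ 3 := pow_pos hσ 3
          rcases le_total |c.dW y x b| (σ ^ 3)⁻¹ with h | h
          · linarith [mul_nonneg (pow_nonneg hσ.le 9) (by positivity : 0 ≤ c.dW y x b ^ 4)]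
          · have h1 : 1 ≤ σ ^ 3 * |c.dW y x b| := by
              have := mul_le_mul_of_nonneg_left h h3.le
              rwa [mul_inv_cancel₀ h3.ne'] at this
            have h5 := mul_le_mul_of_nonneg_left (one_le_pow₀ (n := 3) h1) (abs_nonneg (c.dW y x b))
            have e4 : |c.dW y x b| * (σ ^ 3 * |c.dW y x b|) ^ 3 = σ ^ 9 * c.dW y x b ^ 4 := by
              rw [← Even.pow_abs (n := 4) (by decide) (c.dW y x b)]; ring
            linarith [inv_pos.2 h3]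
        refine (mul_le_mul_of_nonneg_left hw hD).trans ?_
        simp only [W]
        have := mul_le_mul_of_nonneg_right (c.D_le x)
          (mul_nonneg (pow_nonneg hσ.le 9) (by positivity : 0 ≤ c.dW y x b ^ 4))
        rw [hDm]
        linarith
      rw [abs_mul, abs_mul, abs_mul, abs_mul]
      calc |c.Γ x i a - (1 + σ ^ 4) * c.H x i a| * |cX (c.h y) C a p l| * |c.h y p b|
              * |c.h y l i| * |c.dW y x b|
          ≤ kD B ε * c.D x * xB Λ C * (2 / ε) * (2 / ε) * |c.dW y x b| := by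
            gcongr
            · exact c.abs_Γ_sub_qH_le x i a
            · exact c.abs_cX_h_le C y a p l
            · exact (c.sand_h y).abs_entry p b
            · exact (c.sand_h y).abs_entry l i
        _ = P * (c.D x * |c.dW y x b|) := by rw [hP]; ring
        _ ≤ _ := mul_le_mul_of_nonneg_left hyoung hP0
    rw [e]
    calc _ ≤ ∑ _i : Fin k, ∑ _a : Fin k, ∑ _p : Fin k, ∑ _l : Fin k, ∑ b, P * W b x y := by
          refine (Finset.abs_sum_le_sum_abs _ _).trans (Finset.sum_le_sum fun i _ => ?_)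
          refine (Finset.abs_sum_le_sum_abs _ _).trans (Finset.sum_le_sum fun a _ => ?_)
          refine (Finset.abs_sum_le_sum_abs _ _).trans (Finset.sum_le_sum fun p _ => ?_)
          refine (Finset.abs_sum_le_sum_abs _ _).trans (Finset.sum_le_sum fun l _ => ?_)
          exact (Finset.abs_sum_le_sum_abs _ _).trans
            (Finset.sum_le_sum fun b _ => hterm i a p l b)
      _ = _ := by simp [Finset.mul_sum]; ring_nf
  have hFEE : |c.EE F| ≤ (k : ℝ) ^ 4 * P * (∑ b, (KD + Dm * Qb b)) * σ := by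
    have tS : Tame2 fun x y => (k : ℝ) ^ 4 * P * ∑ b, W b x y :=
      (Tame2.const _).mul (Tame2.sum Finset.univ fun b _ => tW b)
    refine (c.abs_EE_le tF tS hFpt).trans ?_
    rw [c.EE_const_mul, c.EE_sum Finset.univ tW, mul_assoc ((k : ℝ) ^ 4 * P)]
    refine mul_le_mul_of_nonneg_left ?_ (by positivity)
    rw [Finset.sum_mul]
    refine Finset.sum_le_sum fun b _ => ?_
    simp only [W]
    rw [c.EE_add (c.tame_D.const_mul _).tame2_left ((Tame2.const _).mul ((c.tame2_dW b).pow 4)),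
      c.EE_left (c.tame_D.const_mul _), ex_const_mul, c.EE_const_mul]
    calc (σ ^ 3)⁻¹ * ex V c.D + Dm * σ ^ 9 * c.EE (fun x y => c.dW y x b ^ 4)
        ≤ (σ ^ 3)⁻¹ * (σ ^ 4 * KD) + Dm * σ ^ 9 * (Qb b / (σ ^ 4) ^ 2) :=
          add_le_add (mul_le_mul_of_nonneg_left c.ex_D_le (by positivity))
            (mul_le_mul_of_nonneg_left (c.EE_dW_four_le b) (by positivity))
      _ = _ := by field_simp
  have eF : c.EE F = c.EE (c.Jx C) - (1 + σ ^ 4) * c.EE (c.JH C) := by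
    rw [c.EE_sub (c.tame2_Jx C) ((Tame2.const _).mul (c.tame2_JH C)), c.EE_const_mul]
  rwa [eF] at hFEE

/-- `h` against `H` in the gain. -/
theorem abs_JH_sub_J0_le {C : Ten k} (hC : Symm3 C) {σ : ℝ} (c : Ctx V B ε Λ (σ ^ 4))
    (hσ : 0 < σ) (hσ1 : σ ≤ 1) :
    |c.EE (c.JH C) - ex V (c.J0 C)| ≤
      (k : ℝ) ^ 6 * kD B ε * (2 * (2 / ε) * xB Λ C + (2 / ε) ^ 2 * xL Λ C) * (k : ℝ) ^ 3 *
        (2 * (k : ℝ) ^ 2 * ((k : ℝ) ^ 2 * (2 / ε) ^ 2)
          + 2 * (k * (6 / ε) + 1) * (2 * Λ * ((k : ℝ) ^ 2 * (2 / ε) ^ 2) + 1)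
          + Λ * ((k : ℝ) ^ 2 * (2 / ε) ^ 2)) * σ := by
  have hε := c.hε
  have hΛ := c.hΛ
  have hu := c.hu
  have hxB : 0 ≤ xB Λ C := div_nonneg (Real.sqrt_nonneg _) c.hl.le
  have hkD : 0 ≤ kD B ε := zero_le_one.trans c.kD_nonneg
  set M2 := (k : ℝ) ^ 2 * (2 / ε) ^ 2 with hM2
  set KD := 2 * Λ * M2 + 1 with hKD
  set Dm := (k : ℝ) * (6 / ε) + 1 with hDm
  have hM20 : 0 ≤ M2 := by positivity
  have hKD0 : 0 ≤ KD := by positivity
  have hDm0 : 0 ≤ Dm := by positivity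
  have hxL : 0 ≤ xL Λ C :=
    div_nonneg (mul_nonneg (by positivity) (Real.sqrt_nonneg _)) (sq_nonneg _)
  have h4 : 0 < σ ^ 4 := pow_pos hσ 4
  have h2 : σ ^ 2 ≤ σ := by nlinarith
  -- replacing `h` by `H`
  let Φ : E k → E k → ℝ := fun x y => cPhi (c.h y) 1 (c.h y) (cX (c.h y) C) (c.dH x)
  let F2 : E k → E k → ℝ := fun x y => Φ x y - c.J0 C x
  have tΦ : Tame2 Φ := Ctx.tame2_cPhi (fun i j => (c.tame_h i j).tame2_right)
    (fun i j => Tame2.const _) (fun i j => (c.tame_h i j).tame2_right)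
    (fun i j l => (c.tame_cX_h C i j l).tame2_right) (fun i j l => (c.tame_dH i j l).tame2_left)
  have tF2 : Tame2 F2 := tΦ.sub (c.tame_J0 C).tame2_left
  set P2 := (k : ℝ) ^ 6 * kD B ε * (2 * (2 / ε) * xB Λ C + (2 / ε) ^ 2 * xL Λ C) with hP2
  have hP20 : 0 ≤ P2 := by positivity
  let G2 : E k → E k → ℝ := fun x y =>
    P2 * (k : ℝ) ^ 3 * (2 * (k : ℝ) ^ 2 / σ ^ 2 * c.dh2 x y
      + (2 * Dm / σ ^ 2 * c.D x + σ ^ 2 * Λ / σ ^ 4 * c.vh x))
  have tG2' : Tame fun x => 2 * Dm / σ ^ 2 * c.D x + σ ^ 2 * Λ / σ ^ 4 * c.vh x :=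
    (c.tame_D.const_mul _).add (c.tame_vh.const_mul _)
  have tG2 : Tame2 G2 :=
    (Tame2.const _).mul (((Tame2.const _).mul c.tame2_dh2).add tG2'.tame2_left)
  have hF2pt : ∀ x y, |F2 x y| ≤ G2 x y := by
    intro x y
    set u := c.dh1 x y + c.D x with hu_def
    have hd : 0 ≤ c.dh1 x y := l1_nonneg _
    have hD := c.D_nonneg x
    have hh : ∀ i j, |c.h y i j - c.H x i j| ≤ c.dh1 x y := fun i j => abs_le_l1 (c.h y - c.H x) i j
    have hhG : ∀ i j, |c.h y i j - c.G x i j| ≤ c.dh1 x y + kD B ε * c.D x := fun i j =>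
      calc |c.h y i j - c.G x i j| ≤ |c.h y i j - c.H x i j| + |c.H x i j - c.G x i j| :=
            abs_sub_le _ _ _
        _ ≤ _ := add_le_add (hh i j) ((abs_sub_comm _ _).trans_le (c.abs_G_sub_H_le x i j))
    have hb := abs_cPhi_sub_le (B := (1 : Mat k)) (B' := (1 : Mat k)) (Y := c.dH x) (Y' := c.dH x)
      (dB := 0) (dY := 0) (c.sand_h y).abs_entry (c.sand_G x).abs_entry Ctx.abs_one_le
      Ctx.abs_one_le (c.sand_h y).abs_entry (c.sand_H x).abs_entry (c.abs_cX_h_le C y)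
      (c.abs_cX_H_le C x) (abs_le_t1 _) (abs_le_t1 _) hhG (fun i j => by simp) hh
      (c.abs_cX_sub_le C x y) (fun i j l => by simp)
    have ht : 0 ≤ t1 (c.dH x) := Finset.sum_nonneg fun a _ => Finset.sum_nonneg fun b _ =>
      Finset.sum_nonneg fun l _ => abs_nonneg _
    have hu0 : 0 ≤ u := add_nonneg hd hD
    have hkD1 := c.kD_nonneg
    have hw : |F2 x y| ≤ P2 * (u * t1 (c.dH x)) := by
      refine hb.trans ?_
      have a1 : c.dh1 x y + kD B ε * c.D x ≤ kD B ε * u := by rw [hu_def]; nlinarith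
      have a2 : c.dh1 x y ≤ kD B ε * u := by rw [hu_def]; nlinarith
      have e1 : P2 * (u * t1 (c.dH x)) = (k : ℝ) ^ 6 *
          ((kD B ε * u) * 1 * (2 / ε) * xB Λ C * t1 (c.dH x)
            + 2 / ε * 1 * (kD B ε * u) * xB Λ C * t1 (c.dH x)
            + 2 / ε * 1 * (2 / ε) * (xL Λ C * (kD B ε * u)) * t1 (c.dH x)) := by
        rw [hP2]; ring
      rw [e1]
      refine mul_le_mul_of_nonneg_left ?_ (by positivity)
      simp only [mul_zero, zero_mul, add_zero]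
      gcongr
    refine hw.trans ?_
    rw [show G2 x y = P2 * ((k : ℝ) ^ 3 * (2 * (k : ℝ) ^ 2 / σ ^ 2 * c.dh2 x y
      + (2 * Dm / σ ^ 2 * c.D x + σ ^ 2 * Λ / σ ^ 4 * c.vh x))) from by simp only [G2]; ring]
    refine mul_le_mul_of_nonneg_left ?_ hP20
    have hu2 : u ^ 2 ≤ 2 * (k : ℝ) ^ 2 * c.dh2 x y + 2 * Dm * c.D x := by
      have := c.sq_dh1_le x y
      have := mul_le_mul_of_nonneg_right (c.D_le x) hD
      rw [hu_def, hDm]
      nlinarith [sq_nonneg (c.dh1 x y - c.D x)]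
    have hone : ∀ a b l, u * |c.dH x a b l| ≤ 2 * (k : ℝ) ^ 2 / σ ^ 2 * c.dh2 x y
        + (2 * Dm / σ ^ 2 * c.D x + σ ^ 2 * Λ / σ ^ 4 * c.vh x) := by
      intro a b l
      have hy : u * |c.dH x a b l| ≤ u ^ 2 / σ ^ 2 + σ ^ 2 * c.dH x a b l ^ 2 := by
        have := abs_le_add_of_sq_le (a := u * |c.dH x a b l|) (p := u ^ 2 / σ ^ 2)
          (q := σ ^ 2 * c.dH x a b l ^ 2) (by positivity) (by positivity)
          (le_of_eq (by rw [mul_pow, sq_abs]; field_simp))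
        exact (le_abs_self _).trans this
      have hdH : σ ^ 2 * c.dH x a b l ^ 2 ≤ σ ^ 2 * Λ / σ ^ 4 * c.vh x := by
        rw [show σ ^ 2 * Λ / σ ^ 4 * c.vh x = σ ^ 2 * (Λ * c.vh x / σ ^ 4) by ring]
        refine mul_le_mul_of_nonneg_left ?_ (sq_nonneg σ)
        rw [le_div_iff₀ h4, mul_comm]
        exact c.sq_dH_le x a b l
      have := div_le_div_of_nonneg_right hu2 (sq_nonneg σ)
      rw [add_div] at this
      have e1 : 2 * (k : ℝ) ^ 2 * c.dh2 x y / σ ^ 2 = 2 * (k : ℝ) ^ 2 / σ ^ 2 * c.dh2 x y := by ring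
      have e2 : 2 * Dm * c.D x / σ ^ 2 = 2 * Dm / σ ^ 2 * c.D x := by ring
      linarith
    simp only [t1, Finset.mul_sum]
    refine (Finset.sum_le_sum fun a _ => Finset.sum_le_sum fun b _ => Finset.sum_le_sum fun l _ =>
      hone a b l).trans_eq ?_
    simp
    ring
  have hF2EE : |c.EE F2| ≤ P2 * (k : ℝ) ^ 3 *
      (2 * (k : ℝ) ^ 2 * M2 + 2 * Dm * KD + Λ * M2) * σ := by
    refine (c.abs_EE_le tF2 tG2 hF2pt).trans ?_
    simp only [G2]
    rw [c.EE_const_mul, c.EE_add ((Tame2.const _).mul c.tame2_dh2) tG2'.tame2_left,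
      c.EE_left tG2', c.EE_const_mul, c.hyp.pin.ex_add (c.tame_D.const_mul _)
        (c.tame_vh.const_mul _), ex_const_mul, ex_const_mul]
    calc P2 * (k : ℝ) ^ 3 * (2 * (k : ℝ) ^ 2 / σ ^ 2 * c.EE c.dh2
            + (2 * Dm / σ ^ 2 * ex V c.D + σ ^ 2 * Λ / σ ^ 4 * ex V c.vh))
        ≤ P2 * (k : ℝ) ^ 3 * (2 * (k : ℝ) ^ 2 / σ ^ 2 * (σ ^ 4 * M2)
            + (2 * Dm / σ ^ 2 * (σ ^ 4 * KD) + σ ^ 2 * Λ / σ ^ 4 * (σ ^ 4 * M2))) := by
          gcongr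
          · exact c.EE_dh2_le
          · exact c.ex_D_le
          · exact c.ex_vh_le
      _ = P2 * (k : ℝ) ^ 3 * (2 * (k : ℝ) ^ 2 * M2 + 2 * Dm * KD + Λ * M2) * σ ^ 2 := by
          field_simp
          ring
      _ ≤ _ := mul_le_mul_of_nonneg_left h2 (by positivity)
  have eF2 : c.EE F2 = c.EE (c.JH C) - ex V (c.J0 C) := by
    rw [c.EE_sub tΦ (c.tame_J0 C).tame2_left, c.EE_left (c.tame_J0 C), c.x_ibp hC]
  rwa [eF2] at hF2EE

end Ctx

/-- `Γ` against `q • H`: `D |W'| ≤ D/σ³ + const * σ⁹ |W'|⁴`. Then `x_ibp`, and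
`u |dH| ≤ u²/σ² + σ² |dH|²`, `u = dh1 + D`, with `sq_dH_le`. -/
theorem est_Jx (_hyp : Hyp V B ε Λ) {C : Ten k} (hC : Symm3 C) :
    ∃ K : ℝ, ∀ σ : ℝ, ∀ c : Ctx V B ε Λ (σ ^ 4), 0 < σ → σ ≤ 1 →
      |c.EE (c.Jx C) - (1 + σ ^ 4) * ex V (c.J0 C)| ≤ K * σ := by
  refine ⟨(k : ℝ) ^ 4 * (kD B ε * xB Λ C * (2 / ε) ^ 2) *
      (∑ b : Fin k, ((2 * Λ * ((k : ℝ) ^ 2 * (2 / ε) ^ 2) + 1) + (k * (6 / ε) + 1) *
        (8 * (ex V (fun x => fderiv ℝ V x (bv b) ^ 4) + 96 * Λ ^ 2))))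
    + 2 * ((k : ℝ) ^ 6 * kD B ε * (2 * (2 / ε) * xB Λ C + (2 / ε) ^ 2 * xL Λ C) * (k : ℝ) ^ 3 *
      (2 * (k : ℝ) ^ 2 * ((k : ℝ) ^ 2 * (2 / ε) ^ 2)
        + 2 * (k * (6 / ε) + 1) * (2 * Λ * ((k : ℝ) ^ 2 * (2 / ε) ^ 2) + 1)
        + Λ * ((k : ℝ) ^ 2 * (2 / ε) ^ 2))), fun σ c hσ hσ1 => ?_⟩
  have h41 : σ ^ 4 ≤ 1 := pow_le_one₀ hσ.le hσ1
  have b1 := c.abs_Jx_sub_JH_le C hσ
  have b2 := c.abs_JH_sub_J0_le hC hσ hσ1
  have key : c.EE (c.Jx C) - (1 + σ ^ 4) * ex V (c.J0 C)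
      = (c.EE (c.Jx C) - (1 + σ ^ 4) * c.EE (c.JH C))
        + (1 + σ ^ 4) * (c.EE (c.JH C) - ex V (c.J0 C)) := by ring
  rw [key]
  refine (abs_add_le _ _).trans ((add_le_add b1 ?_).trans_eq (add_mul _ _ σ).symm)
  rw [abs_mul, abs_of_pos (by positivity : (0 : ℝ) < 1 + σ ^ 4), mul_assoc (2 : ℝ)]
  exact mul_le_mul (by linarith) b2 (abs_nonneg _) (by norm_num)

/-- `N = tr (H Γ B G)` is `tr (B H³)` up to `D`; then `trace_cube_ge` and `mean_H`. -/
theorem est_N (_hyp : Hyp V B ε Λ) :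
    ∃ K : ℝ, ∀ σ : ℝ, ∀ c : Ctx V B ε Λ (σ ^ 4), 0 < σ → σ ≤ 1 →
      trB B - K * σ ≤ ex V c.N := by
  refine ⟨3 * trB B + 3 * (k : ℝ) ^ 4 * (2 / ε) ^ 2 * trB B * kD B ε *
    (2 * Λ * ((k : ℝ) ^ 2 * (2 / ε) ^ 2) + 1), fun σ c hσ hσ1 => ?_⟩
  have hε := c.hε
  have hΛ := c.hΛ
  have h4 : 0 < σ ^ 4 := pow_pos hσ 4
  have htrB : (Bm B).trace = trB B := rfl
  have htr0 : 0 ≤ trB B := Finset.sum_nonneg fun i _ => c.hyp.Bnonneg _
  have hkD : 0 ≤ kD B ε := zero_le_one.trans c.kD_nonneg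
  set P := 3 * (k : ℝ) ^ 4 * (2 / ε) ^ 2 * trB B * kD B ε with hP
  have hP0 : 0 ≤ P := by positivity
  let L : E k → ℝ := fun x => ∑ i, ∑ j, Bm B i j * c.H x j i
  have tL : Tame L := Tame.sum _ fun i _ => Tame.sum _ fun j _ => (c.tame_H j i).const_mul _
  have hpt : ∀ x, 3 * L x - 2 * trB B - P * c.D x ≤ c.N x := by
    intro x
    have hN : c.N x = (c.H x * (c.Γ x * Bm B * c.G x)).trace := by
      rw [Ctx.N, c.G_sub_Γ, Matrix.mul_smul, Matrix.trace_smul, smul_eq_mul,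
        mul_div_cancel_left₀ _ h4.ne']
    have hcube := trace_cube_ge (c.sand_H x).psd c.psd_Bm
    have hL : L x = (Bm B * c.H x).trace := by simp [L, Matrix.trace, Matrix.mul_apply]
    rw [htrB, ← hL] at hcube
    have hsplit : (c.H x * (c.Γ x * Bm B * c.G x)).trace
        = (Bm B * (c.H x * c.H x * c.H x)).trace
          + (c.H x * ((c.Γ x - c.H x) * (Bm B * c.G x))).trace
          + (c.H x * (c.H x * (Bm B * (c.G x - c.H x)))).trace := by
      have e1 : (Bm B * (c.H x * c.H x * c.H x)).trace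
          = (c.H x * (c.H x * (Bm B * c.H x))).trace := by
        rw [show Bm B * (c.H x * c.H x * c.H x) = (Bm B * c.H x) * (c.H x * c.H x) by
          simp [mul_assoc], Matrix.trace_mul_comm]
        simp [mul_assoc]
      rw [e1, ← Matrix.trace_add, ← Matrix.trace_add]
      congr 1
      simp only [sub_mul, mul_sub, mul_assoc]
      abel
    have hB : ∀ i j, |Bm B i j| ≤ trB B := fun i j => htrB ▸ c.psd_Bm.abs_entry i j
    have hH := (c.sand_H x).abs_entry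
    have hX : ∀ i j, |(c.Γ x - c.H x) i j| ≤ 2 * kD B ε * c.D x := c.abs_Γ_sub_H_le x
    have hY : ∀ i j, |(c.G x - c.H x) i j| ≤ kD B ε * c.D x := c.abs_G_sub_H_le x
    have trb : ∀ {M : Mat k} {r : ℝ}, (∀ i j, |M i j| ≤ r) → |M.trace| ≤ k * r :=
      fun {M r} hM => by
        refine (Finset.abs_sum_le_sum_abs _ _).trans ?_
        refine (Finset.sum_le_sum fun i _ => hM i i).trans_eq ?_
        simp
    have b1 : |(c.H x * ((c.Γ x - c.H x) * (Bm B * c.G x))).trace|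
        ≤ k * (k * (2 / ε * (k * (2 * kD B ε * c.D x * (k * (trB B * (2 / ε))))))) :=
      trb fun i j => abs_mul_entry_le _ _ i j hH fun i j => abs_mul_entry_le _ _ i j hX
        fun i j => abs_mul_entry_le _ _ i j hB (c.sand_G x).abs_entry
    have b2 : |(c.H x * (c.H x * (Bm B * (c.G x - c.H x)))).trace|
        ≤ k * (k * (2 / ε * (k * (2 / ε * (k * (trB B * (kD B ε * c.D x))))))) :=
      trb fun i j => abs_mul_entry_le _ _ i j hH fun i j => abs_mul_entry_le _ _ i j hH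
        fun i j => abs_mul_entry_le _ _ i j hB hY
    have e : P * c.D x = k * (k * (2 / ε * (k * (2 * kD B ε * c.D x * (k * (trB B * (2 / ε)))))))
        + k * (k * (2 / ε * (k * (2 / ε * (k * (trB B * (kD B ε * c.D x))))))) := by
      rw [hP]; ring
    rw [hN, hsplit, e]
    linarith [neg_abs_le (c.H x * ((c.Γ x - c.H x) * (Bm B * c.G x))).trace,
      neg_abs_le (c.H x * (c.H x * (Bm B * (c.G x - c.H x)))).trace]
  have hV := c.hyp.pin
  have t0 : Tame fun x => 3 * L x - 2 * trB B - P * c.D x :=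
    ((tL.const_mul _).sub (Tame.const _)).sub (c.tame_D.const_mul _)
  refine le_trans ?_ (hV.ex_mono t0 c.tame_N hpt)
  rw [hV.ex_sub ((tL.const_mul _).sub (Tame.const _)) (c.tame_D.const_mul _),
    hV.ex_sub (tL.const_mul _) (Tame.const _), ex_const_mul (f := L), ex_const_mul (f := c.D),
    hV.ex_const]
  have hL1 : (1 + σ ^ 4) * ex V L = trB B := by
    simp only [L]
    rw [hV.ex_sum Finset.univ (f := fun i x => ∑ j, Bm B i j * c.H x j i) fun i _ =>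
      Tame.sum _ fun j _ => (c.tame_H j i).const_mul _, Finset.mul_sum]
    refine Finset.sum_congr rfl fun i _ => ?_
    rw [hV.ex_sum Finset.univ (f := fun j x => Bm B i j * c.H x j i) fun j _ =>
      (c.tame_H j i).const_mul _, Finset.mul_sum,
      Finset.sum_eq_single i]
    · rw [ex_const_mul, mul_left_comm, c.mean_H, if_pos rfl, mul_one]
      rfl
    · intro j _ hj
      rw [ex_const_mul, mul_left_comm, c.mean_H, if_neg hj, mul_zero]
    · simp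
  have hlow : trB B * (1 - σ ^ 4) ≤ ex V L := by
    refine le_of_mul_le_mul_left ?_ (by positivity : (0 : ℝ) < 1 + σ ^ 4)
    rw [hL1]
    nlinarith [mul_nonneg htr0 (mul_nonneg h4.le h4.le)]
  have hD := mul_le_mul_of_nonneg_left c.ex_D_le hP0
  have h41 : σ ^ 4 ≤ σ := by
    have := pow_le_pow_of_le_one hσ.le hσ1 (show 1 ≤ 4 by norm_num)
    linarith
  have hK : σ ^ 4 * (3 * trB B + P * (2 * Λ * ((k : ℝ) ^ 2 * (2 / ε) ^ 2) + 1))
      ≤ σ * (3 * trB B + P * (2 * Λ * ((k : ℝ) ^ 2 * (2 / ε) ^ 2) + 1)) :=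
    mul_le_mul_of_nonneg_right h41 (by positivity)
  linarith

end Vale.P254.Skew
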