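import Vale.Agent.P254.Skew.Moments
import Vale.Agent.P254.Skew.Alg

/-! # The two conditional laws of a soft moment map -/

namespace Vale.P254.Skew

open MeasureTheory Filter Topology
open scoped RealInnerProductSpace Matrix

variable {k : ℕ} {W : E k → ℝ} {a b : ℝ}

/-! ## Hessians as matrices -/

/-- The Hessian matrix. -/
noncomputable def Hs (W : E k → ℝ) (x : E k) : Mat k :=
  Matrix.of fun i j => D2 W x (bv i) (bv j)

theorem Hs_apply (W : E k → ℝ) (x : E k) (i j : Fin k) : Hs W x i j = D2 W x (bv i) (bv j) := rfl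

/-- A vector of coordinates as a point. -/
noncomputable def pt (v : Fin k → ℝ) : E k := ∑ i, v i • bv i

@[simp] theorem pt_apply (v : Fin k → ℝ) (i : Fin k) : pt v i = v i := by
  simp [pt, bv, Pi.single_apply]

theorem norm_pt_sq (v : Fin k → ℝ) : ‖pt v‖ ^ 2 = v ⬝ᵥ v := by
  simp [EuclideanSpace.norm_sq_eq, dotProduct, ← sq]

theorem D2_pt (W : E k → ℝ) (x : E k) (v w : Fin k → ℝ) :
    D2 W x (pt v) (pt w) = v ⬝ᵥ Hs W x *ᵥ w := by
  simp only [D2, pt, map_sum, map_smul, ContinuousLinearMap.coe_sum', Finset.sum_apply,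
    ContinuousLinearMap.smul_apply, smul_eq_mul, dotProduct, Matrix.mulVec, Hs, Matrix.of_apply,
    Finset.mul_sum]
  rw [Finset.sum_comm]
  exact Finset.sum_congr rfl fun i _ => Finset.sum_congr rfl fun j _ => by ring

theorem Pinched.sand (h : Pinched W a b) (hb : 0 < b) (x : E k) : Sand (Hs W x) a b := by
  refine ⟨Matrix.ext fun i j => D2_symm h x _ _, h.pos, hb, fun v => ?_, fun v => ?_⟩
  · rw [← D2_pt, ← norm_pt_sq]
    exact h.lower x _
  · rw [← D2_pt, ← norm_pt_sq]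
    exact h.upper x _

theorem D2_add {f g : E k → ℝ} (hf : ContDiff ℝ 2 f) (hg : ContDiff ℝ 2 g) (x v w : E k) :
    D2 (fun z => f z + g z) x v w = D2 f x v w + D2 g x v w := by
  have h1 : fderiv ℝ (fun z => f z + g z) = fun z => fderiv ℝ f z + fderiv ℝ g z := funext fun z =>
    fderiv_fun_add (hf.differentiable (by norm_num) z) (hg.differentiable (by norm_num) z)
  rw [D2, h1, fderiv_fun_add ((hf.fderiv_right (m := 1) (by norm_num)).differentiable one_ne_zero x)
    ((hg.fderiv_right (m := 1) (by norm_num)).differentiable one_ne_zero x)]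
  simp [D2]

theorem D2_const_mul {f : E k → ℝ} (hf : ContDiff ℝ 2 f) (c : ℝ) (x v w : E k) :
    D2 (fun z => c * f z) x v w = c * D2 f x v w := by
  have h1 : fderiv ℝ (fun z => c * f z) = fun z => c • fderiv ℝ f z := funext fun z =>
    fderiv_const_mul (hf.differentiable (by norm_num) z) c
  rw [D2, h1, fderiv_fun_const_smul
    ((hf.fderiv_right (m := 1) (by norm_num)).differentiable one_ne_zero x)]
  simp [D2]

theorem Pinched.add {f g : E k → ℝ} {a' b' : ℝ} (hf : Pinched f a b) (hg : Pinched g a' b') :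
    Pinched (fun z => f z + g z) (a + a') (b + b') :=
  ⟨hf.smooth.add hg.smooth, add_pos hf.pos hg.pos,
    fun x w => by rw [D2_add hf.smooth hg.smooth]; linarith [hf.lower x w, hg.lower x w],
    fun x w => by rw [D2_add hf.smooth hg.smooth]; linarith [hf.upper x w, hg.upper x w]⟩

theorem Pinched.const_mul {c : ℝ} (h : Pinched W a b) (hc : 0 < c) :
    Pinched (fun z => c * W z) (c * a) (c * b) :=
  ⟨contDiff_const.mul h.smooth, mul_pos hc h.pos,
    fun x w => by rw [D2_const_mul h.smooth, mul_assoc]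
                  exact mul_le_mul_of_nonneg_left (h.lower x w) hc.le,
    fun x w => by rw [D2_const_mul h.smooth, mul_assoc]
                  exact mul_le_mul_of_nonneg_left (h.upper x w) hc.le⟩

theorem hasFDerivAt_comp_smul {f : E k → ℝ} (hf : Differentiable ℝ f) (r : ℝ) (x : E k) :
    HasFDerivAt (fun z => f (r • z)) (r • fderiv ℝ f (r • x)) x := by
  refine ((hf (r • x)).hasFDerivAt.comp x ((hasFDerivAt_id x).fun_const_smul r)).congr_fderiv ?_
  ext v
  simp

theorem fderiv_scaled {f : E k → ℝ} (hf : Differentiable ℝ f) (c r : ℝ) (x w : E k) :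
    fderiv ℝ (fun z => c * f (r • z)) x w = c * r * fderiv ℝ f (r • x) w := by
  rw [((hasFDerivAt_comp_smul hf r x).const_mul c).fderiv]
  simp [mul_assoc]

theorem D2_scaled {f : E k → ℝ} (hf : ContDiff ℝ 2 f) (c r : ℝ) (x v w : E k) :
    D2 (fun z => c * f (r • z)) x v w = c * r * r * D2 f (r • x) v w := by
  have hdf : Differentiable ℝ (fderiv ℝ f) :=
    (hf.fderiv_right (m := 1) (by norm_num)).differentiable one_ne_zero
  have h1 : fderiv ℝ (fun z => c * f (r • z)) = fun z => (c * r) • fderiv ℝ f (r • z) := by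
    funext z
    ext w
    simpa using fderiv_scaled (hf.differentiable (by norm_num)) c r z w
  have h2 : HasFDerivAt (fun z => (c * r) • fderiv ℝ f (r • z)) _ x :=
    ((hdf (r • x)).hasFDerivAt.comp x ((hasFDerivAt_id x).fun_const_smul r)).fun_const_smul (c * r)
  rw [D2, h1, h2.fderiv]
  simp [D2]
  ring

/-! ## The setting -/

/-- A potential with a soft moment map at scale `s ≤ 1`. -/
structure Ctx (V : E k → ℝ) (B : E k →L[ℝ] E k →L[ℝ] ℝ) (ε Λ s : ℝ) where
  hyp : Hyp V B ε Λ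
  hs : 0 < s
  hs1 : s ≤ 1
  soft : Soft V ε Λ s

variable {V : E k → ℝ} {B : E k →L[ℝ] E k →L[ℝ] ℝ} {ε Λ s : ℝ}

namespace Ctx

variable (c : Ctx V B ε Λ s)

/-- The untilted potential of `x` given `y`. -/
noncomputable def W0 : E k → ℝ := fun x => V x + s⁻¹ * c.soft.φ x

/-- The untilted potential of `y` given `x`. -/
noncomputable def U0 : E k → ℝ := fun y => (1 + s) / s * c.soft.ψ y

/-- Expectation given `y`. -/
noncomputable def Ey (y : E k) (f : E k → ℝ) : ℝ := ex (Skew.tilt c.W0 (s⁻¹ • y)) f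

/-- Expectation given `x`. -/
noncomputable def Ex (x : E k) (f : E k → ℝ) : ℝ := ex (Skew.tilt c.U0 (s⁻¹ • x)) f

theorem hε (c : Ctx V B ε Λ s) : 0 < ε := c.hyp.pin.pos

theorem hΛ (c : Ctx V B ε Λ s) : 0 < Λ := by
  have := c.soft.pinψ.pos
  rw [one_div, inv_pos] at this
  exact pos_of_mul_pos_right this (by linarith [c.hs])

theorem pinW : Pinched c.W0 (ε + s⁻¹ * ε) (Λ + s⁻¹ * Λ) :=
  c.hyp.pin.add (c.soft.pinφ.const_mul (inv_pos.2 c.hs))

theorem pinU : Pinched c.U0 (1 / (s * Λ)) (1 / (s * ε)) := by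
  have h := c.hs
  have := c.soft.pinψ.const_mul (c := (1 + s) / s) (by positivity)
  have e : ∀ r : ℝ, (1 + s) / s * (1 / ((1 + s) * r)) = 1 / (s * r) := fun r => by
    field_simp
  rwa [e, e] at this

theorem pinW' (y : E k) : Pinched (Skew.tilt c.W0 (s⁻¹ • y)) (ε + s⁻¹ * ε) (Λ + s⁻¹ * Λ) :=
  c.pinW.tilt _

theorem pinU' (x : E k) : Pinched (Skew.tilt c.U0 (s⁻¹ • x)) (1 / (s * Λ)) (1 / (s * ε)) :=
  c.pinU.tilt _

theorem hbW (c : Ctx V B ε Λ s) : 0 < Λ + s⁻¹ * Λ := by have := c.hs; have := c.hΛ; positivity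

theorem hbU (c : Ctx V B ε Λ s) : 0 < 1 / (s * ε) := by have := c.hs; have := c.hε; positivity

theorem zc_W (y : E k) : Zc (Skew.tilt c.W0 (s⁻¹ • y)) = Real.exp (c.soft.ψ y / s) := by
  rw [← c.soft.margX y, Zc]
  congr 1
  ext x
  simp only [Skew.tilt, W0, real_inner_smul_left, real_inner_comm x y]
  ring_nf

theorem zc_U (x : E k) : Zc (Skew.tilt c.U0 (s⁻¹ • x)) = Real.exp (c.soft.φ x / s) := by
  rw [← c.soft.margY x, Zc]
  congr 1
  ext y
  simp only [Skew.tilt, U0, real_inner_smul_left]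
  ring_nf

theorem ψ_eq : c.soft.ψ = fun y => s * logLap c.W0 (s⁻¹ • y) := by
  funext y
  rw [logLap, c.zc_W, Real.log_exp]
  field_simp [c.hs.ne']

theorem φ_eq : c.soft.φ = fun x => s * logLap c.U0 (s⁻¹ • x) := by
  funext x
  rw [logLap, c.zc_U, Real.log_exp]
  field_simp [c.hs.ne']

theorem contDiff_ψ (n : ℕ) : ContDiff ℝ n c.soft.ψ := by
  rw [c.ψ_eq]
  exact contDiff_const.mul ((c.pinW.contDiff_logLap n).comp (contDiff_const_smul s⁻¹))

theorem fderiv_ψ (y w : E k) : fderiv ℝ c.soft.ψ y w = c.Ey y fun x => ⟪x, w⟫ := by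
  rw [c.ψ_eq, fderiv_scaled ((c.pinW.contDiff_logLap 1).differentiable one_ne_zero),
    c.pinW.fderiv_logLap, mul_inv_cancel₀ c.hs.ne', one_mul, Ey]

theorem fderiv_φ (x w : E k) : fderiv ℝ c.soft.φ x w = c.Ex x fun y => ⟪y, w⟫ := by
  rw [c.φ_eq, fderiv_scaled ((c.pinU.contDiff_logLap 1).differentiable one_ne_zero),
    c.pinU.fderiv_logLap, mul_inv_cancel₀ c.hs.ne', one_mul, Ex]

theorem D2_ψ (y v w : E k) : s * D2 c.soft.ψ y v w
    = c.Ey y (fun x => ⟪x, v⟫ * ⟪x, w⟫) - c.Ey y (fun x => ⟪x, v⟫) * c.Ey y fun x => ⟪x, w⟫ := by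
  rw [c.ψ_eq, D2_scaled (c.pinW.contDiff_logLap 2), c.pinW.d2_logLap, ← mul_assoc, Ey, Ey, Ey]
  field_simp [c.hs.ne']

theorem D2_φ (x v w : E k) : s * D2 c.soft.φ x v w
    = c.Ex x (fun y => ⟪y, v⟫ * ⟪y, w⟫) - c.Ex x (fun y => ⟪y, v⟫) * c.Ex x fun y => ⟪y, w⟫ := by
  rw [c.φ_eq, D2_scaled (c.pinU.contDiff_logLap 2), c.pinU.d2_logLap, ← mul_assoc, Ex, Ex, Ex]
  field_simp [c.hs.ne']

theorem contDiff_Ey {f : E k → ℝ} (hf : Tame f) (n : ℕ) : ContDiff ℝ n fun y => c.Ey y f :=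
  ((c.pinW.contDiff_zc n).inv (fun θ => (c.pinW.tilt θ).zc_pos.ne') |>.mul
    (c.pinW.contDiff_integral_tilt hf n)).comp (contDiff_const_smul s⁻¹)

theorem contDiff_Ex {f : E k → ℝ} (hf : Tame f) (n : ℕ) : ContDiff ℝ n fun x => c.Ex x f :=
  ((c.pinU.contDiff_zc n).inv (fun θ => (c.pinU.tilt θ).zc_pos.ne') |>.mul
    (c.pinU.contDiff_integral_tilt hf n)).comp (contDiff_const_smul s⁻¹)

theorem fderiv_Ey {f : E k → ℝ} (hf : Tame f) (y v : E k) :
    s * fderiv ℝ (fun y => c.Ey y f) y v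
      = c.Ey y (fun x => ⟪x, v⟫ * f x) - c.Ey y (fun x => ⟪x, v⟫) * c.Ey y f := by
  have hd : Differentiable ℝ fun θ => ex (Skew.tilt c.W0 θ) f :=
    ((c.pinW.contDiff_zc 1).inv (fun θ => (c.pinW.tilt θ).zc_pos.ne') |>.mul
      (c.pinW.contDiff_integral_tilt hf 1)).differentiable one_ne_zero
  have := fderiv_scaled hd 1 s⁻¹ y v
  simp only [one_mul] at this
  simp only [Ey] at this ⊢
  rw [this, ← mul_assoc, mul_inv_cancel₀ c.hs.ne', one_mul, c.pinW.hasFDerivAt_ex_tilt hf]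

theorem fderiv_Ex {f : E k → ℝ} (hf : Tame f) (x v : E k) :
    s * fderiv ℝ (fun x => c.Ex x f) x v
      = c.Ex x (fun y => ⟪y, v⟫ * f y) - c.Ex x (fun y => ⟪y, v⟫) * c.Ex x f := by
  have hd : Differentiable ℝ fun θ => ex (Skew.tilt c.U0 θ) f :=
    ((c.pinU.contDiff_zc 1).inv (fun θ => (c.pinU.tilt θ).zc_pos.ne') |>.mul
      (c.pinU.contDiff_integral_tilt hf 1)).differentiable one_ne_zero
  have := fderiv_scaled hd 1 s⁻¹ x v
  simp only [one_mul] at this
  simp only [Ex] at this ⊢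
  rw [this, ← mul_assoc, mul_inv_cancel₀ c.hs.ne', one_mul, c.pinU.hasFDerivAt_ex_tilt hf]

theorem tame_Ex {F : E k → E k → ℝ} (hF : Tame2 F) : Tame fun x => c.Ex x (F x) :=
  tame_cond c.pinU c.hbU s⁻¹ hF

theorem tame_Ey {F : E k → E k → ℝ} (hF : Tame2 F) : Tame fun y => c.Ey y fun x => F x y :=
  tame_cond c.pinW c.hbW s⁻¹ hF.swap

/-- The joint density. -/
noncomputable def dens (x y : E k) : ℝ :=
  Real.exp (-(V x + (c.soft.φ x + (1 + s) * c.soft.ψ y - ⟪x, y⟫) / s))

theorem Ex_eq (x : E k) (f : E k → ℝ) :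
    Real.exp (-V x) * c.Ex x f = ∫ y, c.dens x y * f y := by
  simp only [Ex, ex, smul_eq_mul, c.zc_U, ← Real.exp_neg]
  rw [← mul_assoc, ← Real.exp_add, ← integral_const_mul]
  congr 1
  ext y
  rw [← mul_assoc, ← Real.exp_add, dens, Skew.tilt, U0, real_inner_smul_left]
  ring_nf

theorem Ey_eq (y : E k) (f : E k → ℝ) :
    Real.exp (-c.soft.ψ y) * c.Ey y f = ∫ x, c.dens x y * f x := by
  simp only [Ey, ex, smul_eq_mul, c.zc_W, ← Real.exp_neg]
  rw [← mul_assoc, ← Real.exp_add, ← integral_const_mul]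
  congr 1
  ext x
  rw [← mul_assoc, ← Real.exp_add, dens, Skew.tilt, W0, real_inner_smul_left, real_inner_comm y x]
  field_simp [c.hs.ne']
  ring_nf

/-- Fubini for the joint law. -/
theorem swap {F : E k → E k → ℝ} (hF : Tame2 F) :
    ex V (fun x => c.Ex x (F x)) = ex c.soft.ψ fun y => c.Ey y fun x => F x y := by
  have hK : Continuous fun p : E k × E k => c.dens p.1 p.2 := by
    simp only [dens]
    have := c.hyp.pin.continuous
    have := c.soft.pinφ.continuous
    have := c.soft.pinψ.continuous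
    fun_prop
  have hint : Integrable (fun p : E k × E k => c.dens p.1 p.2 * F p.1 p.2)
      (volume.prod volume) := by
    have hc : Continuous fun p : E k × E k => c.dens p.1 p.2 * F p.1 p.2 := hK.mul hF.1
    refine (integrable_prod_iff hc.aestronglyMeasurable).2 ⟨?_, ?_⟩
    · refine Eventually.of_forall fun x => ?_
      have h0 := (c.pinU' x).integrable (hF.section_right x)
      refine (h0.const_mul (Real.exp (-V x) * Real.exp (-(c.soft.φ x / s)))).congr
        (Eventually.of_forall fun y => ?_)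
      simp only [smul_eq_mul, ← mul_assoc, ← Real.exp_add, dens, Skew.tilt, U0,
        real_inner_smul_left]
      ring_nf
    · refine (c.hyp.pin.integrable (c.tame_Ex hF.abs)).congr (Eventually.of_forall fun x => ?_)
      simp only [smul_eq_mul, c.Ex_eq]
      congr 1
      ext y
      rw [Real.norm_eq_abs, abs_mul, dens, abs_of_pos (Real.exp_pos _)]
  simp only [ex, c.hyp.mass, c.soft.mass, inv_one, one_mul, smul_eq_mul, c.Ex_eq, c.Ey_eq]
  exact integral_integral_swap (f := fun x y => c.dens x y * F x y) hint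

end Ctx

end Vale.P254.Skew
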