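import Vale.Agent.P254.Skew.Exist
import Vale.Agent.P254.Skew.EstCost
import Vale.Agent.P254.Skew.EstGain

/-! # The sharp skewness inequality -/

namespace Vale.P254.Skew

open MeasureTheory Matrix

variable {k : ℕ} {V : E k → ℝ} {B : E k →L[ℝ] E k →L[ℝ] ℝ} {ε Λ : ℝ}

theorem symm3_third (V : E k → ℝ) : Symm3 (third V) := fun _ _ _ =>
  ⟨ex_congr fun x => by ring, ex_congr fun x => by ring⟩

theorem cPhi_left_only (A : Mat k) (C : Ten k) :
    cPhi A 1 1 C C = ∑ a, ∑ b, ∑ l, ∑ a', C a b l * A a a' * C a' b l := by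
  simp [cPhi, Matrix.one_apply]

theorem Ctx.ex_cPhi_H_le {s : ℝ} (c : Ctx V B ε Λ s) {C : Ten k} (hC : Symm3 C) :
    (1 + s) * ex V (c.cost C) ≤ ∑ a, ∑ b, ∑ l, C a b l ^ 2 := by
  have hV := c.hyp.pin
  have hq : (0 : ℝ) ≤ 1 + s := by linarith [c.hs]
  have t : ∀ a b l a', Tame fun x => C a b l * c.H x a a' * C a' b l := fun a b l a' =>
    ((c.tame_H a a').const_mul _).mul (Tame.const _)
  have h1 : ex V (c.cost C) ≤ ex V fun x => cPhi (c.H x) 1 1 C C := by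
    refine hV.ex_mono (c.tame_cost C) ?_ fun x => (c.sand_H x).cPhi_cube_le hC
    simp only [cPhi_left_only]
    exact Tame.sum _ fun a _ => Tame.sum _ fun b _ => Tame.sum _ fun l _ =>
      Tame.sum _ fun a' _ => t a b l a'
  refine (mul_le_mul_of_nonneg_left h1 hq).trans_eq ?_
  simp only [cPhi_left_only]
  rw [hV.ex_sum Finset.univ fun a _ => Tame.sum _ fun b _ => Tame.sum _ fun l _ =>
    Tame.sum _ fun a' _ => t a b l a', Finset.mul_sum]
  refine Finset.sum_congr rfl fun a _ => ?_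
  rw [hV.ex_sum Finset.univ fun b _ => Tame.sum _ fun l _ => Tame.sum _ fun a' _ => t a b l a',
    Finset.mul_sum]
  refine Finset.sum_congr rfl fun b _ => ?_
  rw [hV.ex_sum Finset.univ fun l _ => Tame.sum _ fun a' _ => t a b l a', Finset.mul_sum]
  refine Finset.sum_congr rfl fun l _ => ?_
  rw [hV.ex_sum Finset.univ fun a' _ => t a b l a', Finset.mul_sum]
  have e : ∀ a', (1 + s) * ex V (fun x => C a b l * c.H x a a' * C a' b l)
      = if a = a' then C a b l ^ 2 else 0 := fun a' => by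
    rw [ex_mul_const, ex_const_mul,
      show (1 + s) * (C a b l * ex V (fun x => c.H x a a') * C a' b l)
        = C a b l * C a' b l * ((1 + s) * ex V fun x => c.H x a a') by ring, c.mean_H]
    split_ifs with h
    · subst h; ring
    · ring
  simp [e]

/-- Pairing the half third moment with `K3`. -/
theorem Ctx.third_pairing {σ : ℝ} (c : Ctx V B ε Λ (σ ^ 4)) (hσ : 0 < σ) (hσ2 : σ ≤ 1 / 2) :
    (∑ i, ∑ j, ∑ l, third V i j l ^ 2) / 2
        - σ * ∑ i, ∑ j, ∑ l, |third V i j l / 2|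
            * (4 * (24 / Real.sqrt ε ^ 3) + 3 * |third V i j l|)
      ≤ 2 * ∑ i, ∑ j, ∑ l, third V i j l / 2 * c.K3 i j l := by
  simp only [Finset.mul_sum, Finset.sum_div, ← Finset.sum_sub_distrib]
  refine Finset.sum_le_sum fun i _ => Finset.sum_le_sum fun j _ => Finset.sum_le_sum fun l _ => ?_
  have ht := c.third_near i j l
  rw [show Real.sqrt (σ ^ 4) = σ ^ 2 by
    rw [show σ ^ 4 = (σ ^ 2) ^ 2 by ring, Real.sqrt_sq (by positivity)]] at ht
  set T := third V i j l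
  set K := c.K3 i j l
  set a0 := 24 / Real.sqrt ε ^ 3
  have ha : 0 ≤ a0 := by positivity
  have hσσ : σ ^ 2 ≤ 1 / 4 := by nlinarith
  have hK : |K| ≤ |T| + a0 := by
    have h := abs_sub_abs_le_abs_sub (2 * K) T
    rw [abs_sub_comm (2 * K), abs_mul, abs_two] at h
    have h' := mul_le_mul_of_nonneg_right hσσ (by positivity : 0 ≤ a0 + 3 * |K|)
    linarith [abs_nonneg T]
  have h9 : |T - 2 * K| ≤ σ * (4 * a0 + 3 * |T|) := by
    refine ht.trans ?_
    exact (mul_le_mul_of_nonneg_right (by nlinarith : σ ^ 2 ≤ σ) (by positivity)).trans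
      (mul_le_mul_of_nonneg_left (by linarith) hσ.le)
  have h10 : T / 2 * (T - 2 * K) ≤ |T / 2| * (σ * (4 * a0 + 3 * |T|)) :=
    (le_abs_self _).trans ((abs_mul _ _).trans_le (mul_le_mul_of_nonneg_left h9 (abs_nonneg _)))
  linarith

theorem final_arith {A Q N Jx QX Hc J P Φ S t σ M k0 kq q κ1 κ2 κ3 κ4 κ5 κ6 κ7 : ℝ}
    (hq1 : 1 ≤ q) (hq2 : q ≤ 2) (hS : 0 ≤ S) (hM : 0 ≤ σ * M)
    (m : q * J - 1 / 4 * A - q / 4 * Q + N + Jx - 1 / 4 * QX - 1 / 4 * Hc ≤ kq) (hk : kq ≤ k0)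
    (e1 : |A - Φ| ≤ κ1 * σ) (e2 : |Hc - Φ| ≤ κ2 * σ) (e3 : |Q - Φ| ≤ κ3 * σ)
    (e4 : |QX - Φ| ≤ κ4 * σ) (e5 : |J - P| ≤ κ5 * σ) (e6 : |Jx - q * J| ≤ κ6 * σ)
    (e7 : t - κ7 * σ ≤ N) (hP : S / 2 - σ * M ≤ 2 * P) (hΦ : q * Φ ≤ S / 4) :
    S / 4 ≤ k0 - t + (κ1 + κ2 + κ3 + κ4 + 4 * κ5 + κ6 + κ7 + 2 * M) * σ := by
  have n1 := (abs_nonneg _).trans e1
  have n2 := (abs_nonneg _).trans e2
  have n3 := (abs_nonneg _).trans e3
  have n4 := (abs_nonneg _).trans e4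
  have n5 := (abs_nonneg _).trans e5
  obtain ⟨e1a, e1b⟩ := abs_le.1 e1
  obtain ⟨e2a, e2b⟩ := abs_le.1 e2
  obtain ⟨e3a, e3b⟩ := abs_le.1 e3
  obtain ⟨e4a, e4b⟩ := abs_le.1 e4
  obtain ⟨e5a, e5b⟩ := abs_le.1 e5
  obtain ⟨e6a, e6b⟩ := abs_le.1 e6
  have hΦ2 : (3 / 4 + q / 4) * Φ ≤ S / 4 := by
    rcases le_or_gt Φ 0 with h | h
    · nlinarith
    · exact (mul_le_mul_of_nonneg_right (by linarith) h.le).trans hΦ
  have b3 := mul_le_mul_of_nonneg_left e3b (by linarith : 0 ≤ q / 4)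
  have b3' := mul_le_mul_of_nonneg_right (by linarith : q / 4 ≤ 1) n3
  have b5 := mul_le_mul_of_nonneg_left e5a (by linarith : 0 ≤ 2 * q)
  have b5' := mul_le_mul_of_nonneg_right (by linarith : 2 * q ≤ 4) n5
  have bP := mul_le_mul_of_nonneg_left hP (by linarith : 0 ≤ q)
  have bM := mul_le_mul_of_nonneg_right hq2 hM
  have bS := mul_le_mul_of_nonneg_right hq1 hS
  linarith

/-- The sharp skewness inequality. -/
theorem skew : SkewStmt := by
  intro k V B ε Λ hyp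
  rcases Nat.eq_zero_or_pos k with hk | hk
  · subst hk
    simp [trB]
  have hεΛ : ε ≤ Λ := by
    have h1 := hyp.pin.lower 0 (bv ⟨0, hk⟩)
    have h2 := hyp.pin.upper 0 (bv ⟨0, hk⟩)
    rw [norm_bv] at h1 h2
    linarith
  set C : Ten k := fun a b l => third V a b l / 2 with hCdef
  have hC : Symm3 C := fun a b l => by
    simp only [hCdef]
    exact ⟨by rw [(symm3_third V a b l).1], by rw [(symm3_third V a b l).2]⟩
  set S := ∑ a, ∑ b, ∑ l, third V a b l ^ 2 with hS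
  have hS0 : 0 ≤ S := Finset.sum_nonneg fun i _ => Finset.sum_nonneg fun j _ =>
    Finset.sum_nonneg fun l _ => sq_nonneg _
  obtain ⟨K1, h1⟩ := est_cost_GGH hyp C
  obtain ⟨K2, h2⟩ := est_cost_hhh hyp C
  obtain ⟨K3, h3⟩ := est_cost_QY hyp C
  obtain ⟨K4, h4⟩ := est_cost_QX hyp C
  obtain ⟨K5, h5⟩ := est_J0 hyp hC
  obtain ⟨K6, h6⟩ := est_Jx hyp hC
  obtain ⟨K7, h7⟩ := est_N hyp
  set M := ∑ i, ∑ j, ∑ l, |third V i j l / 2|
    * (4 * (24 / Real.sqrt ε ^ 3) + 3 * |third V i j l|) with hM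
  have hM0 : 0 ≤ M := Finset.sum_nonneg fun i _ => Finset.sum_nonneg fun j _ =>
    Finset.sum_nonneg fun l _ => by positivity
  set K := |K1 + K2 + K3 + K4 + 4 * K5 + K6 + K7 + 2 * M| with hK
  have key : ∀ σ : ℝ, 0 < σ → σ ≤ 1 / 2 → S / 4 ≤ k - trB B + K * σ := by
    intro σ hσ hσ2
    have hσ1 : σ ≤ 1 := by linarith
    obtain ⟨soft⟩ := exists_soft k V B ε Λ hyp hεΛ (σ ^ 4) (by positivity)
    let c : Ctx V B ε Λ (σ ^ 4) := ⟨hyp, by positivity, pow_le_one₀ hσ.le hσ1, soft⟩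
    have m := c.master hC
    rw [show (1 + σ ^ 4) / (4 * σ ^ 4) * c.EE (c.QY C)
        = (1 + σ ^ 4) / 4 * ((σ ^ 4)⁻¹ * c.EE (c.QY C)) by field_simp,
      show σ ^ 4 / 4 * c.EE (c.QX C) = 1 / 4 * (σ ^ 4 * c.EE (c.QX C)) by ring] at m
    have hcost := c.ex_cPhi_H_le hC
    have hC2 : ∑ a, ∑ b, ∑ l, C a b l ^ 2 = S / 4 := by
      simp only [hCdef, hS, Finset.sum_div, div_pow]
      norm_num
    rw [hC2] at hcost
    have hs0 : 0 < σ ^ 4 := by positivity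
    have hs1 : σ ^ 4 ≤ 1 := pow_le_one₀ hσ.le hσ1
    have := final_arith (κ1 := K1) (κ2 := K2) (κ3 := K3) (κ4 := K4) (κ5 := K5) (κ6 := K6)
      (κ7 := K7) (by linarith) (by linarith) hS0 (mul_nonneg hσ.le hM0) m
      (div_le_self (Nat.cast_nonneg k) (one_le_pow₀ (by linarith)))
      (h1 σ c hσ hσ1) (h2 σ c hσ hσ1) (h3 σ c hσ hσ1) (h4 σ c hσ hσ1) (h5 σ c hσ hσ1)
      (h6 σ c hσ hσ1) (h7 σ c hσ hσ1) (c.third_pairing hσ hσ2) hcost
    exact this.trans (add_le_add le_rfl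
      (mul_le_mul_of_nonneg_right (le_abs_self _) hσ.le))
  by_contra hlt
  push_neg at hlt
  set d := S / 4 - ((k : ℝ) - trB B) with hd
  have hd0 : 0 < d := by
    have : 4 * ((k : ℝ) - trB B) < S := hlt
    linarith
  have hK0 : 0 ≤ K := abs_nonneg _
  have := key (min (1 / 2) (d / (K + 1))) (lt_min (by norm_num) (by positivity)) (min_le_left _ _)
  have h8 := mul_le_mul_of_nonneg_left (min_le_right (1 / 2) (d / (K + 1))) hK0
  have h9 : K * (d / (K + 1)) < d := by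
    rw [mul_div_assoc', div_lt_iff₀ (by positivity)]
    nlinarith
  linarith

end Vale.P254.Skew
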