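import Vale.Agent.P254.Skew.Gauss

/-! # Moments of tilted measures, uniform in the tilt -/

namespace Vale.P254.Skew

open MeasureTheory Filter Topology
open scoped RealInnerProductSpace

variable {k : ℕ} {W : E k → ℝ} {a b : ℝ}

/-- The coordinate vector. -/
noncomputable def bv (i : Fin k) : E k := EuclideanSpace.single i 1

@[simp] theorem inner_bv (x : E k) (i : Fin k) : ⟪x, bv i⟫ = x i := by
  simp [bv, EuclideanSpace.inner_single_right]

@[simp] theorem bv_inner (x : E k) (i : Fin k) : ⟪bv i, x⟫ = x i := by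
  simp [bv, EuclideanSpace.inner_single_left]

@[simp] theorem norm_bv (i : Fin k) : ‖(bv i : E k)‖ = 1 := by simp [bv]

theorem tame_coord (i : Fin k) : Tame fun x : E k => x i := by
  simpa using tame_inner (bv i)

theorem sum_smul_bv (v : E k) : ∑ i, v i • bv i = v := by
  ext j
  simp [bv, Pi.single_apply]

/-- Jointly continuous, of at most polynomial growth. -/
def Tame2 (F : E k → E k → ℝ) : Prop :=
  Continuous (Function.uncurry F) ∧
    ∃ (C : ℝ) (n : ℕ), 0 ≤ C ∧ ∀ x y, |F x y| ≤ C * ((1 + ‖x‖) * (1 + ‖y‖)) ^ n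

theorem Tame.tame2_left {f : E k → ℝ} (hf : Tame f) : Tame2 fun x _ => f x := by
  obtain ⟨hc, C, n, hC⟩ := hf
  refine ⟨hc.comp continuous_fst, max C 0, n, le_max_right _ _, fun x y => (hC x).trans ?_⟩
  exact mul_le_mul (le_max_left _ _) (pow_le_pow_left₀ (by positivity)
    (le_mul_of_one_le_right (by positivity) (by linarith [norm_nonneg y])) n) (by positivity)
    (le_max_right _ _)

theorem Tame.tame2_right {f : E k → ℝ} (hf : Tame f) : Tame2 fun _ y => f y := by
  obtain ⟨hc, C, n, hC⟩ := hf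
  refine ⟨hc.comp continuous_snd, max C 0, n, le_max_right _ _, fun x y => (hC y).trans ?_⟩
  exact mul_le_mul (le_max_left _ _) (pow_le_pow_left₀ (by positivity)
    (le_mul_of_one_le_left (by positivity) (by linarith [norm_nonneg x])) n) (by positivity)
    (le_max_right _ _)

theorem Tame2.swap {F : E k → E k → ℝ} (hF : Tame2 F) : Tame2 fun y x => F x y := by
  obtain ⟨hc, C, n, hC0, hC⟩ := hF
  exact ⟨hc.comp (continuous_snd.prodMk continuous_fst), C, n, hC0,
    fun y x => (hC x y).trans_eq (by rw [mul_comm (1 + ‖x‖)])⟩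

theorem Tame2.mul {F G : E k → E k → ℝ} (hF : Tame2 F) (hG : Tame2 G) :
    Tame2 fun x y => F x y * G x y := by
  obtain ⟨hc, C, n, hC0, hC⟩ := hF
  obtain ⟨hd, D, m, hD0, hD⟩ := hG
  refine ⟨hc.mul hd, C * D, n + m, by positivity, fun x y => ?_⟩
  rw [abs_mul, pow_add]
  exact (mul_le_mul (hC x y) (hD x y) (abs_nonneg _) (by positivity)).trans_eq (by ring)

theorem Tame2.add {F G : E k → E k → ℝ} (hF : Tame2 F) (hG : Tame2 G) :
    Tame2 fun x y => F x y + G x y := by
  obtain ⟨hc, C, n, hC0, hC⟩ := hF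
  obtain ⟨hd, D, m, hD0, hD⟩ := hG
  refine ⟨hc.add hd, C + D, max n m, by positivity, fun x y => (abs_add_le _ _).trans ?_⟩
  have h1 : (1 : ℝ) ≤ (1 + ‖x‖) * (1 + ‖y‖) :=
    one_le_mul_of_one_le_of_one_le (by linarith [norm_nonneg x]) (by linarith [norm_nonneg y])
  rw [add_mul]
  exact add_le_add
    ((hC x y).trans (mul_le_mul_of_nonneg_left (pow_le_pow_right₀ h1 (le_max_left n m)) hC0))
    ((hD x y).trans (mul_le_mul_of_nonneg_left (pow_le_pow_right₀ h1 (le_max_right n m)) hD0))

theorem Tame2.const (c : ℝ) : Tame2 fun (_ _ : E k) => c := (Tame.const c).tame2_left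

theorem Tame2.neg {F : E k → E k → ℝ} (hF : Tame2 F) : Tame2 fun x y => -F x y := by
  simpa using (Tame2.const (-1)).mul hF

theorem Tame2.sub {F G : E k → E k → ℝ} (hF : Tame2 F) (hG : Tame2 G) :
    Tame2 fun x y => F x y - G x y := by
  simpa [sub_eq_add_neg] using hF.add hG.neg

theorem Tame2.pow {F : E k → E k → ℝ} (hF : Tame2 F) : ∀ n : ℕ, Tame2 fun x y => F x y ^ n
  | 0 => by simpa using Tame2.const (k := k) 1
  | n + 1 => by simpa [pow_succ] using (hF.pow n).mul hF

theorem Tame2.abs {F : E k → E k → ℝ} (hF : Tame2 F) : Tame2 fun x y => |F x y| := by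
  obtain ⟨hc, C, n, hC0, hC⟩ := hF
  exact ⟨hc.abs, C, n, hC0, fun x y => (abs_abs _).trans_le (hC x y)⟩

theorem Tame2.sum {ι : Type*} (s : Finset ι) {F : ι → E k → E k → ℝ}
    (hF : ∀ i ∈ s, Tame2 (F i)) : Tame2 fun x y => ∑ i ∈ s, F i x y := by
  classical
  induction s using Finset.induction_on with
  | empty => simpa using Tame2.const (k := k) 0
  | insert i s hi ih =>
    simp only [Finset.sum_insert hi]
    exact (hF i (Finset.mem_insert_self i s)).add
      (ih fun j hj => hF j (Finset.mem_insert_of_mem hj))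

theorem Tame2.section_right {F : E k → E k → ℝ} (hF : Tame2 F) (x : E k) : Tame (F x) := by
  obtain ⟨hc, C, n, hC0, hC⟩ := hF
  refine ⟨hc.comp (continuous_const.prodMk continuous_id), C * (1 + ‖x‖) ^ n, n,
    fun y => (Real.norm_eq_abs _).trans_le ((hC x y).trans_eq ?_)⟩
  rw [mul_pow]
  ring

/-! ## Exponential and polynomial moments -/

theorem ex_exp_inner (h : Pinched W a b) (θ η : E k) :
    ex (Skew.tilt W θ) (fun x => Real.exp ⟪η, x⟫)
      = Real.exp (logLap W (θ + η) - logLap W θ) := by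
  rw [Real.exp_sub, logLap, logLap, Real.exp_log (h.tilt _).zc_pos,
    Real.exp_log (h.tilt _).zc_pos, div_eq_inv_mul]
  simp only [ex, smul_eq_mul, ← Real.exp_add, Zc, Skew.tilt, inner_add_left]
  congr 2
  ext x
  congr 1
  ring

theorem exp_moment_le (h : Pinched W a b) (hb : 0 < b) (θ η : E k) :
    ex (Skew.tilt W θ) (fun x => Real.exp ⟪η, x⟫)
      ≤ Real.exp (ex (Skew.tilt W θ) (fun x => ⟪x, η⟫) + ‖η‖ ^ 2 / (2 * a)) := by
  rw [ex_exp_inner h, Real.exp_le_exp]
  have e : ∀ ζ, logLap (Skew.tilt W θ) ζ = logLap W (θ + ζ) := fun ζ => by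
    have : ∀ x, Skew.tilt (Skew.tilt W θ) ζ x = Skew.tilt W (θ + ζ) x := fun x => by
      simp only [Skew.tilt, inner_add_left]
      ring
    rw [logLap, logLap, funext this]
  have := ((h.tilt θ).pinched_logLap hb).quad_upper η
  rw [e, e, add_zero, (h.tilt θ).fderiv_logLap] at this
  have z : ∀ x, Skew.tilt (Skew.tilt W θ) 0 x = Skew.tilt W θ x := fun x => by simp [Skew.tilt]
  rw [funext z] at this
  have e2 : 1 / a / 2 * ‖η‖ ^ 2 = ‖η‖ ^ 2 / (2 * a) := by ring
  linarith

/-- All central moments, with a free scale `t`. -/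
theorem central_moment_le (h : Pinched W a b) (hb : 0 < b) (θ w : E k) (n : ℕ) {t : ℝ}
    (ht : 0 < t) :
    t ^ n * ex (Skew.tilt W θ) (fun x => |⟪x, w⟫ - ex (Skew.tilt W θ) (fun x => ⟪x, w⟫)| ^ n)
      ≤ 2 * n.factorial * Real.exp (t ^ 2 * ‖w‖ ^ 2 / (2 * a)) := by
  set m := ex (Skew.tilt W θ) (fun x => ⟪x, w⟫) with hm
  have hp := h.tilt θ
  have hlin : ∀ r : ℝ, ex (Skew.tilt W θ) (fun x => ⟪x, r • w⟫) = r * m := fun r => by
    simp only [inner_smul_right, ex_const_mul, ← hm]
  have hexp : ∀ r : ℝ, ex (Skew.tilt W θ) (fun x => Real.exp (r * (⟪x, w⟫ - m)))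
      ≤ Real.exp (r ^ 2 * ‖w‖ ^ 2 / (2 * a)) := fun r => by
    have := exp_moment_le h hb θ (r • w)
    rw [hlin, norm_smul, mul_pow, Real.norm_eq_abs, sq_abs] at this
    calc _ = Real.exp (-(r * m)) * ex (Skew.tilt W θ) (fun x => Real.exp ⟪r • w, x⟫) := by
          rw [← ex_const_mul]
          refine ex_congr fun x => ?_
          rw [← Real.exp_add, real_inner_smul_left, real_inner_comm]
          ring_nf
      _ ≤ _ := mul_le_mul_of_nonneg_left this (Real.exp_pos _).le
      _ = _ := by rw [← Real.exp_add]; ring_nf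
  have hint : ∀ r : ℝ, Integrable fun x => Real.exp (-Skew.tilt W θ x)
      • Real.exp (r * (⟪x, w⟫ - m)) := fun r => by
    refine ((h.tilt (θ + r • w)).integrable_exp.const_mul (Real.exp (-(r * m)))).congr
      (Eventually.of_forall fun x => ?_)
    simp only [smul_eq_mul, ← Real.exp_add, Skew.tilt, inner_add_left, real_inner_smul_left,
      real_inner_comm x w]
    ring_nf
  have hpt : ∀ x, t ^ n * |⟪x, w⟫ - m| ^ n
      ≤ n.factorial * (Real.exp (t * (⟪x, w⟫ - m)) + Real.exp (-t * (⟪x, w⟫ - m))) := by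
    intro x
    set u := ⟪x, w⟫ - m
    have h1 := Real.pow_div_factorial_le_exp (x := |t * u|) (abs_nonneg _) n
    rw [div_le_iff₀ (by positivity), abs_mul, abs_of_pos ht, mul_pow] at h1
    refine h1.trans ?_
    rw [mul_comm]
    refine mul_le_mul_of_nonneg_left ?_ (by positivity)
    rcases abs_cases u with ⟨e, -⟩ | ⟨e, -⟩ <;> rw [e]
    · exact le_add_of_nonneg_right (Real.exp_pos _).le
    · rw [mul_neg, ← neg_mul]
      exact le_add_of_nonneg_left (Real.exp_pos _).le
  have htame : Tame fun x => |⟪x, w⟫ - m| ^ n :=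
    (((tame_inner w).sub (Tame.const m)).norm).pow n
  calc t ^ n * ex (Skew.tilt W θ) (fun x => |⟪x, w⟫ - m| ^ n)
      = ex (Skew.tilt W θ) (fun x => t ^ n * |⟪x, w⟫ - m| ^ n) := (ex_const_mul _ _).symm
    _ ≤ ex (Skew.tilt W θ) (fun x => (n.factorial : ℝ)
          * (Real.exp (t * (⟪x, w⟫ - m)) + Real.exp (-t * (⟪x, w⟫ - m)))) := by
        refine mul_le_mul_of_nonneg_left ?_ (inv_nonneg.2 hp.zc_pos.le)
        refine integral_mono (hp.integrable (htame.const_mul _)) ?_ fun x =>
          mul_le_mul_of_nonneg_left (hpt x) (Real.exp_pos _).le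
        refine (((hint t).add (hint (-t))).const_mul (n.factorial : ℝ)).congr
          (Eventually.of_forall fun x => ?_)
        simp only [Pi.add_apply, smul_eq_mul]
        ring
    _ = (n.factorial : ℝ) * (ex (Skew.tilt W θ) (fun x => Real.exp (t * (⟪x, w⟫ - m)))
          + ex (Skew.tilt W θ) (fun x => Real.exp (-t * (⟪x, w⟫ - m)))) := by
        rw [ex_const_mul]
        simp only [ex, smul_add, integral_add (hint t) (hint (-t))]
    _ ≤ _ := by
        have h1 := hexp t
        have h2 := hexp (-t)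
        rw [neg_sq] at h2
        nlinarith [(Nat.cast_nonneg n.factorial : (0 : ℝ) ≤ n.factorial)]

theorem norm_le_sum_abs (v : E k) : ‖v‖ ≤ ∑ i, |v i| := by
  conv_lhs => rw [← sum_smul_bv v]
  exact (norm_sum_le _ _).trans (le_of_eq (Finset.sum_congr rfl fun i _ => by
    rw [norm_smul, norm_bv, mul_one, Real.norm_eq_abs]))

/-- Polynomial moments grow polynomially in the tilt. -/
theorem exists_moment_bound (h : Pinched W a b) (hb : 0 < b) (n : ℕ) :
    ∃ C : ℝ, 0 ≤ C ∧ ∀ θ, ex (Skew.tilt W θ) (fun x => (1 + ‖x‖) ^ n) ≤ C * (1 + ‖θ‖) ^ n := by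
  set A := ‖fderiv ℝ (logLap W) 0‖
  set B := |1 / a|
  set M : E k → Fin k → ℝ := fun θ i => ex (Skew.tilt W θ) (fun x => ⟪x, bv i⟫)
  set K := (2 * n.factorial : ℝ) * Real.exp (1 / (2 * a))
  refine ⟨((k : ℝ) + 1) ^ n * ((1 + k * (A + B)) ^ n + k * K), by positivity, fun θ => ?_⟩
  have hp := h.tilt θ
  have hM : ∀ i, |M θ i| ≤ (A + B) * (1 + ‖θ‖) := fun i => by
    simp only [M, ← h.fderiv_logLap]
    refine ((fderiv ℝ (logLap W) θ).le_opNorm _).trans ?_
    rw [norm_bv, mul_one]
    refine ((h.pinched_logLap hb).norm_fderiv_le θ).trans ?_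
    nlinarith [norm_nonneg θ, norm_nonneg (fderiv ℝ (logLap W) 0), abs_nonneg (1 / a)]
  have hpt : ∀ x : E k, (1 + ‖x‖) ^ n ≤ ((k : ℝ) + 1) ^ n
      * ((1 + k * ((A + B) * (1 + ‖θ‖))) ^ n + ∑ i, |⟪x, bv i⟫ - M θ i| ^ n) := by
    intro x
    set c : Option (Fin k) → ℝ :=
      fun o => o.elim (1 + k * ((A + B) * (1 + ‖θ‖))) fun i => |⟪x, bv i⟫ - M θ i| with hc
    have hc0 : ∀ o, 0 ≤ c o := fun o => by cases o <;> simp only [hc, Option.elim] <;> positivity
    have h1 : 1 + ‖x‖ ≤ ∑ o, c o := by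
      rw [Fintype.sum_option]
      simp only [hc, Option.elim]
      have e1 : ∑ i, |x i| ≤ ∑ i, (|⟪x, bv i⟫ - M θ i| + (A + B) * (1 + ‖θ‖)) :=
        Finset.sum_le_sum fun i _ => by
          rw [inner_bv]
          linarith [hM i, abs_sub_abs_le_abs_sub (x i) (M θ i)]
      rw [Finset.sum_add_distrib, Finset.sum_const, Finset.card_univ, Fintype.card_fin,
        nsmul_eq_mul] at e1
      linarith [norm_le_sum_abs x]
    obtain ⟨o, -, ho⟩ := Finset.exists_max_image Finset.univ c ⟨none, Finset.mem_univ _⟩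
    calc (1 + ‖x‖) ^ n ≤ (((k : ℝ) + 1) * c o) ^ n := by
          refine pow_le_pow_left₀ (by positivity) (h1.trans ?_) n
          refine (Finset.sum_le_card_nsmul _ _ _ fun j hj => ho j hj).trans_eq ?_
          simp
      _ ≤ _ := by
          rw [mul_pow]
          refine mul_le_mul_of_nonneg_left ?_ (by positivity)
          have := Finset.single_le_sum (f := fun o => c o ^ n)
            (fun j _ => pow_nonneg (hc0 j) n) (Finset.mem_univ o)
          rw [Fintype.sum_option] at this
          exact this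
  have t1 : Tame fun _ : E k => (1 + k * ((A + B) * (1 + ‖θ‖))) ^ n := Tame.const _
  have t2 : ∀ i ∈ Finset.univ, Tame fun x : E k => |⟪x, bv i⟫ - M θ i| ^ n := fun i _ =>
    (((tame_inner (bv i)).sub (Tame.const _)).norm).pow n
  refine (hp.ex_mono (((Tame.const 1).add tame_id.norm).pow n)
    ((t1.add (Tame.sum _ t2)).const_mul _) hpt).trans ?_
  rw [ex_const_mul, hp.ex_add t1 (Tame.sum _ t2), hp.ex_const, hp.ex_sum _ t2, mul_assoc]
  refine mul_le_mul_of_nonneg_left ?_ (by positivity)
  rw [add_mul ((1 + (k : ℝ) * (A + B)) ^ n)]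
  refine add_le_add (α := ℝ) ?_ ?_
  · rw [← mul_pow]
    refine pow_le_pow_left₀ (by positivity) ?_ n
    nlinarith [norm_nonneg θ]
  · have hK : ∀ i, ex (Skew.tilt W θ) (fun x => |⟪x, bv i⟫ - M θ i| ^ n) ≤ K := fun i => by
      simpa [M, K] using central_moment_le h hb θ (bv i) n one_pos
    refine (Finset.sum_le_sum fun i _ => hK i).trans ?_
    simp only [Finset.sum_const, Finset.card_univ, Fintype.card_fin, nsmul_eq_mul]
    exact le_mul_of_one_le_right (by positivity) (one_le_pow₀ (by linarith [norm_nonneg θ]))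

/-- Conditional expectations of tame joint functions are tame. -/
theorem tame_cond (h : Pinched W a b) (hb : 0 < b) (r : ℝ) {F : E k → E k → ℝ} (hF : Tame2 F) :
    Tame fun x => ex (Skew.tilt W (r • x)) (F x) := by
  obtain ⟨hc, C, n, hC0, hC⟩ := hF
  have hsec : ∀ x, Tame (F x) := fun x => Tame2.section_right ⟨hc, C, n, hC0, hC⟩ x
  have tn : Tame fun y : E k => (1 + ‖y‖) ^ n := ((Tame.const 1).add tame_id.norm).pow n
  have hcont : Continuous fun x => ∫ y, Real.exp (-Skew.tilt W (r • x) y) * F x y := by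
    refine continuous_iff_continuousAt.2 fun x₀ => ?_
    obtain ⟨D, hD⟩ := h.gauss_bound tn (|r| * (‖x₀‖ + 1))
    refine continuousAt_of_dominated
      (bound := fun y => C * (2 + ‖x₀‖) ^ n * (D * Real.exp (-(a / 4) * ‖y‖ ^ 2)))
      (Eventually.of_forall fun x => ((h.tilt _).integrable (hsec x)).aestronglyMeasurable) ?_
      (((integrable_gauss (by linarith [h.pos])).const_mul D).const_mul _)
      (Eventually.of_forall fun y => ?_)
    · filter_upwards [Metric.ball_mem_nhds x₀ one_pos] with x hx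
      refine Eventually.of_forall fun y => ?_
      have hx' : ‖x‖ ≤ ‖x₀‖ + 1 := by
        have := norm_le_norm_add_norm_sub' x x₀
        rw [Metric.mem_ball, dist_eq_norm] at hx
        linarith
      rw [norm_mul, Real.norm_of_nonneg (Real.exp_pos _).le, Real.norm_eq_abs]
      calc Real.exp (-Skew.tilt W (r • x) y) * |F x y|
          ≤ Real.exp (-W y + |r| * (‖x₀‖ + 1) * ‖y‖)
            * (C * (2 + ‖x₀‖) ^ n * (1 + ‖y‖) ^ n) := by
            refine mul_le_mul (Real.exp_le_exp.2 ?_) ((hC x y).trans ?_) (abs_nonneg _)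
              (Real.exp_pos _).le
            · have h1 := real_inner_le_norm (r • x) y
              rw [norm_smul, Real.norm_eq_abs] at h1
              have h2 := mul_le_mul_of_nonneg_right
                (mul_le_mul_of_nonneg_left hx' (abs_nonneg r)) (norm_nonneg y)
              simp only [Skew.tilt]
              linarith
            · rw [mul_pow, ← mul_assoc]
              exact mul_le_mul_of_nonneg_right (mul_le_mul_of_nonneg_left
                (pow_le_pow_left₀ (by positivity) (by linarith) n) hC0) (by positivity)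
        _ ≤ _ := by
            rw [mul_left_comm]
            refine mul_le_mul_of_nonneg_left ?_ (by positivity)
            have := hD y
            rwa [Real.norm_of_nonneg (pow_nonneg (by positivity) n)] at this
    · refine Continuous.continuousAt ?_
      refine (Real.continuous_exp.comp ?_).mul (hc.comp (continuous_id.prodMk continuous_const))
      simp only [Skew.tilt]
      fun_prop
  obtain ⟨K, hK0, hK⟩ := exists_moment_bound h hb n
  have hz : Continuous fun x => (Zc (Skew.tilt W (r • x)))⁻¹ :=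
    ((h.contDiff_zc 0).continuous.comp (continuous_const_smul r)).inv₀
      fun x => (h.tilt _).zc_pos.ne'
  refine ⟨hz.mul hcont, C * K * (1 + |r|) ^ n, n + n, fun x => ?_⟩
  have hp := h.tilt (r • x)
  rw [Real.norm_eq_abs]
  have habs : |ex (Skew.tilt W (r • x)) (F x)| ≤ ex (Skew.tilt W (r • x)) (fun y => |F x y|) := by
    rw [abs_le, ← ex_neg]
    exact ⟨hp.ex_mono (hsec x).norm.neg (hsec x) fun y => neg_abs_le _,
      hp.ex_mono (hsec x) (hsec x).norm fun y => le_abs_self _⟩
  refine habs.trans ((hp.ex_mono (hsec x).norm (tn.const_mul (C * (1 + ‖x‖) ^ n))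
    fun y => ?_).trans ?_)
  · refine (hC x y).trans_eq ?_
    rw [mul_pow]
    ring
  · rw [ex_const_mul]
    refine (mul_le_mul_of_nonneg_left (hK _) (by positivity)).trans ?_
    calc C * (1 + ‖x‖) ^ n * (K * (1 + ‖r • x‖) ^ n)
        ≤ C * (1 + ‖x‖) ^ n * (K * ((1 + |r|) * (1 + ‖x‖)) ^ n) := by
          gcongr
          rw [norm_smul, Real.norm_eq_abs]
          nlinarith [norm_nonneg x, abs_nonneg r]
      _ = _ := by rw [mul_pow, pow_add]; ring

end Vale.P254.Skew
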