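import Vale.Agent.P254.Skew.Facts

/-! # The inequality for the law of `y` given `x`, and the third moments -/

namespace Vale.P254.Skew

open MeasureTheory Filter Topology Matrix
open scoped RealInnerProductSpace

variable {k : ℕ} {V : E k → ℝ} {B : E k →L[ℝ] E k →L[ℝ] ℝ} {ε Λ s : ℝ}
variable {W : E k → ℝ} {a b : ℝ}

/-! ## Linear algebra of expectations -/

private theorem ex_lin3 (h : Pinched W a b) {f₁ f₂ f₃ : E k → ℝ} (h₁ : Tame f₁) (h₂ : Tame f₂)
    (h₃ : Tame f₃) (r₁ r₂ r₃ : ℝ) :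
    ex W (fun x => r₁ * f₁ x + r₂ * f₂ x + r₃ * f₃ x)
      = r₁ * ex W f₁ + r₂ * ex W f₂ + r₃ * ex W f₃ := by
  rw [h.ex_add ((h₁.const_mul r₁).add (h₂.const_mul r₂)) (h₃.const_mul r₃),
    h.ex_add (h₁.const_mul r₁) (h₂.const_mul r₂), ex_const_mul, ex_const_mul, ex_const_mul]

private theorem ex_lin (h : Pinched W a b) (v : Fin k → ℝ) {F : E k → Fin k → ℝ}
    (hF : ∀ i, Tame fun x => F x i) {f : E k → ℝ} (hf : Tame f) :
    ex W (fun x => (∑ i, v i * F x i) * f x) = ∑ i, v i * ex W (fun x => F x i * f x) := by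
  simp only [Finset.sum_mul, mul_assoc]
  rw [h.ex_sum _ fun i _ => ((hF i).mul hf).const_mul (v i)]
  simp only [ex_const_mul]

private theorem ex_bilin (h : Pinched W a b) (v w : Fin k → ℝ) {F F' : E k → Fin k → ℝ}
    (hF : ∀ i, Tame fun x => F x i) (hF' : ∀ i, Tame fun x => F' x i) (A : Mat k)
    (hA : ∀ i j, ex W (fun x => F x i * F' x j) = A i j) :
    ex W (fun x => (∑ i, v i * F x i) * ∑ j, w j * F' x j) = v ⬝ᵥ A *ᵥ w := by
  rw [ex_lin h v hF (Tame.sum _ fun j _ => (hF' j).const_mul (w j))]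
  refine Finset.sum_congr rfl fun i _ => ?_
  congr 1
  rw [ex_congr (g := fun x => (∑ j, w j * F' x j) * F x i) fun x => mul_comm _ _,
    ex_lin h w hF' (hF i)]
  refine Finset.sum_congr rfl fun j _ => ?_
  show _ = A i j * w j
  rw [← hA i j, mul_comm (w j)]
  congr 1
  exact ex_congr fun x => mul_comm _ _

private theorem sq_ex_mul_le (h : Pinched W a b) {f g : E k → ℝ} (hf : Tame f) (hg : Tame g) :
    ex W (fun x => f x * g x) ^ 2 ≤ ex W (fun x => f x ^ 2) * ex W fun x => g x ^ 2 := by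
  have key : ∀ t : ℝ, 0 ≤ ex W (fun x => f x ^ 2) * (t * t)
      + 2 * ex W (fun x => f x * g x) * t + ex W fun x => g x ^ 2 := fun t => by
    have := h.ex_nonneg fun x => sq_nonneg (t * f x + g x)
    rw [ex_congr (g := fun x => t * t * f x ^ 2 + 2 * t * (f x * g x) + 1 * g x ^ 2) fun x => by
      ring, ex_lin3 h (hf.pow 2) (hf.mul hg) (hg.pow 2)] at this
    linarith
  have := discrim_le_zero key
  simp only [discrim] at this
  linarith

/-- The derivative of the potential and one further derivative may be exchanged. -/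
private theorem ex_deriv_symm (h : Pinched W a b) {g : E k → ℝ} (hg : ContDiff ℝ 1 g)
    (hgt : Tame g) (hgd : ∀ w, Tame fun x => fderiv ℝ g x w) (v w : E k) :
    ex W (fun x => fderiv ℝ W x v * fderiv ℝ g x w)
      = ex W (fun x => fderiv ℝ W x w * fderiv ℝ g x v) := by
  have key : ∀ p q : E k, ex W (fun x => fderiv ℝ W x p * fderiv ℝ g x q)
      = ex W (fun x => fderiv ℝ W x p * fderiv ℝ W x q * g x)
        - ex W fun x => D2 W x q p * g x := by
    intro p q
    have hd : ∀ x, fderiv ℝ (fun z => fderiv ℝ W z p * g z) x q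
        = D2 W x q p * g x + fderiv ℝ W x p * fderiv ℝ g x q := fun x => by
      rw [fderiv_fun_mul ((h.contDiff_fderiv_apply p).differentiable one_ne_zero x)
        (hg.differentiable one_ne_zero x)]
      simp only [_root_.add_apply, _root_.smul_apply, smul_eq_mul, h.fderiv_fderiv_apply]
      ring
    have := h.ibp ((h.contDiff_fderiv_apply p).mul hg) ((h.tame_fderiv_apply p).mul hgt) q
      (by simp only [hd]; exact ((h.tame_D2 q p).mul hgt).add ((h.tame_fderiv_apply p).mul (hgd q)))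
    rw [ex_congr hd, h.ex_add ((h.tame_D2 q p).mul hgt) ((h.tame_fderiv_apply p).mul (hgd q))]
      at this
    rw [ex_congr (g := fun x => fderiv ℝ W x p * g x * fderiv ℝ W x q) fun x => mul_right_comm _ _ _]
    linarith
  rw [key, key, ex_congr (g := fun x => fderiv ℝ W x w * fderiv ℝ W x v * g x) fun x => by ring,
    ex_congr (f := fun x => D2 W x w v * g x) (g := fun x => D2 W x v w * g x) fun x => by
      rw [D2_symm h]]

/-! ## Contractions -/

/-- Contraction of the last index with a vector. -/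
private def ct (X : Ten k) (v : Fin k → ℝ) : Mat k :=
  Matrix.of fun i j => ∑ l, X i j l * v l

private theorem cPhi_decomp {ι : Type} [Fintype ι] (A A' H : Mat k) (X Y : Ten k)
    (u : ι → Fin k → ℝ) (hu : ∀ i j, H i j = ∑ m, u m i * u m j) :
    cPhi A A' H X Y = ∑ m, ((ct X (u m))ᵀ * A * ct Y (u m) * A'ᵀ).trace := by
  simp only [cPhi, hu, Matrix.trace, Matrix.diag, Matrix.mul_apply, Matrix.transpose_apply, ct,
    Matrix.of_apply, Finset.mul_sum, Finset.sum_mul]
  simp only [← Fintype.sum_prod_type']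
  exact Fintype.sum_equiv
    ⟨fun p => (p.2.2.2.2.2.2, p.2.1, p.2.2.2.2.1, p.2.2.2.1, p.2.2.2.2.2.1, p.1, p.2.2.1),
      fun q => (q.2.2.2.2.2.1, q.2.1, q.2.2.2.2.2.2, q.2.2.2.1, q.2.2.1, q.2.2.2.2.1, q.1),
      fun _ => rfl, fun _ => rfl⟩ _ _ fun p => by
    simp only [Equiv.coe_fn_mk]
    ring

namespace Ctx

variable (c : Ctx V B ε Λ s)

/-- The quadratic term. -/
noncomputable def QY (C : Ten k) (x y : E k) : ℝ :=
  cPhi (sq1 (c.G x *ᵥ c.η x y)) (c.h y) (c.H x) (cX (c.H x) C) (cX (c.H x) C)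

/-- The mean of `∇U ⊗ h` given `x`. -/
noncomputable def kbar (x : E k) : Ten k :=
  fun a i j => c.Ex x fun y => c.dU x y a * c.h y i j

/-- The mean of `∇ψ ⊗ h`. -/
noncomputable def K3 : Ten k :=
  fun a i j => ex c.soft.ψ fun y => fderiv ℝ c.soft.ψ y (bv a) * c.h y i j

/-! ### Calculus given `x` -/

private theorem hasFDerivAt_η (x y : E k) (i : Fin k) :
    HasFDerivAt (fun y => c.η x y i) (innerSL ℝ (bv i)) y := by
  have := ((innerSL ℝ (bv i : E k)).hasFDerivAt (x := y)).sub_const (c.Ex x fun y => y i)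
  simpa [Ctx.η] using this

private theorem contDiff_η (x : E k) (i : Fin k) : ContDiff ℝ 1 fun y => c.η x y i := by
  have := ((innerSL ℝ (bv i : E k)).contDiff (n := 1)).sub (contDiff_const (c := c.Ex x fun y => y i))
  simpa [Ctx.η] using this

private theorem contDiff_dU (x : E k) (i : Fin k) : ContDiff ℝ 1 fun y => c.dU x y i :=
  (c.pinU' x).contDiff_fderiv_apply (bv i)

private theorem fderiv_dU (x y : E k) (i j : Fin k) :
    fderiv ℝ (fun y => c.dU x y i) y (bv j) = (1 + s) / s * c.h y j i :=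
  ((c.pinU' x).fderiv_fderiv_apply y (bv j) (bv i)).trans (c.D2_U x y j i)

private theorem tame_dU (x : E k) (i : Fin k) : Tame fun y => c.dU x y i :=
  (c.tame2_dU i).section_right x

private theorem tame_η (x : E k) (i : Fin k) : Tame fun y => c.η x y i :=
  (c.tame2_η i).section_right x

/-- A coordinate of `Mᵀ η`. -/
private noncomputable def Ny (x : E k) (M : Mat k) (y : E k) (b : Fin k) : ℝ :=
  ∑ a, M a b * c.η x y a

/-- The centred test `ηᵀ M ∇U - tr M`. -/
private noncomputable def Zy (x : E k) (M : Mat k) (y : E k) : ℝ :=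
  ∑ b, c.Ny x M y b * c.dU x y b - M.trace

private theorem fderiv_Ny (x y : E k) (M : Mat k) (b d : Fin k) :
    fderiv ℝ (fun y => c.Ny x M y b) y (bv d) = M d b := by
  simp only [Ny]
  rw [(HasFDerivAt.fun_sum fun a _ => (c.hasFDerivAt_η x y a).const_mul (M a b)).fderiv]
  simp [bv, EuclideanSpace.inner_single_left]

private theorem contDiff_Ny (x : E k) (M : Mat k) (b : Fin k) :
    ContDiff ℝ 1 fun y => c.Ny x M y b :=
  ContDiff.sum fun a _ => contDiff_const.mul (c.contDiff_η x a)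

private theorem tame_Ny (x : E k) (M : Mat k) (b : Fin k) : Tame fun y => c.Ny x M y b :=
  Tame.sum _ fun a _ => (c.tame_η x a).const_mul _

private theorem contDiff_Zy (x : E k) (M : Mat k) : ContDiff ℝ 1 (c.Zy x M) :=
  (ContDiff.sum fun b _ => (c.contDiff_Ny x M b).mul (c.contDiff_dU x b)).sub contDiff_const

private theorem tame_Zy (x : E k) (M : Mat k) : Tame (c.Zy x M) :=
  (Tame.sum _ fun b _ => (c.tame_Ny x M b).mul (c.tame_dU x b)).sub (Tame.const _)

private theorem fderiv_Zy (x y : E k) (M : Mat k) (d : Fin k) :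
    fderiv ℝ (c.Zy x M) y (bv d)
      = ∑ b, (M d b * c.dU x y b + c.Ny x M y b * ((1 + s) / s * c.h y d b)) := by
  have hd : ∀ b, DifferentiableAt ℝ (fun y => c.Ny x M y b * c.dU x y b) y := fun b =>
    (((c.contDiff_Ny x M b).mul (c.contDiff_dU x b)).differentiable one_ne_zero) y
  rw [show c.Zy x M = fun y => (∑ b, c.Ny x M y b * c.dU x y b) - M.trace from rfl,
    fderiv_sub_const, fderiv_fun_sum fun b _ => hd b]
  simp only [FunLike.coe_sum, Finset.sum_apply]
  refine Finset.sum_congr rfl fun b _ => ?_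
  rw [fderiv_fun_mul ((c.contDiff_Ny x M b).differentiable one_ne_zero y)
    ((c.contDiff_dU x b).differentiable one_ne_zero y)]
  simp only [_root_.add_apply, _root_.smul_apply, smul_eq_mul, fderiv_Ny, fderiv_dU]
  ring

/-- Testing against `Z` differentiates. -/
private theorem Ex_mul_Zy (x : E k) (M : Mat k) {f : E k → ℝ} (hf : ContDiff ℝ 1 f) (hft : Tame f)
    (hfd : ∀ b, Tame fun y => fderiv ℝ f y (bv b)) :
    c.Ex x (fun y => f y * c.Zy x M y)
      = ∑ b, c.Ex x (fun y => c.Ny x M y b * fderiv ℝ f y (bv b)) := by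
  have hp := c.pinU' x
  have hterm : ∀ b, c.Ex x (fun y => f y * c.Ny x M y b * c.dU x y b)
      = c.Ex x (fun y => c.Ny x M y b * fderiv ℝ f y (bv b)) + M b b * c.Ex x f := fun b => by
    have hd : ∀ y, fderiv ℝ (fun y => f y * c.Ny x M y b) y (bv b)
        = c.Ny x M y b * fderiv ℝ f y (bv b) + M b b * f y := fun y => by
      rw [fderiv_fun_mul (hf.differentiable one_ne_zero y)
        ((c.contDiff_Ny x M b).differentiable one_ne_zero y)]
      simp only [_root_.add_apply, _root_.smul_apply, smul_eq_mul, fderiv_Ny]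
      ring
    rw [c.ibp_U x (hf.mul (c.contDiff_Ny x M b)) (hft.mul (c.tame_Ny x M b)) b
      (by simp only [hd]; exact ((c.tame_Ny x M b).mul (hfd b)).add (hft.const_mul _))]
    simp only [Ctx.Ex]
    rw [ex_congr hd, hp.ex_add ((c.tame_Ny x M b).mul (hfd b)) (hft.const_mul _), ex_const_mul]
  have e : ∀ y, f y * c.Zy x M y
      = ∑ b, f y * c.Ny x M y b * c.dU x y b - M.trace * f y := fun y => by
    simp only [Zy, mul_sub, Finset.mul_sum, mul_assoc, mul_comm (f y) M.trace]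
  have ht : ∀ b, Tame fun y => f y * c.Ny x M y b * c.dU x y b := fun b =>
    (hft.mul (c.tame_Ny x M b)).mul (c.tame_dU x b)
  simp only [Ctx.Ex] at hterm ⊢
  rw [ex_congr e, hp.ex_sub (Tame.sum _ fun b _ => ht b) (hft.const_mul _),
    hp.ex_sum _ fun b _ => ht b, ex_const_mul]
  simp only [hterm, Finset.sum_add_distrib, ← Finset.sum_mul]
  simp [Matrix.trace]

private theorem Ex_Ny_mul (x : E k) (M : Mat k) (b : Fin k) {f : E k → ℝ} (hf : Tame f) :
    c.Ex x (fun y => c.Ny x M y b * f y) = ∑ a, M a b * c.Ex x (fun y => c.η x y a * f y) :=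
  ex_lin (c.pinU' x) (fun a => M a b) (c.tame_η x) hf

private theorem Ex_η_Zy (x : E k) (M : Mat k) (p : Fin k) :
    c.Ex x (fun y => c.η x y p * c.Zy x M y) = 0 := by
  have hd : ∀ b y, fderiv ℝ (fun y => c.η x y p) y (bv b) = (bv p : E k) b := fun b y => by
    rw [(c.hasFDerivAt_η x y p).fderiv]
    simp
  rw [c.Ex_mul_Zy x M (c.contDiff_η x p) (c.tame_η x p)
    (fun b => by simp only [hd]; exact Tame.const _)]
  simp only [hd]
  refine Finset.sum_eq_zero fun b _ => ?_
  rw [c.Ex_Ny_mul x M b (Tame.const _)]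
  refine Finset.sum_eq_zero fun a _ => ?_
  rw [Ctx.Ex, ex_mul_const, ← Ctx.Ex, c.Ex_η, zero_mul, mul_zero]

private theorem Ex_dU_Zy (x : E k) (M : Mat k) (l : Fin k) :
    c.Ex x (fun y => c.dU x y l * c.Zy x M y)
      = (1 + s) * ∑ a, ∑ b, M a b * c.dH x a b l := by
  rw [c.Ex_mul_Zy x M (c.contDiff_dU x l) (c.tame_dU x l)
    (fun b => by simp only [fderiv_dU]; exact (c.tame_h b l).const_mul _)]
  simp only [fderiv_dU, c.Ex_Ny_mul x M _ ((c.tame_h _ _).const_mul _)]
  rw [Finset.sum_comm, Finset.mul_sum]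
  refine Finset.sum_congr rfl fun a _ => ?_
  rw [Finset.mul_sum]
  refine Finset.sum_congr rfl fun b _ => ?_
  have e : c.Ex x (fun y => c.η x y a * ((1 + s) / s * c.h y b l))
      = (1 + s) / s * (s * c.dH x a b l) := by
    rw [← c.Ex_η_h, Ctx.Ex, Ctx.Ex, ← ex_const_mul]
    exact ex_congr fun y => by ring
  rw [e]
  field_simp [c.hs.ne']

private theorem Ex_Zy_Zy (x : E k) (M : Mat k) :
    c.Ex x (fun y => c.Zy x M y * c.Zy x M y) = (M * M).trace
      + (1 + s) / s * c.Ex x (fun y => (Mᵀ *ᵥ c.η x y) ⬝ᵥ c.h y *ᵥ (Mᵀ *ᵥ c.η x y)) := by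
  have hp := c.pinU' x
  have tA : ∀ d b, Tame fun y => M d b * c.dU x y b := fun d b => (c.tame_dU x b).const_mul _
  have tB : ∀ d b, Tame fun y => c.Ny x M y b * ((1 + s) / s * c.h y d b) := fun d b =>
    (c.tame_Ny x M b).mul ((c.tame_h d b).const_mul _)
  have td : ∀ d, Tame fun y => fderiv ℝ (c.Zy x M) y (bv d) := fun d => by
    simp only [fderiv_Zy]
    exact Tame.sum _ fun b _ => (tA d b).add (tB d b)
  rw [c.Ex_mul_Zy x M (c.contDiff_Zy x M) (c.tame_Zy x M) td]
  have hq : ∀ y, (Mᵀ *ᵥ c.η x y) ⬝ᵥ c.h y *ᵥ (Mᵀ *ᵥ c.η x y)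
      = ∑ d, c.Ny x M y d * ∑ b, c.h y d b * c.Ny x M y b := fun y => rfl
  have e : ∀ d y, c.Ny x M y d * fderiv ℝ (c.Zy x M) y (bv d)
      = ∑ b, M d b * (c.Ny x M y d * c.dU x y b)
        + (1 + s) / s * (c.Ny x M y d * ∑ b, c.h y d b * c.Ny x M y b) := fun d y => by
    rw [fderiv_Zy, Finset.sum_add_distrib, mul_add, Finset.mul_sum, Finset.mul_sum,
      Finset.mul_sum, Finset.mul_sum]
    congr 1 <;> exact Finset.sum_congr rfl fun b _ => by ring
  have tC : ∀ d b, Tame fun y => M d b * (c.Ny x M y d * c.dU x y b) := fun d b =>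
    ((c.tame_Ny x M d).mul (c.tame_dU x b)).const_mul _
  have tD : ∀ d, Tame fun y => c.Ny x M y d * ∑ b, c.h y d b * c.Ny x M y b := fun d =>
    (c.tame_Ny x M d).mul (Tame.sum _ fun b _ => (c.tame_h d b).mul (c.tame_Ny x M b))
  have hN : ∀ d b, c.Ex x (fun y => c.Ny x M y d * c.dU x y b) = M b d := fun d b => by
    rw [c.Ex_Ny_mul x M d (c.tame_dU x b)]
    simp [c.Ex_η_dU]
  simp only [Ctx.Ex] at hN ⊢
  simp only [e]
  rw [Finset.sum_congr rfl fun d _ =>
    hp.ex_add (Tame.sum _ fun b _ => tC d b) ((tD d).const_mul _), Finset.sum_add_distrib]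
  simp only [ex_const_mul, ← Finset.mul_sum]
  rw [ex_congr hq, hp.ex_sum _ fun d _ => tD d]
  congr 1
  simp only [Matrix.trace, Matrix.diag, Matrix.mul_apply]
  refine Finset.sum_congr rfl fun d _ => ?_
  rw [hp.ex_sum _ fun b _ => tC d b]
  simp only [ex_const_mul, hN]

private theorem Ex_sq_r (x : E k) (u : Fin k → ℝ) :
    1 * c.Ex x (fun y => (∑ i, (c.G x *ᵥ u) i * c.η x y i) * ∑ i, (c.G x *ᵥ u) i * c.η x y i)
      + -2 * s * c.Ex x (fun y => (∑ i, (c.G x *ᵥ u) i * c.η x y i) * ∑ i, u i * c.dU x y i)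
      + s ^ 2 * c.Ex x (fun y => (∑ i, u i * c.dU x y i) * ∑ i, u i * c.dU x y i)
      = s * (u ⬝ᵥ c.del x *ᵥ u) := by
  have hp := c.pinU' x
  simp only [Ctx.Ex]
  rw [ex_bilin hp _ _ (c.tame_η x) (c.tame_η x) (s • c.g x) (fun i j => c.Ex_ηη x i j),
    ex_bilin hp _ _ (c.tame_η x) (c.tame_dU x) 1 (fun i j => by
      rw [Matrix.one_apply]; exact c.Ex_η_dU x i j),
    ex_bilin hp _ _ (c.tame_dU x) (c.tame_dU x) (((1 + s) / s) • c.H x)
      (fun i j => c.Ex_dU_dU x i j)]
  have hg : c.g x *ᵥ (c.G x *ᵥ u) = u := by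
    rw [Matrix.mulVec_mulVec, Ctx.G, (c.sand_g x).mul_inv, Matrix.one_mulVec]
  simp only [Matrix.smul_mulVec, dotProduct_smul, smul_eq_mul, Matrix.one_mulVec, hg, Ctx.del,
    Matrix.sub_mulVec, dotProduct_sub, dotProduct_comm (c.G x *ᵥ u) u]
  field_simp [c.hs.ne']
  ring

/-- Nonnegativity of `E (r + s Z)²` with `r = η·(G u) - s ∇U·u`, `Z = ηᵀ M ∇U - tr M`. -/
theorem y_point (x : E k) (u : Fin k → ℝ) (M : Mat k) :
    s * (2 * (1 + s) * (∑ a, ∑ b, ∑ l, M a b * c.dH x a b l * u l) - (M * M).trace)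
      - (1 + s) * c.Ex x (fun y => (Mᵀ *ᵥ c.η x y) ⬝ᵥ c.h y *ᵥ (Mᵀ *ᵥ c.η x y))
      ≤ u ⬝ᵥ c.del x *ᵥ u := by
  have hp := c.pinU' x
  set w := c.G x *ᵥ u
  set L : E k → ℝ := fun y => ∑ i, w i * c.η x y i
  set D : E k → ℝ := fun y => ∑ i, u i * c.dU x y i
  set Z : E k → ℝ := c.Zy x M
  have tL : Tame L := Tame.sum _ fun i _ => (c.tame_η x i).const_mul _
  have tD : Tame D := Tame.sum _ fun i _ => (c.tame_dU x i).const_mul _
  have tZ : Tame Z := c.tame_Zy x M
  have hLZ : c.Ex x (fun y => L y * Z y) = 0 := by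
    refine (ex_lin hp w (c.tame_η x) tZ).trans (Finset.sum_eq_zero fun p _ => ?_)
    exact mul_eq_zero_of_right _ (c.Ex_η_Zy x M p)
  have hDZ : c.Ex x (fun y => D y * Z y)
      = (1 + s) * ∑ a, ∑ b, ∑ l, M a b * c.dH x a b l * u l := by
    refine (ex_lin hp u (c.tame_dU x) tZ).trans
      ((Finset.sum_congr rfl fun l _ => congrArg (u l * ·) (c.Ex_dU_Zy x M l)).trans ?_)
    simp only [Finset.mul_sum]
    rw [Finset.sum_comm]
    refine Finset.sum_congr rfl fun a _ => ?_
    rw [Finset.sum_comm]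
    exact Finset.sum_congr rfl fun b _ => Finset.sum_congr rfl fun l _ => by ring
  have hr := c.Ex_sq_r x u
  have hZ := c.Ex_Zy_Zy x M
  have key : 0 ≤ c.Ex x fun y => (L y - s * D y + s * Z y) ^ 2 :=
    hp.ex_nonneg fun y => sq_nonneg _
  simp only [Ctx.Ex] at key hr hZ hLZ hDZ ⊢
  rw [ex_congr (g := fun y => (1 * (L y * L y) + -2 * s * (L y * D y) + s ^ 2 * (D y * D y))
      + (2 * s * (L y * Z y) + -2 * s ^ 2 * (D y * Z y) + s ^ 2 * (Z y * Z y))) fun y => by ring,
    hp.ex_add ((((tL.mul tL).const_mul _).add ((tL.mul tD).const_mul _)).add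
      ((tD.mul tD).const_mul _)) ((((tL.mul tZ).const_mul _).add ((tD.mul tZ).const_mul _)).add
      ((tZ.mul tZ).const_mul _)), ex_lin3 hp (tL.mul tL) (tL.mul tD) (tD.mul tD),
    ex_lin3 hp (tL.mul tZ) (tD.mul tZ) (tZ.mul tZ), hLZ, hDZ, hr, hZ] at key
  refine le_of_mul_le_mul_left ?_ c.hs
  field_simp [c.hs.ne'] at key ⊢
  linarith

theorem psd_del (x : E k) : Psd (c.del x) := by
  refine ⟨?_, fun u => ?_⟩
  · simp [Ctx.del, (c.sand_H x).symm, (c.sand_G x).symm]
  · simpa [Ctx.Ex, (c.pinU' x).ex_const] using c.y_point x u 0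

theorem tame_del (i j : Fin k) : Tame fun x => c.del x i j := by
  simpa [Ctx.del] using ((c.tame_H i j).const_mul (1 + s)).sub (c.tame_G i j)

theorem tame2_QY (C : Ten k) : Tame2 (c.QY C) := by
  have hv : ∀ a, Tame2 fun x y => (c.G x *ᵥ c.η x y) a := fun a => by
    simp only [Matrix.mulVec, dotProduct]
    exact Tame2.sum _ fun b _ => (c.tame_G a b).tame2_left.mul (c.tame2_η b)
  have hX : ∀ i j l, Tame2 fun x (_ : E k) => cX (c.H x) C i j l := fun i j l =>
    (c.tame_cX_H C i j l).tame2_left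
  show Tame2 fun x y => c.QY C x y
  simp only [QY, cPhi, sq1, Matrix.of_apply]
  exact Tame2.sum _ fun a _ => Tame2.sum _ fun b _ => Tame2.sum _ fun l _ => Tame2.sum _ fun a' _ =>
    Tame2.sum _ fun b' _ => Tame2.sum _ fun l' _ =>
      ((((hX a b l).mul ((hv a).mul (hv a'))).mul (c.tame_h b b').tame2_right).mul
        (c.tame_H l l').tame2_left).mul (hX a' b' l')

/-- Sum of `y_point` over `H = ∑ u uᵀ` with `M a b = (1/2) * ∑ p, G a p * (∑ l, X p b l * u l)`. -/
theorem y_sum (x : E k) {C : Ten k} (hC : Symm3 C) :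
    s * (1 + s) * cPhi (c.G x) 1 (c.H x) (cX (c.H x) C) (c.dH x)
      - s / 4 * cPhi (c.G x) (c.G x) (c.H x) (cX (c.H x) C) (cX (c.H x) C)
      - (1 + s) / 4 * c.Ex x (c.QY C x) ≤ (c.H x * c.del x).trace := by
  obtain ⟨u, hu⟩ := (c.sand_H x).psd.exists_decomp
  set v : Fin k → Fin k → ℝ := fun m i => u m i with hv
  have hHv : ∀ i j, c.H x i j = ∑ m, v m i * v m j := hu
  set X := cX (c.H x) C
  have hX : Symm3 X := (c.sand_H x).symm3_cX hC
  have hP : ∀ m, (ct X (v m))ᵀ = ct X (v m) := fun m => by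
    ext i j
    simp only [ct, Matrix.transpose_apply, Matrix.of_apply]
    exact Finset.sum_congr rfl fun l _ => by rw [(hX j i l).1]
  set G := c.G x
  have hG : Gᵀ = G := (c.sand_G x).symm
  set M : Fin k → Mat k := fun m => (1 / 2 : ℝ) • (G * ct X (v m)) with hM
  have h1 : cPhi G 1 (c.H x) X (c.dH x)
      = ∑ m, 2 * ∑ a, ∑ b, ∑ l, M m a b * c.dH x a b l * v m l := by
    rw [cPhi_decomp _ _ _ _ _ v hHv]
    refine Finset.sum_congr rfl fun m _ => ?_
    have e : (ct X (v m))ᵀ * G = (2 : ℝ) • (M m)ᵀ := by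
      simp [hM, Matrix.transpose_smul, Matrix.transpose_mul, hG, smul_smul]
    rw [Matrix.transpose_one, Matrix.mul_one, e, Matrix.smul_mul, Matrix.trace_smul, smul_eq_mul]
    congr 1
    simp only [Matrix.trace, Matrix.diag, Matrix.mul_apply, Matrix.transpose_apply, ct,
      Matrix.of_apply, Finset.mul_sum]
    rw [Finset.sum_comm]
    exact Finset.sum_congr rfl fun a _ => Finset.sum_congr rfl fun b _ =>
      Finset.sum_congr rfl fun l _ => by ring
  have h2 : cPhi G G (c.H x) X X = ∑ m, 4 * (M m * M m).trace := by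
    rw [cPhi_decomp _ _ _ _ _ v hHv]
    refine Finset.sum_congr rfl fun m _ => ?_
    simp only [hM, Matrix.smul_mul, Matrix.mul_smul, smul_smul, Matrix.trace_smul, smul_eq_mul,
      hG, hP]
    rw [Matrix.trace_mul_comm (ct X (v m) * G * ct X (v m)) G]
    simp only [← Matrix.mul_assoc]
    ring
  have h3 : c.Ex x (c.QY C x)
      = ∑ m, 4 * c.Ex x (fun y => ((M m)ᵀ *ᵥ c.η x y) ⬝ᵥ c.h y *ᵥ ((M m)ᵀ *ᵥ c.η x y)) := by
    have hq : ∀ y, c.QY C x y
        = ∑ m, 4 * (((M m)ᵀ *ᵥ c.η x y) ⬝ᵥ c.h y *ᵥ ((M m)ᵀ *ᵥ c.η x y)) := fun y => by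
      rw [QY, cPhi_decomp _ _ _ _ _ v hHv]
      refine Finset.sum_congr rfl fun m _ => ?_
      have e : (M m)ᵀ *ᵥ c.η x y = (1 / 2 : ℝ) • ((ct X (v m))ᵀ *ᵥ (G *ᵥ c.η x y)) := by
        simp [hM, Matrix.transpose_smul, Matrix.transpose_mul, hG, Matrix.smul_mulVec,
          Matrix.mulVec_mulVec]
      rw [show sq1 (G *ᵥ c.η x y) = vecMulVec (G *ᵥ c.η x y) (G *ᵥ c.η x y) from rfl,
        Matrix.mul_vecMulVec, Matrix.vecMulVec_mul, Matrix.vecMulVec_mul, Matrix.trace_vecMulVec,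
        (c.sand_h y).symm, e, ← Matrix.mulVec_transpose (ct X (v m)), dotProduct_comm,
        ← dotProduct_mulVec]
      simp only [Matrix.mulVec_smul, dotProduct_smul, smul_dotProduct, smul_eq_mul]
      ring
    have tN : ∀ m a, Tame fun y => ((M m)ᵀ *ᵥ c.η x y) a := fun m a => by
      simp only [Matrix.mulVec, dotProduct]
      exact Tame.sum _ fun b _ => (c.tame_η x b).const_mul _
    have tq : ∀ m, Tame fun y => ((M m)ᵀ *ᵥ c.η x y) ⬝ᵥ c.h y *ᵥ ((M m)ᵀ *ᵥ c.η x y) :=
      fun m => by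
      have tq' : ∀ a, Tame fun y => (c.h y *ᵥ ((M m)ᵀ *ᵥ c.η x y)) a := fun a => by
        rw [show (fun y => (c.h y *ᵥ ((M m)ᵀ *ᵥ c.η x y)) a)
          = fun y => ∑ b, c.h y a b * ((M m)ᵀ *ᵥ c.η x y) b from rfl]
        exact Tame.sum _ fun b _ => (c.tame_h a b).mul (tN m b)
      exact Tame.sum _ fun a _ => (tN m a).mul (tq' a)
    simp only [Ctx.Ex]
    rw [ex_congr hq, (c.pinU' x).ex_sum _ fun m _ => (tq m).const_mul 4]
    simp only [ex_const_mul]
  have h4 : (c.H x * c.del x).trace = ∑ m, v m ⬝ᵥ c.del x *ᵥ v m := by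
    simp only [Matrix.trace, Matrix.diag, Matrix.mul_apply, dotProduct, Matrix.mulVec, hHv,
      Finset.sum_mul, Finset.mul_sum]
    rw [Finset.sum_congr rfl fun i _ => Finset.sum_comm, Finset.sum_comm]
    refine Finset.sum_congr rfl fun m _ => ?_
    rw [Finset.sum_comm]
    exact Finset.sum_congr rfl fun a _ => Finset.sum_congr rfl fun b _ => by ring
  rw [h1, h2, h3, h4, Finset.mul_sum, Finset.mul_sum, Finset.mul_sum, ← Finset.sum_sub_distrib,
    ← Finset.sum_sub_distrib]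
  exact Finset.sum_le_sum fun m _ => by linarith [c.y_point x (v m) (M m)]

/-! ### The third derivative -/

theorem symm3_kbar (x : E k) : Symm3 (c.kbar x) := by
  have hp := c.pinU' x
  have hψ := c.soft.pinψ
  have key : ∀ a i j, c.kbar x a i j = c.kbar x i a j := fun a i j => by
    have := ex_deriv_symm hp (hψ.contDiff_fderiv_apply (bv j)) (hψ.tame_fderiv_apply (bv j))
      (fun w => by simp only [hψ.fderiv_fderiv_apply]; exact hψ.tame_D2 w (bv j)) (bv a) (bv i)
    simp only [hψ.fderiv_fderiv_apply] at this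
    exact this
  refine fun a i j => ⟨key a i j, ex_congr fun y => ?_⟩
  show _ * c.h y i j = _ * c.h y j i
  rw [← Matrix.transpose_apply (c.h y) i j, (c.sand_h y).symm]

theorem symm3_K3 : Symm3 c.K3 := by
  have hψ := c.soft.pinψ
  have key : ∀ a i j, c.K3 a i j = c.K3 i a j := fun a i j => by
    have := ex_deriv_symm hψ (hψ.contDiff_fderiv_apply (bv j)) (hψ.tame_fderiv_apply (bv j))
      (fun w => by simp only [hψ.fderiv_fderiv_apply]; exact hψ.tame_D2 w (bv j)) (bv a) (bv i)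
    simp only [hψ.fderiv_fderiv_apply] at this
    exact this
  refine fun a i j => ⟨key a i j, ex_congr fun y => ?_⟩
  show _ * c.h y i j = _ * c.h y j i
  rw [← Matrix.transpose_apply (c.h y) i j, (c.sand_h y).symm]

theorem tame_kbar (a i j : Fin k) : Tame fun x => c.kbar x a i j :=
  c.tame_Ex ((c.tame2_dU a).mul (c.tame_h i j).tame2_right)

private theorem fderiv_ψ_coord (y : E k) (i : Fin k) :
    fderiv ℝ c.soft.ψ y (bv i) = c.Ey y fun x => x i := by
  rw [c.fderiv_ψ]
  simp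

theorem mean_kbar (a i j : Fin k) : ex V (fun x => c.kbar x a i j) = c.K3 a i j := by
  refine (c.EE_Ey ((c.tame2_dU a).mul (c.tame_h i j).tame2_right)).trans
    (ex_congr fun y => ?_)
  have hdU : ∀ x, c.dU x y a = (1 + s) / s * fderiv ℝ c.soft.ψ y (bv a) + -s⁻¹ * x a := fun x => by
    have : fderiv ℝ c.U0 y = ((1 + s) / s) • fderiv ℝ c.soft.ψ y :=
      fderiv_const_mul (c.soft.pinψ.differentiable y) _
    simp [Ctx.dU, fderiv_tilt c.pinU, this]
    ring
  have hp := c.pinW' y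
  simp only [Ctx.Ey, hdU, ex_mul_const]
  rw [hp.ex_add (Tame.const _) ((tame_coord a).const_mul _), hp.ex_const, ex_const_mul,
    ← Ctx.Ey, ← c.fderiv_ψ_coord]
  field_simp [c.hs.ne']
  ring

/-- `dH = g kbar` up to `r = η - s g ∇U`, whose second moment is `s g del g`. -/
theorem sq_rem_le (x : E k) (a i j : Fin k) :
    s * (c.dH x a i j - ∑ d, c.g x a d * c.kbar x d i j) ^ 2
      ≤ k * Λ ^ 2 * (c.del x).trace * c.vh x := by
  have hp := c.pinU' x
  have hs := c.hs
  set u : Fin k → ℝ := fun d => c.g x a d with hu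
  set R : E k → ℝ := fun y => c.η x y a - s * ∑ d, u d * c.dU x y d
  set F : E k → ℝ := fun y => c.h y i j - c.H x i j
  have tR : Tame R := (c.tame_η x a).sub ((Tame.sum _ fun d _ =>
    (c.tame_dU x d).const_mul (u d)).const_mul s)
  have tF : Tame F := (c.tame_h i j).sub (Tame.const _)
  have hRR : c.Ex x (fun y => R y ^ 2) = s * (u ⬝ᵥ c.del x *ᵥ u) := by
    have hw : ∀ p, (c.G x *ᵥ u) p = if p = a then 1 else 0 := fun p => by
      have : c.G x *ᵥ u = (c.G x * (c.g x)ᵀ) *ᵥ fun q => if q = a then 1 else 0 := by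
        rw [← Matrix.mulVec_mulVec]
        congr 1
        ext d
        simp [hu, Matrix.mulVec, dotProduct]
      rw [this, (c.sand_g x).symm, Ctx.G, (c.sand_g x).inv_mul, Matrix.one_mulVec]
    have hr := c.Ex_sq_r x u
    simp only [hw, ite_mul, one_mul, zero_mul, Finset.sum_ite_eq', Finset.mem_univ, if_true] at hr
    simp only [Ctx.Ex] at hr ⊢
    rw [← hr, ← ex_const_mul, ← ex_const_mul]
    have t1 := c.tame_η x a
    have t2 : Tame fun y => ∑ d, u d * c.dU x y d :=
      Tame.sum _ fun d _ => (c.tame_dU x d).const_mul (u d)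
    rw [← hp.ex_add (t1.mul t1) ((t1.mul t2).const_mul _),
      ← hp.ex_add ((t1.mul t1).add ((t1.mul t2).const_mul _)) ((t2.mul t2).const_mul _)]
    exact ex_congr fun y => by simp only [R]; ring
  have hRF : c.Ex x (fun y => R y * F y)
      = s * (c.dH x a i j - ∑ d, u d * c.kbar x d i j) := by
    have e1 : c.Ex x (fun y => c.η x y a * F y) = s * c.dH x a i j := by
      simp only [Ctx.Ex, F, mul_sub]
      rw [hp.ex_sub ((c.tame_η x a).mul (c.tame_h i j)) ((c.tame_η x a).mul (Tame.const _)),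
        ex_mul_const, ← Ctx.Ex, ← Ctx.Ex, c.Ex_η_h, c.Ex_η, zero_mul, sub_zero]
    have e2 : ∀ d, c.Ex x (fun y => c.dU x y d * F y) = c.kbar x d i j := fun d => by
      simp only [kbar, Ctx.Ex, F, mul_sub]
      rw [hp.ex_sub ((c.tame_dU x d).mul (c.tame_h i j)) ((c.tame_dU x d).mul (Tame.const _)),
        ex_mul_const, ← Ctx.Ex, ← Ctx.Ex, c.Ex_dU, zero_mul, sub_zero]
    have e3 : c.Ex x (fun y => (∑ d, u d * c.dU x y d) * F y) = ∑ d, u d * c.kbar x d i j :=
      (ex_lin hp u (c.tame_dU x) tF).trans (Finset.sum_congr rfl fun d _ => by rw [← e2 d]; rfl)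
    simp only [Ctx.Ex] at e1 e3 ⊢
    simp only [R, sub_mul, mul_assoc]
    rw [hp.ex_sub ((c.tame_η x a).mul tF) (((Tame.sum _ fun d _ =>
      (c.tame_dU x d).const_mul (u d)).mul tF).const_mul s), ex_const_mul, e1, e3, mul_sub]
  have hFF : c.Ex x (fun y => F y ^ 2) ≤ c.vh x := by
    have h0 : ∀ p q, 0 ≤ c.Ex x fun y => (c.h y p q - c.H x p q) ^ 2 := fun p q =>
      hp.ex_nonneg fun y => sq_nonneg _
    exact (Finset.single_le_sum (fun q _ => h0 i q) (Finset.mem_univ j)).trans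
      (Finset.single_le_sum (f := fun p => ∑ q, c.Ex x fun y => (c.h y p q - c.H x p q) ^ 2)
        (fun p _ => Finset.sum_nonneg fun q _ => h0 p q) (Finset.mem_univ i))
  have huu : ∑ d, u d ^ 2 ≤ k * Λ ^ 2 := by
    refine (Finset.sum_le_card_nsmul _ _ (Λ ^ 2) fun d _ => ?_).trans_eq (by simp)
    exact sq_le_sq' (neg_le_of_abs_le ((c.sand_g x).abs_entry a d))
      (le_of_abs_le ((c.sand_g x).abs_entry a d))
  have hdel : u ⬝ᵥ c.del x *ᵥ u ≤ k * Λ ^ 2 * (c.del x).trace := by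
    obtain ⟨w, hw⟩ := (c.psd_del x).exists_decomp
    have e1 : u ⬝ᵥ c.del x *ᵥ u = ∑ l, (∑ p, u p * w l p) ^ 2 := by
      simp only [dotProduct, Matrix.mulVec, hw, sq, Finset.mul_sum, Finset.sum_mul]
      rw [Finset.sum_congr rfl fun p _ => Finset.sum_comm, Finset.sum_comm]
      exact Finset.sum_congr rfl fun l _ => Finset.sum_congr rfl fun p _ =>
        Finset.sum_congr rfl fun q _ => by ring
    have e2 : (c.del x).trace = ∑ l, ∑ p, w l p ^ 2 := by
      simp only [Matrix.trace, Matrix.diag, hw, sq]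
      exact Finset.sum_comm
    rw [e1, e2, Finset.mul_sum]
    refine Finset.sum_le_sum fun l _ => ?_
    exact (Finset.sum_mul_sq_le_sq_mul_sq _ _ _).trans
      (mul_le_mul_of_nonneg_right huu (Finset.sum_nonneg fun p _ => sq_nonneg _))
  have key := sq_ex_mul_le hp tR tF
  simp only [Ctx.Ex] at hRF hRR hFF
  rw [hRF, hRR] at key
  refine le_of_mul_le_mul_left ?_ hs
  calc s * (s * (c.dH x a i j - ∑ d, u d * c.kbar x d i j) ^ 2)
      = (s * (c.dH x a i j - ∑ d, u d * c.kbar x d i j)) ^ 2 := by ring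
    _ ≤ _ := key
    _ ≤ s * (k * Λ ^ 2 * (c.del x).trace) * c.vh x := mul_le_mul
        (mul_le_mul_of_nonneg_left hdel hs.le) hFF (hp.ex_nonneg fun y => sq_nonneg _)
        (mul_nonneg hs.le (((c.psd_del x).2 u).trans hdel))
    _ = _ := by ring

private theorem mul_three_le {p q r : ℝ} (hp : 0 ≤ p) (hq : 0 ≤ q) (hr : 0 ≤ r) :
    3 * (p * q * r) ≤ p ^ 3 + q ^ 3 + r ^ 3 := by
  nlinarith [mul_nonneg hp (sq_nonneg (q - r)), mul_nonneg hq (sq_nonneg (r - p)),
    mul_nonneg hr (sq_nonneg (p - q)), mul_nonneg hp (sq_nonneg (p - q)),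
    mul_nonneg hq (sq_nonneg (p - q)), mul_nonneg hq (sq_nonneg (q - r)),
    mul_nonneg hr (sq_nonneg (q - r)), mul_nonneg hr (sq_nonneg (r - p)),
    mul_nonneg hp (sq_nonneg (r - p))]

private theorem abs_Ey_ξ_three_le (y : E k) (i j l : Fin k) :
    |c.Ey y (fun x => c.ξ y x i * c.ξ y x j * c.ξ y x l)| ≤ 24 * Real.sqrt (s / ε) ^ 3 := by
  have hp := c.pinW' y
  have t : ∀ i, Tame fun x => c.ξ y x i := fun i => (c.tame2_ξ i).swap.section_right y
  have ta : ∀ i, Tame fun x => |c.ξ y x i| := fun i => (t i).norm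
  set f : E k → ℝ := fun x => c.ξ y x i * c.ξ y x j * c.ξ y x l
  have tf : Tame f := ((t i).mul (t j)).mul (t l)
  have h3 : ∀ x, |f x| ≤ 1 / 3 * |c.ξ y x i| ^ 3 + 1 / 3 * |c.ξ y x j| ^ 3
      + 1 / 3 * |c.ξ y x l| ^ 3 := fun x => by
    simp only [f, abs_mul]
    linarith [mul_three_le (abs_nonneg (c.ξ y x i)) (abs_nonneg (c.ξ y x j))
      (abs_nonneg (c.ξ y x l))]
  have hle : c.Ey y (fun x => |f x|) ≤ 24 * Real.sqrt (s / ε) ^ 3 := by
    have := c.abs_ξ_cube_le y i
    have := c.abs_ξ_cube_le y j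
    have := c.abs_ξ_cube_le y l
    simp only [Ctx.Ey] at *
    refine (hp.ex_mono tf.norm ((((ta i).pow 3).const_mul _).add (((ta j).pow 3).const_mul _)
      |>.add (((ta l).pow 3).const_mul _)) h3).trans ?_
    rw [ex_lin3 hp ((ta i).pow 3) ((ta j).pow 3) ((ta l).pow 3)]
    linarith
  refine le_trans ?_ hle
  simp only [Ctx.Ey]
  rw [abs_le, ← ex_neg]
  exact ⟨hp.ex_mono tf.norm.neg tf fun x => neg_abs_le _,
    hp.ex_mono tf tf.norm fun x => le_abs_self _⟩

/-- With `x = ∇ψ + ξ` given `y`, the third moment is `2 K3` plus terms of order `s`. -/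
theorem third_near (i j l : Fin k) :
    |third V i j l - 2 * c.K3 i j l|
      ≤ Real.sqrt s * (24 / Real.sqrt ε ^ 3 + 3 * |c.K3 i j l|) := by
  have hψ := c.soft.pinψ
  have hs := c.hs
  have hε := c.hε
  set P : Fin k → E k → ℝ := fun i y => fderiv ℝ c.soft.ψ y (bv i)
  have tP : ∀ i, Tame (P i) := fun i => hψ.tame_fderiv_apply _
  set T : E k → ℝ := fun y => c.Ey y fun x => c.ξ y x i * c.ξ y x j * c.ξ y x l
  have tT : Tame T := c.tame_Ey (((c.tame2_ξ i).mul (c.tame2_ξ j)).mul (c.tame2_ξ l))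
  have hin : ∀ y, c.Ey y (fun x => x i * x j * x l)
      = P i y * P j y * P l y + s * (P i y * c.h y j l) + s * (P j y * c.h y i l)
        + s * (P l y * c.h y i j) + T y := fun y => by
    have hp := c.pinW' y
    have t : ∀ i, Tame fun x => c.ξ y x i := fun i => (c.tame2_ξ i).swap.section_right y
    have hx : ∀ i (x : E k), x i = P i y + c.ξ y x i := fun i x => by
      simp only [P, c.fderiv_ψ_coord, Ctx.ξ]
      ring
    have e : ∀ x : E k, x i * x j * x l = P i y * P j y * P l y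
        + (P j y * P l y * c.ξ y x i + P i y * P l y * c.ξ y x j + P i y * P j y * c.ξ y x l)
        + (P i y * (c.ξ y x j * c.ξ y x l) + P j y * (c.ξ y x i * c.ξ y x l)
          + P l y * (c.ξ y x i * c.ξ y x j)) + c.ξ y x i * c.ξ y x j * c.ξ y x l := fun x => by
      rw [hx i, hx j, hx l]
      ring
    have h1 := c.Ey_ξ y
    have h2 := c.Ey_ξξ y
    simp only [Ctx.Ey] at h1 h2
    simp only [Ctx.Ey, T]
    have tA := (((t i).const_mul (P j y * P l y)).add ((t j).const_mul (P i y * P l y))).add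
      ((t l).const_mul (P i y * P j y))
    have tB := ((((t j).mul (t l)).const_mul (P i y)).add (((t i).mul (t l)).const_mul (P j y))).add
      (((t i).mul (t j)).const_mul (P l y))
    rw [ex_congr e, hp.ex_add (((Tame.const _).add tA).add tB) (((t i).mul (t j)).mul (t l)),
      hp.ex_add ((Tame.const _).add tA) tB, hp.ex_add (Tame.const _) tA, hp.ex_const,
      ex_lin3 hp (t i) (t j) (t l), ex_lin3 hp ((t j).mul (t l)) ((t i).mul (t l))
        ((t i).mul (t j)), h1, h1, h1, h2, h2, h2]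
    ring
  have hK := c.symm3_K3
  have hPPP : ex c.soft.ψ (fun y => P i y * P j y * P l y) = 2 * c.K3 i j l := by
    have hd : ∀ y, fderiv ℝ (fun y => P i y * P j y) y (bv l)
        = P j y * c.h y l i + P i y * c.h y l j := fun y => by
      rw [fderiv_fun_mul ((hψ.contDiff_fderiv_apply _).differentiable one_ne_zero y)
        ((hψ.contDiff_fderiv_apply _).differentiable one_ne_zero y)]
      simp only [_root_.add_apply, _root_.smul_apply, smul_eq_mul, P, hψ.fderiv_fderiv_apply,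
        Ctx.h, Hs_apply]
      ring
    refine (hψ.ibp ((hψ.contDiff_fderiv_apply _).mul (hψ.contDiff_fderiv_apply _))
      ((tP i).mul (tP j)) (bv l) (by
        refine (congrArg Tame (funext hd)).mpr ?_
        exact ((tP j).mul (c.tame_h l i)).add ((tP i).mul (c.tame_h l j)))).trans ?_
    rw [ex_congr hd, hψ.ex_add ((tP j).mul (c.tame_h l i)) ((tP i).mul (c.tame_h l j))]
    show c.K3 j l i + c.K3 i l j = _
    rw [(hK j l i).2, (hK j i l).1, (hK i l j).2]
    ring
  have htot : third V i j l = 2 * c.K3 i j l + 3 * s * c.K3 i j l + ex c.soft.ψ T := by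
    have ht := ((tame_coord (k := k) i).mul (tame_coord j)).mul (tame_coord l)
    rw [third, ← c.EE_left ht, c.EE_Ey ht.tame2_left, ex_congr hin]
    have t1 := (tP i).mul (c.tame_h j l)
    have t2 := (tP j).mul (c.tame_h i l)
    have t3 := (tP l).mul (c.tame_h i j)
    rw [hψ.ex_add (((((tP i).mul (tP j)).mul (tP l)).add (t1.const_mul s)).add (t2.const_mul s)
        |>.add (t3.const_mul s)) tT,
      hψ.ex_add (((((tP i).mul (tP j)).mul (tP l)).add (t1.const_mul s)).add (t2.const_mul s))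
        (t3.const_mul s),
      hψ.ex_add ((((tP i).mul (tP j)).mul (tP l)).add (t1.const_mul s)) (t2.const_mul s),
      hψ.ex_add (((tP i).mul (tP j)).mul (tP l)) (t1.const_mul s),
      ex_const_mul, ex_const_mul, ex_const_mul, hPPP]
    show 2 * c.K3 i j l + s * c.K3 i j l + s * c.K3 j i l + s * c.K3 l i j + _ = _
    rw [(hK j i l).1, (hK l i j).1, (hK i l j).2]
    ring
  have hT : |ex c.soft.ψ T| ≤ 24 * Real.sqrt (s / ε) ^ 3 := by
    have hb := fun y => abs_le.1 (c.abs_Ey_ξ_three_le y i j l)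
    rw [abs_le]
    exact ⟨(hψ.ex_const _).symm.trans_le (hψ.ex_mono (Tame.const _) tT fun y => (hb y).1),
      (hψ.ex_mono tT (Tame.const _) fun y => (hb y).2).trans_eq (hψ.ex_const _)⟩
  have hr : Real.sqrt s ≤ 1 := Real.sqrt_le_one.2 c.hs1
  have hr2 : Real.sqrt s * Real.sqrt s = s := Real.mul_self_sqrt hs.le
  have hr0 := Real.sqrt_nonneg s
  have hs' : s ≤ Real.sqrt s := by nlinarith
  have h24 : 24 * Real.sqrt (s / ε) ^ 3 ≤ Real.sqrt s * (24 / Real.sqrt ε ^ 3) := by
    rw [Real.sqrt_div hs.le, div_pow, ← mul_div_assoc, ← mul_div_assoc]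
    refine div_le_div_of_nonneg_right ?_ (by positivity)
    have := pow_le_one₀ (n := 2) hr0 hr
    nlinarith
  rw [htot, show 2 * c.K3 i j l + 3 * s * c.K3 i j l + ex c.soft.ψ T - 2 * c.K3 i j l
    = 3 * s * c.K3 i j l + ex c.soft.ψ T by ring, mul_add]
  refine (abs_add_le _ _).trans ?_
  rw [abs_mul, abs_of_pos (by positivity : (0 : ℝ) < 3 * s)]
  nlinarith [mul_le_mul_of_nonneg_right hs' (abs_nonneg (c.K3 i j l)), hT.trans h24]

end Ctx

end Vale.P254.Skew
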