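import Vale.Agent.P254.Skew.XSide
import Vale.Agent.P254.Skew.YSide

/-! # Linearity and perturbation of the contraction -/

namespace Vale.P254.Skew

open Matrix

variable {k : ℕ}

/-- The sum of all absolute entries. -/
def l1 (A : Mat k) : ℝ := ∑ i, ∑ j, |A i j|

theorem l1_nonneg (A : Mat k) : 0 ≤ l1 A :=
  Finset.sum_nonneg fun _ _ => Finset.sum_nonneg fun _ _ => abs_nonneg _

theorem abs_le_l1 (A : Mat k) (i j : Fin k) : |A i j| ≤ l1 A :=
  (Finset.single_le_sum (fun q _ => abs_nonneg (A i q)) (Finset.mem_univ j)).trans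
    (Finset.single_le_sum (f := fun p => ∑ q, |A p q|)
      (fun p _ => Finset.sum_nonneg fun _ _ => abs_nonneg _) (Finset.mem_univ i))

theorem l1_le {A : Mat k} {r : ℝ} (h : ∀ i j, |A i j| ≤ r) : l1 A ≤ (k : ℝ) ^ 2 * r := by
  refine (Finset.sum_le_sum fun i _ => Finset.sum_le_sum fun j _ => h i j).trans_eq ?_
  simp [sq, mul_assoc]

theorem abs_mul_entry_le (A B : Mat k) (i j : Fin k) {α β : ℝ} (hA : ∀ i j, |A i j| ≤ α)
    (hB : ∀ i j, |B i j| ≤ β) : |(A * B) i j| ≤ k * (α * β) := by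
  rw [Matrix.mul_apply]
  refine (Finset.abs_sum_le_sum_abs _ _).trans ?_
  refine (Finset.sum_le_sum fun l _ => ((abs_mul _ _).trans_le (mul_le_mul (hA i l) (hB l j)
    (abs_nonneg _) ((abs_nonneg _).trans (hA i l))))).trans_eq ?_
  simp

/-- Largest entry-sum of a tensor. -/
def t1 (X : Ten k) : ℝ := ∑ a, ∑ b, ∑ l, |X a b l|

theorem abs_le_t1 (X : Ten k) (a b l : Fin k) : |X a b l| ≤ t1 X :=
  ((Finset.single_le_sum (fun q _ => abs_nonneg (X a b q)) (Finset.mem_univ l)).trans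
    (Finset.single_le_sum (f := fun p => ∑ q, |X a p q|)
      (fun p _ => Finset.sum_nonneg fun _ _ => abs_nonneg _) (Finset.mem_univ b))).trans
    (Finset.single_le_sum (f := fun r => ∑ p, ∑ q, |X r p q|)
      (fun r _ => Finset.sum_nonneg fun _ _ => Finset.sum_nonneg fun _ _ => abs_nonneg _)
      (Finset.mem_univ a))

theorem cPhi_sub_A (A A' B C : Mat k) (X Y : Ten k) :
    cPhi A B C X Y - cPhi A' B C X Y = cPhi (A - A') B C X Y := by
  simp only [cPhi, Matrix.sub_apply, mul_sub, sub_mul, Finset.sum_sub_distrib]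

theorem cPhi_sub_B (A B B' C : Mat k) (X Y : Ten k) :
    cPhi A B C X Y - cPhi A B' C X Y = cPhi A (B - B') C X Y := by
  simp only [cPhi, Matrix.sub_apply, mul_sub, sub_mul, Finset.sum_sub_distrib]

theorem cPhi_sub_C (A B C C' : Mat k) (X Y : Ten k) :
    cPhi A B C X Y - cPhi A B C' X Y = cPhi A B (C - C') X Y := by
  simp only [cPhi, Matrix.sub_apply, mul_sub, sub_mul, Finset.sum_sub_distrib]

theorem cPhi_sub_X (A B C : Mat k) (X X' Y : Ten k) :
    cPhi A B C X Y - cPhi A B C X' Y = cPhi A B C (X - X') Y := by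
  simp only [cPhi, Pi.sub_apply, mul_sub, sub_mul, Finset.sum_sub_distrib]

theorem cPhi_sub_Y (A B C : Mat k) (X Y Y' : Ten k) :
    cPhi A B C X Y - cPhi A B C X Y' = cPhi A B C X (Y - Y') := by
  simp only [cPhi, Pi.sub_apply, mul_sub, sub_mul, Finset.sum_sub_distrib]

/-- Perturbation in all five slots. -/
theorem abs_cPhi_sub_le {A A' B B' C C' : Mat k} {X X' Y Y' : Ten k}
    {α β γ ξ υ dA dB dC dX dY : ℝ}
    (hA : ∀ i j, |A i j| ≤ α) (hA' : ∀ i j, |A' i j| ≤ α)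
    (hB : ∀ i j, |B i j| ≤ β) (hB' : ∀ i j, |B' i j| ≤ β)
    (hC : ∀ i j, |C i j| ≤ γ) (hC' : ∀ i j, |C' i j| ≤ γ)
    (hX : ∀ i j l, |X i j l| ≤ ξ) (hX' : ∀ i j l, |X' i j l| ≤ ξ)
    (hY : ∀ i j l, |Y i j l| ≤ υ) (_hY' : ∀ i j l, |Y' i j l| ≤ υ)
    (hdA : ∀ i j, |A i j - A' i j| ≤ dA) (hdB : ∀ i j, |B i j - B' i j| ≤ dB)
    (hdC : ∀ i j, |C i j - C' i j| ≤ dC) (hdX : ∀ i j l, |X i j l - X' i j l| ≤ dX)
    (hdY : ∀ i j l, |Y i j l - Y' i j l| ≤ dY) :
    |cPhi A B C X Y - cPhi A' B' C' X' Y'|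
      ≤ (k : ℝ) ^ 6 * (dA * β * γ * ξ * υ + α * dB * γ * ξ * υ + α * β * dC * ξ * υ
        + α * β * γ * dX * υ + α * β * γ * ξ * dY) := by
  have e : cPhi A B C X Y - cPhi A' B' C' X' Y'
      = cPhi (A - A') B C X Y + cPhi A' (B - B') C X Y + cPhi A' B' (C - C') X Y
        + cPhi A' B' C' (X - X') Y + cPhi A' B' C' X' (Y - Y') := by
    rw [← cPhi_sub_A, ← cPhi_sub_B, ← cPhi_sub_C, ← cPhi_sub_X, ← cPhi_sub_Y]
    ring
  rw [e, mul_add, mul_add, mul_add, mul_add]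
  refine (abs_add_le _ _).trans (add_le_add ?_ (abs_cPhi_le hA' hB' hC' hX' hdY))
  refine (abs_add_le _ _).trans (add_le_add ?_ (abs_cPhi_le hA' hB' hC' hdX hY))
  refine (abs_add_le _ _).trans (add_le_add ?_ (abs_cPhi_le hA' hB' hdC hX hY))
  exact (abs_add_le _ _).trans (add_le_add (abs_cPhi_le hdA hB hC hX hY)
    (abs_cPhi_le hA' hdB hC hX hY))

theorem cPhi_add_A (A A' B C : Mat k) (X Y : Ten k) :
    cPhi (A + A') B C X Y = cPhi A B C X Y + cPhi A' B C X Y := by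
  simp only [cPhi, Matrix.add_apply, mul_add, add_mul, Finset.sum_add_distrib]

theorem cPhi_add_B (A B B' C : Mat k) (X Y : Ten k) :
    cPhi A (B + B') C X Y = cPhi A B C X Y + cPhi A B' C X Y := by
  simp only [cPhi, Matrix.add_apply, mul_add, add_mul, Finset.sum_add_distrib]

theorem cPhi_smul_A (r : ℝ) (A B C : Mat k) (X Y : Ten k) :
    cPhi (r • A) B C X Y = r * cPhi A B C X Y := by
  simp only [cPhi, Matrix.smul_apply, smul_eq_mul, mul_assoc, mul_left_comm _ r, ← Finset.mul_sum]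

theorem cPhi_smul_B (r : ℝ) (A B C : Mat k) (X Y : Ten k) :
    cPhi A (r • B) C X Y = r * cPhi A B C X Y := by
  simp only [cPhi, Matrix.smul_apply, smul_eq_mul, mul_assoc, mul_left_comm _ r, ← Finset.mul_sum]

theorem cPhi_sum_left {ι : Type*} (t : Finset ι) (r : ι → ℝ) (A : ι → Mat k) (B C : Mat k)
    (X Y : Ten k) :
    cPhi (∑ l ∈ t, r l • A l) B C X Y = ∑ l ∈ t, r l * cPhi (A l) B C X Y := by
  classical
  induction t using Finset.induction_on with
  | empty => simp [cPhi]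
  | insert l t hl ih =>
    rw [Finset.sum_insert hl, Finset.sum_insert hl, cPhi_add_A, cPhi_smul_A, ih]

theorem cPhi_sum_mid {ι : Type*} (t : Finset ι) (r : ι → ℝ) (A : Mat k) (B : ι → Mat k)
    (C : Mat k) (X Y : Ten k) :
    cPhi A (∑ l ∈ t, r l • B l) C X Y = ∑ l ∈ t, r l * cPhi A (B l) C X Y := by
  classical
  induction t using Finset.induction_on with
  | empty => simp [cPhi]
  | insert l t hl ih =>
    rw [Finset.sum_insert hl, Finset.sum_insert hl, cPhi_add_B, cPhi_smul_B, ih]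

/-- Rank-one matrix from two columns. -/
def colOuter (M : Mat k) (p q : Fin k) : Mat k := Matrix.of fun i j => M i p * M j q

theorem sum_smul_colOuter (M R : Mat k) :
    ∑ pq : Fin k × Fin k, R pq.1 pq.2 • colOuter M pq.1 pq.2 = M * R * Mᵀ := by
  ext i j
  simp only [Matrix.sum_apply, Matrix.smul_apply, colOuter, Matrix.of_apply, smul_eq_mul,
    Matrix.mul_apply, Matrix.transpose_apply, Fintype.sum_prod_type, Finset.sum_mul]
  rw [Finset.sum_comm]
  exact Finset.sum_congr rfl fun q _ => Finset.sum_congr rfl fun p _ => by ring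

theorem sq1_mulVec (M : Mat k) (v : Fin k → ℝ) :
    sq1 (M *ᵥ v) = ∑ pq : Fin k × Fin k, (sq1 v pq.1 pq.2) • colOuter M pq.1 pq.2 := by
  rw [sum_smul_colOuter]
  ext i j
  simp only [sq1, Matrix.of_apply, Matrix.mulVec, dotProduct, Matrix.mul_apply,
    Matrix.transpose_apply, Finset.sum_mul, Finset.mul_sum]
  exact Finset.sum_congr rfl fun q _ => Finset.sum_congr rfl fun p _ => by ring

/-- The quadratic form `v ↦ cPhi (sq1 (M v)) B C X Y`, expanded. -/
theorem cPhi_sq1 (M B C : Mat k) (X Y : Ten k) (v : Fin k → ℝ) :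
    cPhi (sq1 (M *ᵥ v)) B C X Y
      = ∑ pq : Fin k × Fin k, sq1 v pq.1 pq.2 * cPhi (colOuter M pq.1 pq.2) B C X Y := by
  rw [sq1_mulVec, cPhi_sum_left]

theorem cPhi_sq1_mid (M A C : Mat k) (X Y : Ten k) (v : Fin k → ℝ) :
    cPhi A (sq1 (M *ᵥ v)) C X Y
      = ∑ pq : Fin k × Fin k, sq1 v pq.1 pq.2 * cPhi A (colOuter M pq.1 pq.2) C X Y := by
  rw [sq1_mulVec, cPhi_sum_mid]

theorem abs_sq1_mulVec_le {M : Mat k} {μ : ℝ} (hM : ∀ i j, |M i j| ≤ μ) (v : Fin k → ℝ)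
    (i j : Fin k) : |sq1 (M *ᵥ v) i j| ≤ k * μ ^ 2 * ∑ l, v l ^ 2 := by
  have hv : ∀ i, |(M *ᵥ v) i| ≤ μ * ∑ l, |v l| := fun i => by
    rw [Finset.mul_sum]
    show |∑ l, M i l * v l| ≤ _
    refine (Finset.abs_sum_le_sum_abs _ _).trans (Finset.sum_le_sum fun l _ => ?_)
    rw [abs_mul]
    exact mul_le_mul_of_nonneg_right (hM i l) (abs_nonneg _)
  simp only [sq1, Matrix.of_apply, abs_mul]
  refine (mul_le_mul (hv i) (hv j) (abs_nonneg _) ((abs_nonneg _).trans (hv i))).trans ?_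
  have h := sq_sum_le_card_mul_sum_sq (s := (Finset.univ : Finset (Fin k))) (f := fun l => |v l|)
  simp only [Finset.card_univ, Fintype.card_fin, sq_abs] at h
  calc μ * (∑ l, |v l|) * (μ * ∑ l, |v l|) = μ ^ 2 * (∑ l, |v l|) ^ 2 := by ring
    _ ≤ μ ^ 2 * (k * ∑ l, v l ^ 2) := mul_le_mul_of_nonneg_left h (sq_nonneg _)
    _ = _ := by ring

end Vale.P254.Skew
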