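import Vale.Agent.P254.Skew.Phi

/-! # The basic small quantities -/

namespace Vale.P254.Skew

open MeasureTheory Filter Topology Matrix
open scoped RealInnerProductSpace

variable {k : ℕ} {V : E k → ℝ} {B : E k →L[ℝ] E k →L[ℝ] ℝ} {ε Λ s : ℝ}

/-- The bound on the test tensor. -/
noncomputable def xB (Λ : ℝ) (C : Ten k) : ℝ := tnrm C / (1 / (2 * Λ))

/-- The Lipschitz constant of the test tensor. -/
noncomputable def xL (Λ : ℝ) (C : Ten k) : ℝ := (k : ℝ) ^ 2 * tnrm C / (1 / (2 * Λ)) ^ 2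

/-- The constant in the comparison of `G`, `Γ` and `H`. -/
noncomputable def kD (B : E k →L[ℝ] E k →L[ℝ] ℝ) (ε : ℝ) : ℝ :=
  1 + 2 / ε + (k : ℝ) ^ 2 * (2 / ε) ^ 2 * trB B

theorem psd_trace_nonneg {A : Mat k} (h : Psd A) : 0 ≤ A.trace :=
  Finset.sum_nonneg fun i _ => by simpa using h.2 (Pi.single i 1)

theorem symm3_zero : Symm3 (0 : Ten k) := fun _ _ _ => ⟨rfl, rfl⟩

theorem cPhi_zero_X (A B C : Mat k) (Y : Ten k) : cPhi A B C 0 Y = 0 := by simp [cPhi]

namespace Ctx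

variable (c : Ctx V B ε Λ s)

/-- The defect, as a number. -/
noncomputable def D (x : E k) : ℝ := (c.del x).trace + s

/-- The distance of `h` to `H`. -/
noncomputable def dh1 (x y : E k) : ℝ := l1 (c.h y - c.H x)

/-- The squared distance of `h` to `H`. -/
noncomputable def dh2 (x y : E k) : ℝ := ∑ i, ∑ j, (c.h y i j - c.H x i j) ^ 2

/-- The limiting cost. -/
noncomputable def cost (C : Ten k) (x : E k) : ℝ :=
  cPhi (c.H x) (c.H x) (c.H x) (cX (c.H x) C) (cX (c.H x) C)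

/-- The gain given `x`. -/
noncomputable def J0 (C : Ten k) (x : E k) : ℝ :=
  cPhi (c.G x) 1 (c.H x) (cX (c.H x) C) (c.dH x)

/-- The strong convexity term. -/
noncomputable def N (x : E k) : ℝ := (c.H x * (c.G x - c.Γ x)).trace / s

theorem abs_one_le (i j : Fin k) : |(1 : Mat k) i j| ≤ 1 := by
  rw [Matrix.one_apply]
  split_ifs <;> simp

theorem abs_cX_h_le (C : Ten k) (y : E k) (i j l : Fin k) : |cX (c.h y) C i j l| ≤ xB Λ C := (c.sand_h y).abs_cX_le C i j l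

theorem abs_cX_H_le (C : Ten k) (x : E k) (i j l : Fin k) : |cX (c.H x) C i j l| ≤ xB Λ C := (c.sand_H x).abs_cX_le C i j l

theorem abs_cX_sub_le (C : Ten k) (x y : E k) (i j l : Fin k) :
    |cX (c.h y) C i j l - cX (c.H x) C i j l| ≤ xL Λ C * c.dh1 x y := (c.sand_h y).cX_lipschitz (c.sand_H x) C i j l

theorem D_nonneg (x : E k) : 0 ≤ c.D x := add_nonneg (psd_trace_nonneg (c.psd_del x)) c.hs.le

theorem s_le_D (x : E k) : s ≤ c.D x := le_add_of_nonneg_left (psd_trace_nonneg (c.psd_del x))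

theorem D_le (x : E k) : c.D x ≤ k * (6 / ε) + 1 := by
  refine add_le_add ?_ c.hs1
  have e : ∀ i, c.del x i i ≤ 6 / ε := fun i => by
    simp only [del, Matrix.sub_apply, Matrix.smul_apply, smul_eq_mul]
    have h1 := abs_le.1 ((c.sand_H x).abs_entry i i)
    have h2 := abs_le.1 ((c.sand_G x).abs_entry i i)
    have h3 : 6 / ε = 3 * (2 / ε) := by ring
    have hu := c.hu
    have h4 : (1 + s) * c.H x i i ≤ 2 * (2 / ε) :=
      (mul_le_mul_of_nonneg_left h1.2 (by linarith [c.hs])).trans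
        (mul_le_mul_of_nonneg_right (by linarith [c.hs1]) hu.le)
    linarith
  refine (Finset.sum_le_sum fun i _ => e i).trans_eq ?_
  simp [Matrix.trace]

theorem kD_nonneg (c : Ctx V B ε Λ s) : 1 ≤ kD B ε := by
  have hu := c.hu
  have : 0 ≤ trB B := Finset.sum_nonneg fun i _ => c.hyp.Bnonneg _
  have : 0 ≤ (k : ℝ) ^ 2 * (2 / ε) ^ 2 * trB B := by positivity
  unfold kD
  linarith

theorem abs_G_sub_H_le (x : E k) (i j : Fin k) :
    |c.G x i j - c.H x i j| ≤ kD B ε * c.D x := by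
  have h1 : |c.del x i j| ≤ (c.del x).trace := (c.psd_del x).abs_entry i j
  have e : c.G x i j - c.H x i j = s * c.H x i j - c.del x i j := by
    simp only [del, Matrix.sub_apply, Matrix.smul_apply, smul_eq_mul]
    ring
  rw [e]
  refine (abs_sub _ _).trans ?_
  rw [abs_mul, abs_of_pos c.hs]
  have h2 := mul_le_mul_of_nonneg_left ((c.sand_H x).abs_entry i j) c.hs.le
  have hu := c.hu
  have ht := psd_trace_nonneg (c.psd_del x)
  have hs := c.hs
  have hk : 1 + 2 / ε ≤ kD B ε := by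
    have : 0 ≤ trB B := Finset.sum_nonneg fun i _ => c.hyp.Bnonneg _
    exact le_add_of_nonneg_right (by positivity)
  refine le_trans ?_ (mul_le_mul_of_nonneg_right hk (c.D_nonneg x))
  simp only [D]
  nlinarith

theorem G_sub_Γ (x : E k) : c.G x - c.Γ x = s • (c.Γ x * Bm B * c.G x) := by
  have h1 : c.Γ x * (c.g x + s • Bm B) = 1 := (c.sand_gB x).inv_mul
  have h2 : c.g x * c.G x = 1 := (c.sand_g x).mul_inv
  calc c.G x - c.Γ x = c.Γ x * (c.g x + s • Bm B) * c.G x - c.Γ x * (c.g x * c.G x) := by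
        rw [h1, h2, one_mul, mul_one]
    _ = _ := by
        rw [Matrix.mul_add, Matrix.add_mul, Matrix.mul_assoc, add_sub_cancel_left,
          Matrix.mul_smul, Matrix.smul_mul]


theorem abs_G_sub_Γ_le (x : E k) (i j : Fin k) : |c.G x i j - c.Γ x i j| ≤ kD B ε * s := by
  have h0 : ∀ i j, |Bm B i j| ≤ trB B := fun i j => c.psd_Bm.abs_entry i j
  have h1 := fun i j => abs_mul_entry_le (c.Γ x) (Bm B) i j (c.sand_Γ x).abs_entry h0
  have h2 := abs_mul_entry_le (c.Γ x * Bm B) (c.G x) i j h1 (c.sand_G x).abs_entry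
  have e : c.G x i j - c.Γ x i j = s * (c.Γ x * Bm B * c.G x) i j := by
    rw [← Matrix.sub_apply, c.G_sub_Γ]
    rfl
  rw [e, abs_mul, abs_of_pos c.hs, mul_comm (kD B ε)]
  refine mul_le_mul_of_nonneg_left (h2.trans ?_) c.hs.le
  have hu := c.hu
  unfold kD
  have : (k : ℝ) * (k * (2 / ε * trB B) * (2 / ε)) = (k : ℝ) ^ 2 * (2 / ε) ^ 2 * trB B := by ring
  linarith

theorem abs_Γ_sub_H_le (x : E k) (i j : Fin k) :
    |c.Γ x i j - c.H x i j| ≤ 2 * kD B ε * c.D x := by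
  have h1 := c.abs_G_sub_Γ_le x i j
  have h2 := c.abs_G_sub_H_le x i j
  have h3 := mul_le_mul_of_nonneg_left (c.s_le_D x) (zero_le_one.trans c.kD_nonneg)
  rw [abs_sub_comm] at h1
  linarith [abs_sub_le (c.Γ x i j) (c.G x i j) (c.H x i j)]

theorem abs_Γ_sub_qH_le (x : E k) (i j : Fin k) :
    |c.Γ x i j - (1 + s) * c.H x i j| ≤ kD B ε * c.D x := by
  have h1 := c.abs_G_sub_Γ_le x i j
  have h2 : |c.del x i j| ≤ (c.del x).trace := (c.psd_del x).abs_entry i j
  have e : c.G x i j - (1 + s) * c.H x i j = -c.del x i j := by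
    simp only [del, Matrix.sub_apply, Matrix.smul_apply, smul_eq_mul]
    ring
  have hk := c.kD_nonneg
  have ht := psd_trace_nonneg (c.psd_del x)
  rw [abs_sub_comm] at h1
  have h3 := abs_sub_le (c.Γ x i j) (c.G x i j) ((1 + s) * c.H x i j)
  rw [e, abs_neg] at h3
  simp only [D]
  nlinarith

theorem G_mul_g (x : E k) : c.G x * c.g x = 1 := (c.sand_g x).inv_mul

theorem N_nonneg (x : E k) : 0 ≤ c.N x := by
  refine div_nonneg ((c.sand_H x).psd.trace_mul_nonneg ?_) c.hs.le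
  refine (c.sand_g x).inv_anti (c.sand_gB x) fun v => ?_
  rw [Matrix.add_mulVec, dotProduct_add, Matrix.smul_mulVec, dotProduct_smul, smul_eq_mul]
  exact le_add_of_nonneg_right (mul_nonneg c.hs.le (c.psd_Bm.2 v))

theorem tame_D : Tame c.D := (Tame.sum _ fun i _ => c.tame_del i i).add (Tame.const s)

theorem tame2_dh1 : Tame2 c.dh1 :=
  show Tame2 fun x y => ∑ i, ∑ j, |c.h y i j - c.H x i j| from Tame2.sum _ fun i _ => Tame2.sum _ fun j _ =>
  ((c.tame_h i j).tame2_right.sub (c.tame_H i j).tame2_left).abs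

theorem tame2_dh2 : Tame2 c.dh2 := Tame2.sum _ fun i _ => Tame2.sum _ fun j _ =>
  ((c.tame_h i j).tame2_right.sub (c.tame_H i j).tame2_left).pow 2

theorem tame_cPhi {A B' C' : E k → Mat k} {X Y : E k → Ten k}
    (hA : ∀ i j, Tame fun x => A x i j) (hB : ∀ i j, Tame fun x => B' x i j)
    (hC : ∀ i j, Tame fun x => C' x i j) (hX : ∀ i j l, Tame fun x => X x i j l)
    (hY : ∀ i j l, Tame fun x => Y x i j l) :
    Tame fun x => cPhi (A x) (B' x) (C' x) (X x) (Y x) := Tame.sum _ fun a _ => Tame.sum _ fun b _ => Tame.sum _ fun l _ => Tame.sum _ fun a' _ =>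
  Tame.sum _ fun b' _ => Tame.sum _ fun l' _ =>
    ((((hX a b l).mul (hA a a')).mul (hB b b')).mul (hC l l')).mul (hY a' b' l')


theorem tame_cost (C : Ten k) : Tame (c.cost C) := tame_cPhi c.tame_H c.tame_H c.tame_H (c.tame_cX_H C) (c.tame_cX_H C)

theorem tame_J0 (C : Ten k) : Tame (c.J0 C) := tame_cPhi c.tame_G (fun i j => Tame.const _) c.tame_H (c.tame_cX_H C) c.tame_dH

theorem tame_N : Tame c.N := by
  have : Tame fun x => (c.H x * (c.G x - c.Γ x)).trace := by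
    simp only [Matrix.trace, Matrix.diag, Matrix.mul_apply, Matrix.sub_apply]
    exact Tame.sum _ fun i _ => Tame.sum _ fun j _ =>
      (c.tame_H i j).mul ((c.tame_G j i).sub (c.tame_Γ j i))
  rw [show c.N = fun x => (c.H x * (c.G x - c.Γ x)).trace * s⁻¹ from
    funext fun x => div_eq_mul_inv _ s]
  exact this.mul (Tame.const s⁻¹)

theorem tame2_cPhi {A B' C' : E k → E k → Mat k} {X Y : E k → E k → Ten k}
    (hA : ∀ i j, Tame2 fun x y => A x y i j) (hB : ∀ i j, Tame2 fun x y => B' x y i j)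
    (hC : ∀ i j, Tame2 fun x y => C' x y i j) (hX : ∀ i j l, Tame2 fun x y => X x y i j l)
    (hY : ∀ i j l, Tame2 fun x y => Y x y i j l) :
    Tame2 fun x y => cPhi (A x y) (B' x y) (C' x y) (X x y) (Y x y) := Tame2.sum _ fun a _ => Tame2.sum _ fun b _ => Tame2.sum _ fun l _ => Tame2.sum _ fun a' _ =>
  Tame2.sum _ fun b' _ => Tame2.sum _ fun l' _ =>
    ((((hX a b l).mul (hA a a')).mul (hB b b')).mul (hC l l')).mul (hY a' b' l')

theorem Mh_le : c.Mh ≤ (k : ℝ) ^ 2 * (2 / ε) ^ 2 := by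
  refine (Finset.sum_le_sum fun i _ => Finset.sum_le_sum fun j _ =>
    (c.soft.pinψ.ex_mono ((c.tame_h i j).pow 2) (Tame.const ((2 / ε) ^ 2)) fun y => ?_).trans_eq
      (c.soft.pinψ.ex_const _)).trans_eq ?_
  · exact sq_le_sq.2 (((c.sand_h y).abs_entry i j).trans_eq (abs_of_pos c.hu).symm)
  · simp [sq, mul_assoc]

theorem ex_trace_HH : ex V (fun x => (c.H x * c.H x).trace) = c.Mh - ex V c.vh := by
  have e : ∀ x, (c.H x * c.H x).trace = ∑ i, ∑ j, c.H x i j ^ 2 := fun x => by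
    simp only [Matrix.trace, Matrix.diag, Matrix.mul_apply, sq]
    refine Finset.sum_congr rfl fun i _ => Finset.sum_congr rfl fun j _ => ?_
    rw [show c.H x j i = c.H x i j from congrFun (congrFun (c.sand_H x).symm i) j]
  rw [ex_congr e, c.hyp.pin.ex_sum _ fun i _ => Tame.sum _ fun j _ => (c.tame_H i j).pow 2,
    ← c.Mh_split]
  exact Finset.sum_congr rfl fun i _ =>
    c.hyp.pin.ex_sum _ fun j _ => (c.tame_H i j).pow 2

theorem ex_trace_HΓ : ex V (fun x => (c.H x * c.Γ x).trace)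
    = (1 + s) * (c.Mh - ex V c.vh) - ex V (fun x => (c.H x * c.del x).trace)
      - s * ex V c.N := by
  have hs := c.hs.ne'
  have e : ∀ x, (c.H x * c.Γ x).trace
      = ((1 + s) * (c.H x * c.H x).trace - (c.H x * c.del x).trace) - s * c.N x := fun x => by
    rw [N, mul_div_cancel₀ _ hs, del]
    simp only [Matrix.mul_sub, Matrix.mul_smul, Matrix.trace_sub, Matrix.trace_smul, smul_eq_mul]
    ring
  have t2 : ∀ (P Q : E k → Mat k), (∀ i j, Tame fun x => P x i j) → (∀ i j, Tame fun x => Q x i j)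
      → Tame fun x => (P x * Q x).trace := fun P Q hP hQ => by
    simp only [Matrix.trace, Matrix.diag, Matrix.mul_apply]
    exact Tame.sum _ fun i _ => Tame.sum _ fun j _ => (hP i j).mul (hQ j i)
  rw [ex_congr e, c.hyp.pin.ex_sub
      (((t2 _ _ c.tame_H c.tame_H).const_mul _).sub (t2 _ _ c.tame_H c.tame_del))
      (c.tame_N.const_mul _),
    c.hyp.pin.ex_sub ((t2 _ _ c.tame_H c.tame_H).const_mul _) (t2 _ _ c.tame_H c.tame_del),
    ex_const_mul, ex_const_mul, c.ex_trace_HH]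

theorem tame_trace_H_del : Tame fun x => (c.H x * c.del x).trace := by
  simp only [Matrix.trace, Matrix.diag, Matrix.mul_apply]
  exact Tame.sum _ fun i _ => Tame.sum _ fun j _ => (c.tame_H i j).mul (c.tame_del j i)

theorem master_zero :
    (1 + s) * ex V c.vh + ex V (fun x => (c.H x * c.del x).trace) + s * ex V c.N
      ≤ s * c.Mh := by
  have h := c.x_total (C := 0) symm3_zero
  have e0 : ∀ A : Mat k, Sand A (1 / (2 * Λ)) (2 / ε) → cX A (0 : Ten k) = 0 := fun A hA => by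
    funext i j l
    have := hA.abs_cX_le 0 i j l
    simp only [tnrm, Pi.zero_apply, ne_eq, OfNat.ofNat_ne_zero, not_false_eq_true, zero_pow,
      Finset.sum_const_zero, Real.sqrt_zero, zero_div, abs_nonpos_iff] at this
    simpa using this
  have j0 : c.Jx 0 = fun _ _ => (0 : ℝ) := by
    funext x y
    simp [Jx, e0 _ (c.sand_h y)]
  have q0 : c.QX 0 = fun _ _ => (0 : ℝ) := by
    funext x y
    simp [QX, e0 _ (c.sand_h y), cPhi_zero_X]
  have p0 : (fun y => cPhi (c.h y) (c.h y) (c.h y) (cX (c.h y) 0) (cX (c.h y) 0))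
      = fun _ => (0 : ℝ) := by
    funext y
    simp [e0 _ (c.sand_h y), cPhi_zero_X]
  have z : c.EE (fun _ _ => (0 : ℝ)) = 0 := by
    rw [c.EE_left (Tame.const (k := k) (0 : ℝ)), c.hyp.pin.ex_const]
  rw [c.ex_trace_HΓ, j0, q0, p0, z, c.soft.pinψ.ex_const] at h
  linarith

theorem ex_vh_le : ex V c.vh ≤ s * ((k : ℝ) ^ 2 * (2 / ε) ^ 2) := by
  have h := c.master_zero
  have h1 : 0 ≤ ex V (fun x => (c.H x * c.del x).trace) := c.hyp.pin.ex_nonneg fun x =>
    (c.sand_H x).psd.trace_mul_nonneg (c.psd_del x)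
  have h2 : 0 ≤ ex V c.N := c.hyp.pin.ex_nonneg c.N_nonneg
  have h3 : 0 ≤ ex V c.vh := c.hyp.pin.ex_nonneg c.vh_nonneg
  have h4 := mul_le_mul_of_nonneg_left c.Mh_le c.hs.le
  nlinarith [mul_nonneg c.hs.le h2, mul_nonneg c.hs.le h3]

theorem EE_dh2_le : c.EE c.dh2 ≤ s * ((k : ℝ) ^ 2 * (2 / ε) ^ 2) := by
  refine le_of_eq_of_le ?_ c.ex_vh_le
  refine ex_congr fun x => ?_
  have hp := c.pinU' x
  simp only [Ex, vh]
  show ex _ (fun y => ∑ i, ∑ j, (c.h y i j - c.H x i j) ^ 2) = _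
  refine (hp.ex_sum Finset.univ (f := fun i y => ∑ j, (c.h y i j - c.H x i j) ^ 2)
    fun i _ => Tame.sum _ fun j _ => ((c.tame_h i j).sub (Tame.const _)).pow 2).trans ?_
  exact Finset.sum_congr rfl fun i _ =>
    hp.ex_sum Finset.univ (f := fun j y => (c.h y i j - c.H x i j) ^ 2)
      fun j _ => ((c.tame_h i j).sub (Tame.const _)).pow 2

theorem dh1_le {t : ℝ} (ht : 0 < t) (x y : E k) :
    c.dh1 x y ≤ (k : ℝ) ^ 2 * t + c.dh2 x y / t := by
  simp only [dh1, l1, dh2, Finset.sum_div, Matrix.sub_apply]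
  have e : (k : ℝ) ^ 2 * t = ∑ _i : Fin k, ∑ _j : Fin k, t := by simp [sq, mul_assoc]
  rw [e, ← Finset.sum_add_distrib]
  refine Finset.sum_le_sum fun i _ => ?_
  rw [← Finset.sum_add_distrib]
  refine Finset.sum_le_sum fun j _ => ?_
  set d := c.h y i j - c.H x i j
  rw [← sq_abs d, ← sub_nonneg]
  have e2 : t + |d| ^ 2 / t - |d| = ((2 * t - |d|) ^ 2 + 3 * |d| ^ 2) / (4 * t) := by
    field_simp
    ring
  rw [e2]
  positivity

theorem sq_dh1_le (x y : E k) : c.dh1 x y ^ 2 ≤ (k : ℝ) ^ 2 * c.dh2 x y := by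
  simp only [dh1, l1, dh2, Matrix.sub_apply, ← Fintype.sum_prod_type']
  refine (sq_sum_le_card_mul_sum_sq (s := Finset.univ)
    (f := fun p : Fin k × Fin k => |c.h y p.1 p.2 - c.H x p.1 p.2|)).trans_eq ?_
  simp [sq_abs, sq]

theorem ex_D_le : ex V c.D ≤ s * (2 * Λ * ((k : ℝ) ^ 2 * (2 / ε) ^ 2) + 1) := by
  have h := c.master_zero
  have h2 : 0 ≤ ex V c.N := c.hyp.pin.ex_nonneg c.N_nonneg
  have h3 : 0 ≤ ex V c.vh := c.hyp.pin.ex_nonneg c.vh_nonneg
  have td : Tame fun x => (c.del x).trace := Tame.sum _ fun i _ => c.tame_del i i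
  have h5 : 1 / (2 * Λ) * ex V (fun x => (c.del x).trace)
      ≤ ex V fun x => (c.H x * c.del x).trace := by
    rw [← ex_const_mul]
    exact c.hyp.pin.ex_mono (td.const_mul _) c.tame_trace_H_del fun x =>
      (c.sand_H x).trace_mul_ge (c.psd_del x)
  have hΛ := c.hΛ
  have hs := c.hs
  rw [one_div, inv_mul_le_iff₀ (by positivity)] at h5
  have h4 := mul_le_mul_of_nonneg_left c.Mh_le hs.le
  have h6 : ex V (fun x => (c.H x * c.del x).trace) ≤ s * ((k : ℝ) ^ 2 * (2 / ε) ^ 2) := by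
    nlinarith [mul_nonneg hs.le h2, mul_nonneg hs.le h3]
  have h7 := mul_le_mul_of_nonneg_left h6 (by positivity : (0 : ℝ) ≤ 2 * Λ)
  unfold D
  rw [c.hyp.pin.ex_add td (Tame.const _), c.hyp.pin.ex_const]
  linarith

theorem EE_η_sq_le (i : Fin k) : c.EE (fun x y => c.η x y i ^ 2) ≤ s * Λ := by
  have h1 : c.EE (fun x y => c.η x y i ^ 2) ≤ ex V fun _ => s * Λ := by
    refine c.hyp.pin.ex_mono (c.tame_Ex ((c.tame2_η i).pow 2)) (Tame.const _) fun x => ?_
    simp only [sq]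
    rw [c.Ex_ηη]
    exact mul_le_mul_of_nonneg_left
      ((le_abs_self _).trans ((c.sand_g x).abs_entry i i)) c.hs.le
  rwa [c.hyp.pin.ex_const] at h1

theorem EE_η_four_le (i : Fin k) : c.EE (fun x y => c.η x y i ^ 4) ≤ 96 * (s * Λ) ^ 2 := (c.hyp.pin.ex_mono (c.tame_Ex ((c.tame2_η i).pow 4)) (Tame.const _)
    fun x => c.Ex_η_four_le x i).trans_eq (c.hyp.pin.ex_const _)

theorem EE_dW_four_le (i : Fin k) :
    c.EE (fun x y => c.dW y x i ^ 4)
      ≤ 8 * (ex V (fun x => fderiv ℝ V x (bv i) ^ 4) + 96 * Λ ^ 2) / s ^ 2 := by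
  have hs := c.hs
  have tV : Tame fun x => fderiv ℝ V x (bv i) ^ 4 := (c.hyp.pin.tame_fderiv_apply _).pow 4
  have tb : Tame2 fun x y => 8 * fderiv ℝ V x (bv i) ^ 4 + 8 / s ^ 4 * c.η x y i ^ 4 :=
    (tV.const_mul 8).tame2_left.add ((Tame2.const _).mul ((c.tame2_η i).pow 4))
  refine (c.EE_mono ((c.tame2_dW i).pow 4) tb fun x y => ?_).trans ?_
  · rw [c.dW_eq]
    set u := fderiv ℝ V x (bv i)
    set v := s⁻¹ * c.η x y i
    have e : 8 / s ^ 4 * c.η x y i ^ 4 = 8 * v ^ 4 := by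
      simp only [v, mul_pow, inv_pow]
      ring
    rw [e]
    nlinarith [sq_nonneg (u + v), sq_nonneg (u - v), mul_nonneg (sq_nonneg (u + v)) (sq_nonneg (u - v)),
      sq_nonneg (u ^ 2 - v ^ 2), sq_nonneg ((u + v) ^ 2), sq_nonneg (u * v)]
  rw [c.EE_add (tV.const_mul 8).tame2_left ((Tame2.const _).mul ((c.tame2_η i).pow 4)),
    c.EE_left (tV.const_mul 8), c.EE_const_mul, ex_const_mul]
  have h2 := mul_le_mul_of_nonneg_left (c.EE_η_four_le i) (by positivity : (0 : ℝ) ≤ 8 / s ^ 4)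
  have h3 : 0 ≤ ex V fun x => fderiv ℝ V x (bv i) ^ 4 :=
    c.hyp.pin.ex_nonneg fun x => by positivity
  have h4 : 8 / s ^ 4 * (96 * (s * Λ) ^ 2) = 8 * (96 * Λ ^ 2) / s ^ 2 := by field_simp
  have h5 : s ^ 2 ≤ 1 := pow_le_one₀ hs.le c.hs1
  have h6 : 8 * ex V (fun x => fderiv ℝ V x (bv i) ^ 4)
      ≤ 8 * ex V (fun x => fderiv ℝ V x (bv i) ^ 4) / s ^ 2 :=
    le_div_self (by positivity) (by positivity) h5
  rw [mul_add, add_div]
  linarith

/-- The basic inequality with all gains. -/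
theorem master {C : Ten k} (hC : Symm3 C) :
    (1 + s) * ex V (c.J0 C)
      - 1 / 4 * ex V (fun x => cPhi (c.G x) (c.G x) (c.H x) (cX (c.H x) C) (cX (c.H x) C))
      - (1 + s) / (4 * s) * c.EE (c.QY C) + ex V c.N + c.EE (c.Jx C) - s / 4 * c.EE (c.QX C)
      - 1 / 4 * ex c.soft.ψ
          (fun y => cPhi (c.h y) (c.h y) (c.h y) (cX (c.h y) C) (cX (c.h y) C))
      ≤ k / (1 + s) ^ 2 := by
  have hx := c.x_total hC
  have hg := c.gap
  have hy : s * (1 + s) * ex V (c.J0 C)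
      - s / 4 * ex V (fun x => cPhi (c.G x) (c.G x) (c.H x) (cX (c.H x) C) (cX (c.H x) C))
      - (1 + s) / 4 * c.EE (c.QY C) ≤ ex V fun x => (c.H x * c.del x).trace := by
    have t1 : Tame fun x => cPhi (c.G x) (c.G x) (c.H x) (cX (c.H x) C) (cX (c.H x) C) :=
      tame_cPhi c.tame_G c.tame_G c.tame_H (c.tame_cX_H C) (c.tame_cX_H C)
    have t2 : Tame fun x => c.Ex x (c.QY C x) := c.tame_Ex (c.tame2_QY C)
    have := c.hyp.pin.ex_mono ((((c.tame_J0 C).const_mul (s * (1 + s))).sub (t1.const_mul (s / 4))).sub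
      (t2.const_mul ((1 + s) / 4))) c.tame_trace_H_del fun x => c.y_sum x hC
    rwa [c.hyp.pin.ex_sub (((c.tame_J0 C).const_mul _).sub (t1.const_mul _)) (t2.const_mul _),
      c.hyp.pin.ex_sub ((c.tame_J0 C).const_mul _) (t1.const_mul _), ex_const_mul, ex_const_mul,
      ex_const_mul] at this
  rw [c.ex_trace_HΓ] at hx
  have hs := c.hs
  refine le_of_mul_le_mul_left ?_ hs
  have e : s * ((1 + s) / (4 * s) * c.EE (c.QY C)) = (1 + s) / 4 * c.EE (c.QY C) := by
    field_simp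
  linarith

end Ctx

end Vale.P254.Skew
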