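import Vale.Agent.P254.Skew.Facts

/-! # The inequality for the law of `x` given `y` -/

namespace Vale.P254.Skew

open MeasureTheory Filter Topology Matrix
open scoped RealInnerProductSpace

variable {k : ℕ} {V : E k → ℝ} {B : E k →L[ℝ] E k →L[ℝ] ℝ} {ε Λ s : ℝ}

namespace Ctx

variable (c : Ctx V B ε Λ s)

/-- The Hessian of the potential of `x` given `y`. -/
noncomputable def xW (y x : E k) : Mat k := Hs (Skew.tilt c.W0 (s⁻¹ • y)) x

/-- The transpose action on the centred point. -/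
noncomputable def xz (M : Mat k) (y x : E k) (j : Fin k) : ℝ := ∑ a, M a j * c.ξ y x a

/-- The bilinear test. -/
noncomputable def xq (M : Mat k) (y x : E k) : ℝ := ∑ j, c.xz M y x j * c.dW y x j

/-- The linear test. -/
noncomputable def xl (e : Fin k → ℝ) (y x : E k) : ℝ := ∑ a, e a * c.ξ y x a

/-- The cross term. -/
noncomputable def Jx (C : Ten k) (x y : E k) : ℝ :=
  ∑ i, ∑ a, ∑ p, ∑ l, ∑ b,
    c.Γ x i a * cX (c.h y) C a p l * c.h y p b * c.h y l i * c.dW y x b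

/-- The same term with `H` in place of `Γ`. -/
noncomputable def JH (C : Ten k) (x y : E k) : ℝ :=
  ∑ i, ∑ a, ∑ p, ∑ l, ∑ b,
    c.H x i a * cX (c.h y) C a p l * c.h y p b * c.h y l i * c.dW y x b

/-- The quadratic term. -/
noncomputable def QX (C : Ten k) (x y : E k) : ℝ :=
  cPhi (c.Γ x) (sq1 (c.h y *ᵥ c.dW y x)) (c.h y) (cX (c.h y) C) (cX (c.h y) C)

/-! ### The point inequality -/

theorem xW_apply (y x : E k) (i j : Fin k) :
    c.xW y x i j = D2 (Skew.tilt c.W0 (s⁻¹ • y)) x (bv i) (bv j) := rfl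

theorem xW_symm (y x : E k) : (c.xW y x)ᵀ = c.xW y x := ((c.pinW' y).sand c.hbW x).symm

theorem hasFDerivAt_coord (a : Fin k) (x : E k) :
    HasFDerivAt (fun z : E k => z a) (innerSL ℝ (bv a)) x := by
  simpa using (innerSL ℝ (bv a) : E k →L[ℝ] ℝ).hasFDerivAt (x := x)

theorem fderiv_ξ (y x : E k) (a : Fin k) :
    HasFDerivAt (fun z => c.ξ y z a) (innerSL ℝ (bv a)) x :=
  (hasFDerivAt_coord a x).sub_const _

theorem fderiv_dW (y x : E k) (l : Fin k) (v : Fin k → ℝ) :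
    fderiv ℝ (fun z => c.dW y z l) x (pt v) = (c.xW y x *ᵥ v) l := by
  rw [show (fun z => c.dW y z l) = fun z => fderiv ℝ (Skew.tilt c.W0 (s⁻¹ • y)) z (bv l) from rfl,
    (c.pinW' y).fderiv_fderiv_apply]
  have hsy := c.xW_symm y x
  simp only [D2, pt, map_sum, map_smul, ContinuousLinearMap.coe_sum', Finset.sum_apply,
    ContinuousLinearMap.smul_apply, smul_eq_mul, Matrix.mulVec, dotProduct]
  refine Finset.sum_congr rfl fun i _ => ?_
  rw [mul_comm (c.xW y x l i), show c.xW y x l i = c.xW y x i l from (congrFun₂ hsy l i).symm]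
  rfl

theorem contDiff_ξ (y : E k) (a : Fin k) : ContDiff ℝ 1 fun x => c.ξ y x a := by
  unfold ξ
  have : ContDiff ℝ 1 fun z : E k => z a := by
    simpa using (innerSL ℝ (bv a) : E k →L[ℝ] ℝ).contDiff (n := 1)
  exact this.sub contDiff_const

theorem tame_ξ (y : E k) (a : Fin k) : Tame fun x => c.ξ y x a :=
  (tame_coord a).sub (Tame.const _)

theorem contDiff_dW (y : E k) (l : Fin k) : ContDiff ℝ 1 fun x => c.dW y x l :=
  (c.pinW' y).contDiff_fderiv_apply _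

theorem tame_dW (y : E k) (l : Fin k) : Tame fun x => c.dW y x l :=
  (c.pinW' y).tame_fderiv_apply _

theorem tame_xW (y : E k) (i j : Fin k) : Tame fun x => c.xW y x i j :=
  (c.pinW' y).tame_D2 _ _

theorem contDiff_xl (e : Fin k → ℝ) (y : E k) : ContDiff ℝ 1 (c.xl e y) :=
  ContDiff.sum fun a _ => contDiff_const.mul (c.contDiff_ξ y a)

theorem tame_xl (e : Fin k → ℝ) (y : E k) : Tame (c.xl e y) :=
  Tame.sum _ fun a _ => (c.tame_ξ y a).const_mul _

theorem contDiff_xz (M : Mat k) (y : E k) (j : Fin k) : ContDiff ℝ 1 fun x => c.xz M y x j :=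
  c.contDiff_xl (fun a => M a j) y

theorem tame_xz (M : Mat k) (y : E k) (j : Fin k) : Tame fun x => c.xz M y x j :=
  c.tame_xl (fun a => M a j) y

theorem contDiff_xq (M : Mat k) (y : E k) : ContDiff ℝ 1 (c.xq M y) :=
  ContDiff.sum fun j _ => (c.contDiff_xz M y j).mul (c.contDiff_dW y j)

theorem tame_xq (M : Mat k) (y : E k) : Tame (c.xq M y) :=
  Tame.sum _ fun j _ => (c.tame_xz M y j).mul (c.tame_dW y j)

theorem tame_mulVec_dW (M : Mat k) (y : E k) (i : Fin k) :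
    Tame fun x => (M *ᵥ c.dW y x) i := by
  simp only [Matrix.mulVec, dotProduct]
  exact Tame.sum _ fun j _ => (c.tame_dW y j).const_mul _

theorem tame_quad {A : E k → Mat k} {u : E k → Fin k → ℝ}
    (hA : ∀ i j, Tame fun x => A x i j) (hu : ∀ i, Tame fun x => u x i) :
    Tame fun x => u x ⬝ᵥ A x *ᵥ u x := by
  simp only [Matrix.mulVec, dotProduct]
  exact Tame.sum _ fun i _ => (hu i).mul (Tame.sum _ fun j _ => (hA i j).mul (hu j))

theorem fderiv_xl (e : Fin k → ℝ) (y x : E k) (v : Fin k → ℝ) :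
    fderiv ℝ (c.xl e y) x (pt v) = e ⬝ᵥ v := by
  rw [show c.xl e y = fun z => ∑ a, e a * c.ξ y z a from rfl,
    (HasFDerivAt.fun_sum fun a _ => (c.fderiv_ξ y x a).const_mul (e a)).fderiv]
  simp [dotProduct]

theorem fderiv_xq (M : Mat k) (y x : E k) (v : Fin k → ℝ) :
    fderiv ℝ (c.xq M y) x (pt v)
      = (M *ᵥ c.dW y x) ⬝ᵥ v + c.xz M y x ⬝ᵥ c.xW y x *ᵥ v := by
  have hd : ∀ l, DifferentiableAt ℝ (fun z => c.dW y z l) x := fun l =>
    (c.contDiff_dW y l).differentiable one_ne_zero x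
  rw [show c.xq M y = fun z => ∑ j, (∑ a, M a j * c.ξ y z a) * c.dW y z j from rfl,
    (HasFDerivAt.fun_sum fun j _ =>
      (HasFDerivAt.fun_sum fun a _ => (c.fderiv_ξ y x a).const_mul (M a j)).fun_mul
        (hd j).hasFDerivAt).fderiv]
  simp only [ContinuousLinearMap.coe_sum', Finset.sum_apply, ContinuousLinearMap.add_apply,
    ContinuousLinearMap.smul_apply, smul_eq_mul, c.fderiv_dW, innerSL_apply_apply, bv_inner,
    pt_apply, Finset.sum_add_distrib]
  rw [add_comm]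
  refine congrArg₂ (· + ·) ?_ rfl
  simp only [dotProduct, Matrix.mulVec, Finset.sum_mul, Finset.mul_sum]
  rw [Finset.sum_comm]
  exact Finset.sum_congr rfl fun _ _ => Finset.sum_congr rfl fun _ _ => by ring

theorem Ey_add (y : E k) {f g : E k → ℝ} (hf : Tame f) (hg : Tame g) :
    c.Ey y (fun x => f x + g x) = c.Ey y f + c.Ey y g := (c.pinW' y).ex_add hf hg

theorem Ey_sum {ι : Type*} [Fintype ι] (y : E k) {f : ι → E k → ℝ} (hf : ∀ i, Tame (f i)) :
    c.Ey y (fun x => ∑ i, f i x) = ∑ i, c.Ey y (f i) :=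
  (c.pinW' y).ex_sum _ fun i _ => hf i

theorem Ey_const_mul (y : E k) (r : ℝ) (f : E k → ℝ) :
    c.Ey y (fun x => r * f x) = r * c.Ey y f := ex_const_mul r f

theorem Ey_xz (M : Mat k) (y : E k) (j : Fin k) : c.Ey y (fun x => c.xz M y x j) = 0 := by
  simp only [xz]
  rw [c.Ey_sum y fun a => (c.tame_ξ y a).const_mul _]
  simp [c.Ey_const_mul, c.Ey_ξ]

theorem Ey_xl (e : Fin k → ℝ) (y : E k) : c.Ey y (c.xl e y) = 0 := by
  rw [show c.xl e y = fun x => ∑ a, e a * c.ξ y x a from rfl,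
    c.Ey_sum y fun a => (c.tame_ξ y a).const_mul _]
  simp [c.Ey_const_mul, c.Ey_ξ]

theorem Ey_xz_dW (M : Mat k) (y : E k) (j l : Fin k) :
    c.Ey y (fun x => c.xz M y x j * c.dW y x l) = M l j := by
  simp only [xz, Finset.sum_mul, mul_assoc]
  rw [c.Ey_sum y fun a => ((c.tame_ξ y a).mul (c.tame_dW y l)).const_mul _]
  simp [c.Ey_const_mul, c.Ey_ξ_dW]

theorem Ey_xl_xl (e : Fin k → ℝ) (y : E k) :
    c.Ey y (fun x => c.xl e y x * c.xl e y x) = s * (e ⬝ᵥ c.h y *ᵥ e) := by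
  simp only [xl, Finset.sum_mul_sum]
  rw [c.Ey_sum y fun a => Tame.sum _ fun b _ =>
    ((c.tame_ξ y a).const_mul _).mul ((c.tame_ξ y b).const_mul _)]
  simp only [dotProduct, Matrix.mulVec, Finset.mul_sum]
  refine Finset.sum_congr rfl fun a _ => ?_
  rw [c.Ey_sum y fun b => ((c.tame_ξ y a).const_mul _).mul ((c.tame_ξ y b).const_mul _)]
  refine Finset.sum_congr rfl fun b _ => ?_
  simp_rw [mul_mul_mul_comm (e a), c.Ey_const_mul, c.Ey_ξξ]
  ring

/-- Integration by parts against the bilinear test. -/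
theorem Ey_mul_xq (M : Mat k) (y : E k) {F : E k → ℝ} (hF : ContDiff ℝ 1 F) (hFt : Tame F)
    (hFd : ∀ j, Tame fun x => fderiv ℝ F x (bv j)) :
    c.Ey y (fun x => F x * c.xq M y x)
      = (∑ j, c.Ey y fun x => fderiv ℝ F x (bv j) * c.xz M y x j) + M.trace * c.Ey y F := by
  simp only [xq, Finset.mul_sum]
  rw [c.Ey_sum y fun j => hFt.mul ((c.tame_xz M y j).mul (c.tame_dW y j)), Matrix.trace,
    Finset.sum_mul, ← Finset.sum_add_distrib]
  refine Finset.sum_congr rfl fun j _ => ?_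
  have hd : ∀ x, fderiv ℝ (fun z => F z * c.xz M y z j) x (bv j)
      = fderiv ℝ F x (bv j) * c.xz M y x j + M j j * F x := fun x => by
    simp only [xz]
    rw [((hF.differentiable one_ne_zero x).hasFDerivAt.fun_mul
      (HasFDerivAt.fun_sum fun a _ => (c.fderiv_ξ y x a).const_mul (M a j))).fderiv]
    simp only [ContinuousLinearMap.add_apply, ContinuousLinearMap.smul_apply, smul_eq_mul,
      ContinuousLinearMap.coe_sum', Finset.sum_apply, innerSL_apply_apply, bv_inner]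
    rw [show ∑ a, M a j * (bv j : E k) a = M j j by simp [bv, Pi.single_apply]]
    ring
  have ht : Tame fun x => fderiv ℝ (fun z => F z * c.xz M y z j) x (bv j) := by
    simp only [hd]
    exact ((hFd j).mul (c.tame_xz M y j)).add (hFt.const_mul _)
  have := c.ibp_W y (hF.mul (c.contDiff_xz M y j)) (hFt.mul (c.tame_xz M y j)) j ht
  simp only [hd] at this
  rw [c.Ey_add y ((hFd j).mul (c.tame_xz M y j)) (hFt.const_mul _), c.Ey_const_mul] at this
  simpa [mul_assoc] using this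

theorem Ey_xq (M : Mat k) (y : E k) : c.Ey y (c.xq M y) = M.trace := by
  have := c.Ey_mul_xq M y (F := fun _ => (1 : ℝ)) contDiff_const (Tame.const _)
    fun j => by simpa using Tame.const (k := k) (0 : ℝ)
  have h1 : c.Ey y (fun _ => (1 : ℝ)) = 1 := (c.pinW' y).ex_const 1
  have h0 : c.Ey y (fun _ => (0 : ℝ)) = 0 := (c.pinW' y).ex_const 0
  simpa [h1, h0] using this

theorem Ey_xl_xq (e : Fin k → ℝ) (M : Mat k) (y : E k) :
    c.Ey y (fun x => c.xl e y x * c.xq M y x) = 0 := by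
  have hd : ∀ x j, fderiv ℝ (c.xl e y) x (bv j) = e j := fun x j => by
    have := c.fderiv_xl e y x (Pi.single j 1)
    simpa [pt, bv, Pi.single_apply, dotProduct] using this
  rw [c.Ey_mul_xq M y (c.contDiff_xl e y) (c.tame_xl e y)
    fun j => by simpa [hd] using Tame.const (k := k) (e j), c.Ey_xl]
  simp [hd, c.Ey_const_mul, c.Ey_xz]

theorem Ey_xq_xq (M : Mat k) (y : E k) :
    c.Ey y (fun x => c.xq M y x * c.xq M y x) = (M * M).trace
      + c.Ey y (fun x => c.xz M y x ⬝ᵥ c.xW y x *ᵥ c.xz M y x) + M.trace ^ 2 := by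
  have hbv : ∀ j, (bv j : E k) = pt (Pi.single j 1) := fun j => by
    ext i
    simp [bv, Pi.single_apply]
  have hd : ∀ x j, fderiv ℝ (c.xq M y) x (bv j)
      = (M *ᵥ c.dW y x) j + ∑ l, c.xz M y x l * c.xW y x l j := fun x j => by
    rw [hbv j, c.fderiv_xq]
    simp [dotProduct, Matrix.mulVec, Pi.single_apply]
  have t1 : ∀ j, Tame fun x => (M *ᵥ c.dW y x) j * c.xz M y x j := fun j =>
    (c.tame_mulVec_dW M y j).mul (c.tame_xz M y j)
  have t2 : ∀ j, Tame fun x => (∑ l, c.xz M y x l * c.xW y x l j) * c.xz M y x j := fun j =>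
    (Tame.sum _ fun l _ => (c.tame_xz M y l).mul (c.tame_xW y l j)).mul (c.tame_xz M y j)
  rw [c.Ey_mul_xq M y (c.contDiff_xq M y) (c.tame_xq M y) fun j => by
    simp only [hd]
    exact (c.tame_mulVec_dW M y j).add
      (Tame.sum _ fun l _ => (c.tame_xz M y l).mul (c.tame_xW y l j)), c.Ey_xq, ← sq]
  simp only [hd, add_mul, c.Ey_add y (t1 _) (t2 _), Finset.sum_add_distrib]
  congr 2
  · simp only [Matrix.trace, Matrix.diag, Matrix.mul_apply]
    refine Finset.sum_congr rfl fun j _ => ?_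
    simp only [Matrix.mulVec, dotProduct, Finset.sum_mul]
    rw [c.Ey_sum y fun l => ((c.tame_dW y l).const_mul _).mul (c.tame_xz M y j)]
    refine Finset.sum_congr rfl fun l _ => ?_
    simp_rw [mul_assoc, mul_comm (c.dW y _ l), c.Ey_const_mul, c.Ey_xz_dW]
  · rw [← c.Ey_sum y t2]
    refine congrArg _ (funext fun x => ?_)
    simp only [dotProduct, Matrix.mulVec, Finset.sum_mul, Finset.mul_sum]
    rw [Finset.sum_comm]
    exact Finset.sum_congr rfl fun _ _ => Finset.sum_congr rfl fun _ _ => by ring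

/-- Brascamp-Lieb with the test `e·ξ + s ξᵀ M ∇W`: with `u = e + s M ∇W` and `z = Mᵀξ` the majorant is
`s uᵀΓu + 2 s u·z + s² W''(z, z)`, and integration by parts removes all the other terms. -/
theorem x_point (y : E k) (e : Fin k → ℝ) (M : Mat k) :
    e ⬝ᵥ c.h y *ᵥ e
      ≤ c.Ey y (fun x => (e + s • (M *ᵥ c.dW y x)) ⬝ᵥ c.Γ x *ᵥ (e + s • (M *ᵥ c.dW y x)))
        + s * (M * M).trace := by
  have hp := c.pinW' y
  have hs := c.hs
  let u : E k → Fin k → ℝ := fun x => e + s • (M *ᵥ c.dW y x)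
  let f : E k → ℝ := fun x => c.xl e y x + s * c.xq M y x
  let Q : E k → ℝ := fun x => u x ⬝ᵥ c.Γ x *ᵥ u x
  let R : E k → ℝ := fun x => u x ⬝ᵥ c.xz M y x
  let P : E k → ℝ := fun x => c.xz M y x ⬝ᵥ c.xW y x *ᵥ c.xz M y x
  let G : E k → ℝ := fun x => s * Q x + (2 * s * R x + s ^ 2 * P x)
  have hf : ContDiff ℝ 1 f := (c.contDiff_xl e y).add (contDiff_const.mul (c.contDiff_xq M y))
  have tl := c.tame_xl e y
  have tq := c.tame_xq M y
  have hft : Tame f := tl.add (tq.const_mul s)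
  have tu : ∀ i, Tame fun x => u x i := fun i =>
    (Tame.const (e i)).add ((c.tame_mulVec_dW M y i).const_mul s)
  have tQ : Tame Q := tame_quad c.tame_Γ tu
  have tR : Tame R := Tame.sum _ fun i _ => (tu i).mul (c.tame_xz M y i)
  have tP : Tame P := tame_quad (c.tame_xW y) (c.tame_xz M y)
  have tG : Tame G := (tQ.const_mul s).add ((tR.const_mul _).add (tP.const_mul _))
  have hG : ∀ x w, 0 ≤ G x + 2 * fderiv ℝ f x w + D2 (Skew.tilt c.W0 (s⁻¹ • y)) x w w := by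
    intro x w
    obtain ⟨v, rfl⟩ : ∃ v, w = pt v := ⟨fun i => w i, by ext i; simp⟩
    have hfd : fderiv ℝ f x (pt v) = u x ⬝ᵥ v + s * (c.xz M y x ⬝ᵥ c.xW y x *ᵥ v) := by
      rw [show f = fun x => c.xl e y x + s * c.xq M y x from rfl,
        (((c.contDiff_xl e y).differentiable one_ne_zero x).hasFDerivAt.fun_add
          (((c.contDiff_xq M y).differentiable one_ne_zero x).hasFDerivAt.const_mul s)).fderiv]
      simp [c.fderiv_xl, c.fderiv_xq, u, add_dotProduct, smul_dotProduct]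
      ring
    rw [D2_pt, hfd, show Hs (Skew.tilt c.W0 (s⁻¹ • y)) x = c.xW y x from rfl]
    have h1 := c.D2_W_ge y x (v + s • c.xz M y x)
    rw [D2_pt, show Hs (Skew.tilt c.W0 (s⁻¹ • y)) x = c.xW y x from rfl] at h1
    have h2 := (c.sand_gB x).completed_sq (s • u x) (v + s • c.xz M y x)
    rw [show (c.g x + s • Bm B)⁻¹ = c.Γ x from rfl] at h2
    set A := (v + s • c.xz M y x) ⬝ᵥ (c.g x + s • Bm B) *ᵥ (v + s • c.xz M y x)
    have e1 : (s • u x) ⬝ᵥ c.Γ x *ᵥ (s • u x) = s * (s * Q x) := by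
      simp only [Q, Matrix.mulVec_smul, smul_dotProduct, dotProduct_smul, smul_eq_mul]
    have e2 : (s • u x) ⬝ᵥ (v + s • c.xz M y x) = s * (u x ⬝ᵥ v) + s * (s * R x) := by
      simp only [R, smul_dotProduct, dotProduct_add, dotProduct_smul, smul_eq_mul]
    have e3 : (v + s • c.xz M y x) ⬝ᵥ c.xW y x *ᵥ (v + s • c.xz M y x)
        = v ⬝ᵥ c.xW y x *ᵥ v + 2 * s * (c.xz M y x ⬝ᵥ c.xW y x *ᵥ v) + s ^ 2 * P x := by
      have hsym : v ⬝ᵥ c.xW y x *ᵥ c.xz M y x = c.xz M y x ⬝ᵥ c.xW y x *ᵥ v := by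
        rw [Matrix.dotProduct_mulVec, ← Matrix.mulVec_transpose, c.xW_symm, dotProduct_comm]
      simp only [P, Matrix.mulVec_add, Matrix.mulVec_smul, smul_dotProduct, dotProduct_add,
        add_dotProduct, dotProduct_smul, smul_eq_mul, hsym]
      ring
    rw [e1, e2] at h2
    rw [e3] at h1
    have h3 : 0 ≤ s⁻¹ * (s * (s * Q x) + 2 * (s * (u x ⬝ᵥ v) + s * (s * R x)) + A) :=
      mul_nonneg (inv_nonneg.2 hs.le) h2
    have h4 : s⁻¹ * (s * (s * Q x) + 2 * (s * (u x ⬝ᵥ v) + s * (s * R x)) + A)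
        = s * Q x + 2 * (u x ⬝ᵥ v) + 2 * s * R x + s⁻¹ * A := by field_simp; ring
    simp only [G]
    linarith
  have key := hp.bl hf hft tG hG
  rw [show ex (Skew.tilt c.W0 (s⁻¹ • y)) (fun x => f x ^ 2) = c.Ey y fun x => f x ^ 2 from rfl,
    show ex (Skew.tilt c.W0 (s⁻¹ • y)) f = c.Ey y f from rfl,
    show ex (Skew.tilt c.W0 (s⁻¹ • y)) G = c.Ey y G from rfl] at key
  have eG : c.Ey y G = s * c.Ey y Q + (2 * s * c.Ey y R + s ^ 2 * c.Ey y P) := by
    simp only [G]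
    rw [c.Ey_add y (tQ.const_mul s) ((tR.const_mul _).add (tP.const_mul _)),
      c.Ey_add y (tR.const_mul _) (tP.const_mul _), c.Ey_const_mul, c.Ey_const_mul,
      c.Ey_const_mul]
  have ef : c.Ey y f = s * M.trace := by
    simp only [f]
    rw [c.Ey_add y tl (tq.const_mul s), c.Ey_const_mul, c.Ey_xl, c.Ey_xq, zero_add]
  have e2 : c.Ey y (fun x => f x ^ 2)
      = s * (e ⬝ᵥ c.h y *ᵥ e) + (2 * s * 0 + s ^ 2 * ((M * M).trace + c.Ey y P + M.trace ^ 2)) := by
    have : ∀ x, f x ^ 2 = c.xl e y x * c.xl e y x + (2 * s * (c.xl e y x * c.xq M y x)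
        + s ^ 2 * (c.xq M y x * c.xq M y x)) := fun x => by simp only [f]; ring
    simp only [this]
    rw [c.Ey_add y (tl.mul tl) (((tl.mul tq).const_mul _).add ((tq.mul tq).const_mul _)),
      c.Ey_add y ((tl.mul tq).const_mul _) ((tq.mul tq).const_mul _), c.Ey_const_mul,
      c.Ey_const_mul, c.Ey_xl_xl, c.Ey_xl_xq, c.Ey_xq_xq]
  have eR : c.Ey y R = s * (M * M).trace := by
    simp only [R, u, dotProduct, Pi.add_apply, Pi.smul_apply, smul_eq_mul]
    rw [c.Ey_sum y fun i => ((Tame.const (e i)).add ((c.tame_mulVec_dW M y i).const_mul s)).mul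
      (c.tame_xz M y i)]
    simp only [Matrix.trace, Matrix.diag, Matrix.mul_apply, Finset.mul_sum]
    refine Finset.sum_congr rfl fun i _ => ?_
    simp only [add_mul, mul_assoc]
    rw [c.Ey_add y ((c.tame_xz M y i).const_mul _)
      (((c.tame_mulVec_dW M y i).mul (c.tame_xz M y i)).const_mul _), c.Ey_const_mul,
      c.Ey_const_mul, c.Ey_xz, mul_zero, zero_add]
    simp only [Matrix.mulVec, dotProduct, Finset.sum_mul]
    rw [c.Ey_sum y fun l => ((c.tame_dW y l).const_mul _).mul (c.tame_xz M y i), Finset.mul_sum]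
    refine Finset.sum_congr rfl fun l _ => ?_
    simp_rw [mul_assoc, mul_comm (c.dW y _ l), c.Ey_const_mul, c.Ey_xz_dW]
  rw [ef, eG, eR, e2] at key
  change _ ≤ c.Ey y Q + _
  nlinarith

/-! ### The summed inequality -/

/-- The matrix of the test attached to a vector. -/
noncomputable def xM (h : Mat k) (X : Ten k) (u : Fin k → ℝ) : Mat k :=
  Matrix.of fun a b => -(1 / 2) * ∑ p, (∑ m, X a p m * u m) * h p b

theorem xM_mulVec (h : Mat k) (X : Ten k) (u w : Fin k → ℝ) (a : Fin k) :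
    (xM h X u *ᵥ w) a = -(1 / 2) * ∑ p, ∑ m, X a p m * u m * (h *ᵥ w) p := by
  simp only [xM, Matrix.mulVec, dotProduct, Matrix.of_apply, Finset.mul_sum, Finset.sum_mul]
  rw [Finset.sum_comm]
  refine Finset.sum_congr rfl fun p _ => ?_
  rw [Finset.sum_comm]
  exact Finset.sum_congr rfl fun _ _ => Finset.sum_congr rfl fun _ _ => by ring

theorem xM_cross (h : Mat k) {G : Mat k} {u : Fin k → Fin k → ℝ}
    (hu : ∀ i j, G i j = ∑ t, u t i * u t j) (Γ : Mat k) (X : Ten k) (w : Fin k → ℝ) :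
    ∑ t, u t ⬝ᵥ Γ *ᵥ (xM h X (u t) *ᵥ w)
      = -(1 / 2) * ∑ i, ∑ a, ∑ p, ∑ l, ∑ b, Γ i a * X a p l * h p b * G l i * w b := by
  simp only [xM, dotProduct, Matrix.mulVec, Matrix.of_apply, hu, Finset.mul_sum, Finset.sum_mul]
  simp only [← Fintype.sum_prod_type']
  exact Fintype.sum_equiv ⟨fun q => (q.2.1, q.2.2.1, q.2.2.2.2.1, q.2.2.2.2.2, q.2.2.2.1, q.1),
    fun q => (q.2.2.2.2.2, q.1, q.2.1, q.2.2.2.2.1, q.2.2.1, q.2.2.2.1),
    fun _ => rfl, fun _ => rfl⟩ _ _ fun _ => by dsimp; ring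

theorem xM_quad (h : Mat k) {G : Mat k} {u : Fin k → Fin k → ℝ}
    (hu : ∀ i j, G i j = ∑ t, u t i * u t j) (Γ : Mat k) (X : Ten k) (w : Fin k → ℝ) :
    ∑ t, (xM h X (u t) *ᵥ w) ⬝ᵥ Γ *ᵥ (xM h X (u t) *ᵥ w)
      = 1 / 4 * cPhi Γ (sq1 (h *ᵥ w)) G X X := by
  have e : ∀ (v : Fin k → ℝ) a, (Γ *ᵥ v) a = ∑ b, Γ a b * v b := fun _ _ => rfl
  simp only [dotProduct, e, xM_mulVec, cPhi, sq1, Matrix.of_apply, hu]
  generalize h *ᵥ w = v
  simp only [Finset.mul_sum, Finset.sum_mul]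
  simp only [← Fintype.sum_prod_type']
  exact Fintype.sum_equiv
    ⟨fun q => (q.2.1, q.2.2.2.2.2.1, q.2.2.2.2.2.2, q.2.2.1, q.2.2.2.1, q.2.2.2.2.1, q.1),
      fun r => (r.2.2.2.2.2.2, r.1, r.2.2.2.1, r.2.2.2.2.1, r.2.2.2.2.2.1, r.2.1, r.2.2.1),
      fun _ => rfl, fun _ => rfl⟩ _ _ fun _ => by dsimp; ring

theorem xM_trace (h : Mat k) {G : Mat k} {u : Fin k → Fin k → ℝ}
    (hu : ∀ i j, G i j = ∑ t, u t i * u t j) {X : Ten k} (hh : hᵀ = h) (hX : Symm3 X) :
    ∑ t, (xM h X (u t) * xM h X (u t)).trace = 1 / 4 * cPhi h h G X X := by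
  simp only [Matrix.trace, Matrix.diag, Matrix.mul_apply, xM, cPhi, Matrix.of_apply, hu,
    Finset.mul_sum, Finset.sum_mul]
  simp only [← Fintype.sum_prod_type']
  refine Fintype.sum_equiv
    ⟨fun q => (q.2.1, q.2.2.2.2.2.1, q.2.2.2.2.2.2, q.2.2.2.1, q.2.2.1, q.2.2.2.2.1, q.1),
      fun r => (r.2.2.2.2.2.2, r.1, r.2.2.2.2.1, r.2.2.2.1, r.2.2.2.2.2.1, r.2.1, r.2.2.1),
      fun _ => rfl, fun _ => rfl⟩ _ _ fun q => ?_
  dsimp
  have hs : h q.2.2.2.1 q.2.1 = h q.2.1 q.2.2.2.1 := congrFun₂ hh q.2.1 q.2.2.2.1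
  rw [(hX q.2.2.1 q.2.2.2.1 q.2.2.2.2.1).1, hs]
  ring

theorem tame2_J0 {Γ : E k → Mat k} (hΓ : ∀ i j, Tame fun x => Γ x i j) (C : Ten k) :
    Tame2 fun x y => ∑ i, ∑ a, ∑ p, ∑ l, ∑ b,
      Γ x i a * cX (c.h y) C a p l * c.h y p b * c.h y l i * c.dW y x b :=
  Tame2.sum _ fun i _ => Tame2.sum _ fun a _ => Tame2.sum _ fun p _ => Tame2.sum _ fun l _ =>
    Tame2.sum _ fun b _ => ((((hΓ i a).tame2_left.mul (c.tame_cX_h C a p l).tame2_right).mul
      (c.tame_h p b).tame2_right).mul (c.tame_h l i).tame2_right).mul (c.tame2_dW b)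

theorem tame2_Jx (C : Ten k) : Tame2 (c.Jx C) := c.tame2_J0 c.tame_Γ C

theorem tame2_JH (C : Ten k) : Tame2 (c.JH C) := c.tame2_J0 c.tame_H C

theorem tame2_QX (C : Ten k) : Tame2 (c.QX C) := by
  unfold QX cPhi sq1
  simp only [Matrix.of_apply, Matrix.mulVec, dotProduct]
  exact Tame2.sum _ fun a _ => Tame2.sum _ fun b _ => Tame2.sum _ fun d _ => Tame2.sum _ fun a' _ =>
    Tame2.sum _ fun b' _ => Tame2.sum _ fun d' _ =>
    (((((c.tame_cX_h C a b d).tame2_right).mul (c.tame_Γ a a').tame2_left).mul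
      ((Tame2.sum _ fun l _ => (c.tame_h b l).tame2_right.mul (c.tame2_dW l)).mul
        (Tame2.sum _ fun l _ => (c.tame_h b' l).tame2_right.mul (c.tame2_dW l)))).mul
      (c.tame_h d d').tame2_right).mul (c.tame_cX_h C a' b' d').tame2_right

/-- Sum of `x_point` over `h = ∑ u uᵀ` with `e = u`, `M a b = -(1/2) * ∑ p, (∑ l, X a p l * u l) * h p b`. -/
theorem x_sum (y : E k) {C : Ten k} (hC : Symm3 C) :
    ∑ i, ∑ j, c.h y i j ^ 2
      ≤ c.Ey y (fun x => ∑ i, ∑ j, c.h y i j * c.Γ x i j) - s * c.Ey y (fun x => c.Jx C x y)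
        + s ^ 2 / 4 * c.Ey y (fun x => c.QX C x y)
        + s / 4 * cPhi (c.h y) (c.h y) (c.h y) (cX (c.h y) C) (cX (c.h y) C) := by
  have hs := c.sand_h y
  obtain ⟨u, hu⟩ := hs.psd.exists_decomp
  set h := c.h y with hh
  set X := cX h C
  have hΓ : ∀ x (v w : Fin k → ℝ), v ⬝ᵥ c.Γ x *ᵥ w = w ⬝ᵥ c.Γ x *ᵥ v := fun x v w => by
    rw [Matrix.dotProduct_mulVec, ← Matrix.mulVec_transpose, (c.sand_Γ x).symm, dotProduct_comm]
  let M : Fin k → Mat k := fun t => xM h X (u t)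
  let Q : Fin k → E k → ℝ := fun t x =>
    (u t + s • (M t *ᵥ c.dW y x)) ⬝ᵥ c.Γ x *ᵥ (u t + s • (M t *ᵥ c.dW y x))
  let A : E k → ℝ := fun x => ∑ i, ∑ j, h i j * c.Γ x i j
  let J : E k → ℝ := fun x => c.Jx C x y
  let P : E k → ℝ := fun x => c.QX C x y
  have tQ : ∀ t, Tame (Q t) := fun t => tame_quad c.tame_Γ fun i =>
    (Tame.const (u t i)).add ((c.tame_mulVec_dW (M t) y i).const_mul s)
  have tA : Tame A := Tame.sum _ fun i _ => Tame.sum _ fun j _ => (c.tame_Γ i j).const_mul _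
  have tJ : Tame J := (c.tame2_Jx C).swap.section_right y
  have tP : Tame P := (c.tame2_QX C).swap.section_right y
  have hQ : ∀ x, ∑ t, Q t x = A x + (-s * J x + s ^ 2 / 4 * P x) := fun x => by
    have e1 : ∑ t, u t ⬝ᵥ c.Γ x *ᵥ u t = A x := by
      simp only [A, dotProduct, Matrix.mulVec, hu, Finset.mul_sum, Finset.sum_mul]
      rw [Finset.sum_comm]
      refine Finset.sum_congr rfl fun i _ => ?_
      rw [Finset.sum_comm]
      exact Finset.sum_congr rfl fun _ _ => Finset.sum_congr rfl fun _ _ => by ring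
    have e2 : ∑ t, u t ⬝ᵥ c.Γ x *ᵥ (M t *ᵥ c.dW y x) = -(1 / 2) * J x := by
      simp only [J, Jx, ← hh]
      exact xM_cross h hu (c.Γ x) X (c.dW y x)
    have e3 : ∑ t, (M t *ᵥ c.dW y x) ⬝ᵥ c.Γ x *ᵥ (M t *ᵥ c.dW y x) = 1 / 4 * P x :=
      xM_quad h hu (c.Γ x) X (c.dW y x)
    have e : ∀ t, Q t x = u t ⬝ᵥ c.Γ x *ᵥ u t
        + (2 * s * (u t ⬝ᵥ c.Γ x *ᵥ (M t *ᵥ c.dW y x))
          + s ^ 2 * ((M t *ᵥ c.dW y x) ⬝ᵥ c.Γ x *ᵥ (M t *ᵥ c.dW y x))) := fun t => by
      simp only [Q, Matrix.mulVec_add, Matrix.mulVec_smul, dotProduct_add, add_dotProduct,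
        smul_dotProduct, dotProduct_smul, smul_eq_mul, hΓ x (M t *ᵥ c.dW y x) (u t)]
      ring
    simp only [e, Finset.sum_add_distrib, ← Finset.mul_sum, e1, e2, e3]
    ring
  have hsum := Finset.sum_le_sum fun t (_ : t ∈ Finset.univ) => c.x_point y (u t) (M t)
  rw [Finset.sum_add_distrib, ← Finset.mul_sum, xM_trace h hu hs.symm (hs.symm3_cX hC),
    ← c.Ey_sum y tQ, show (fun x => ∑ t, Q t x) = _ from funext hQ,
    c.Ey_add y tA ((tJ.const_mul _).add (tP.const_mul _)),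
    c.Ey_add y (tJ.const_mul _) (tP.const_mul _), c.Ey_const_mul, c.Ey_const_mul] at hsum
  have e0 : ∑ t, u t ⬝ᵥ h *ᵥ u t = ∑ i, ∑ j, h i j ^ 2 := by
    simp only [dotProduct, Matrix.mulVec, Finset.mul_sum]
    rw [Finset.sum_comm]
    refine Finset.sum_congr rfl fun i _ => ?_
    rw [Finset.sum_comm]
    refine Finset.sum_congr rfl fun j _ => ?_
    rw [sq]
    conv_rhs => rw [hu i j, Finset.sum_mul]
    exact Finset.sum_congr rfl fun t _ => by rw [← hu]; ring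
  rw [← hh, e0] at hsum
  simp only [A, J, P] at hsum
  linarith

/-- `x_sum` integrated; the first term on the right is `E tr (H Γ)` by conditioning on `x`. -/
theorem x_total {C : Ten k} (hC : Symm3 C) :
    c.Mh ≤ ex V (fun x => (c.H x * c.Γ x).trace) - s * c.EE (c.Jx C) + s ^ 2 / 4 * c.EE (c.QX C)
      + s / 4 * ex c.soft.ψ
          (fun y => cPhi (c.h y) (c.h y) (c.h y) (cX (c.h y) C) (cX (c.h y) C)) := by
  have hV := c.hyp.pin
  have hψ := c.soft.pinψ
  let F : E k → E k → ℝ := fun x y => ∑ i, ∑ j, c.h y i j * c.Γ x i j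
  have tF : Tame2 F := Tame2.sum _ fun i _ => Tame2.sum _ fun j _ =>
    (c.tame_h i j).tame2_right.mul (c.tame_Γ i j).tame2_left
  have tJ := c.tame_Ey (c.tame2_Jx C)
  have tQ := c.tame_Ey (c.tame2_QX C)
  have tA := c.tame_Ey tF
  have tc : Tame fun y => cPhi (c.h y) (c.h y) (c.h y) (cX (c.h y) C) (cX (c.h y) C) := by
    simp only [cPhi]
    exact Tame.sum _ fun a _ => Tame.sum _ fun b _ => Tame.sum _ fun d _ => Tame.sum _ fun a' _ =>
      Tame.sum _ fun b' _ => Tame.sum _ fun d' _ => ((((c.tame_cX_h C a b d).mul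
        (c.tame_h a a')).mul (c.tame_h b b')).mul (c.tame_h d d')).mul (c.tame_cX_h C a' b' d')
  have hM : c.Mh = ex c.soft.ψ fun y => ∑ i, ∑ j, c.h y i j ^ 2 := by
    rw [hψ.ex_sum _ fun i _ => Tame.sum _ fun j _ => (c.tame_h i j).pow 2]
    exact Finset.sum_congr rfl fun i _ => (hψ.ex_sum _ fun j _ => (c.tame_h i j).pow 2).symm
  have hA : c.EE F = ex V fun x => (c.H x * c.Γ x).trace := by
    change ex V (fun x => c.Ex x (F x)) = _
    refine congrArg (ex V) (funext fun x => ?_)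
    simp only [Matrix.trace, Matrix.diag, Matrix.mul_apply]
    change ex (Skew.tilt c.U0 (s⁻¹ • x)) (fun y => ∑ i, ∑ j, c.h y i j * c.Γ x i j) = _
    refine ((c.pinU' x).ex_sum (f := fun i y => ∑ j, c.h y i j * c.Γ x i j) Finset.univ
      fun i _ => Tame.sum _ fun j _ => (c.tame_h i j).mul (Tame.const _)).trans ?_
    refine Finset.sum_congr rfl fun i _ => ?_
    refine ((c.pinU' x).ex_sum (f := fun j y => c.h y i j * c.Γ x i j) Finset.univ
      fun j _ => (c.tame_h i j).mul (Tame.const _)).trans ?_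
    refine Finset.sum_congr rfl fun j _ => ?_
    rw [ex_mul_const, show c.Γ x j i = c.Γ x i j from congrFun₂ (c.sand_Γ x).symm i j]
    rfl
  rw [hM, ← hA, c.EE_Ey tF, c.EE_Ey (c.tame2_Jx C), c.EE_Ey (c.tame2_QX C),
    ← ex_const_mul s, ← ex_const_mul (s ^ 2 / 4), ← ex_const_mul (s / 4),
    ← hψ.ex_sub tA (tJ.const_mul _), ← hψ.ex_add (tA.sub (tJ.const_mul _)) (tQ.const_mul _),
    ← hψ.ex_add ((tA.sub (tJ.const_mul _)).add (tQ.const_mul _)) (tc.const_mul _)]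
  exact hψ.ex_mono (Tame.sum _ fun i _ => Tame.sum _ fun j _ => (c.tame_h i j).pow 2)
    (((tA.sub (tJ.const_mul _)).add (tQ.const_mul _)).add (tc.const_mul _)) fun y => c.x_sum y hC

/-- Integration by parts given `y`. -/
theorem x_ibp {C : Ten k} (hC : Symm3 C) :
    c.EE (c.JH C)
      = c.EE (fun x y => cPhi (c.h y) 1 (c.h y) (cX (c.h y) C) (c.dH x)) := by
  have tR : Tame2 fun x y => cPhi (c.h y) 1 (c.h y) (cX (c.h y) C) (c.dH x) := by
    simp only [cPhi]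
    exact Tame2.sum _ fun a _ => Tame2.sum _ fun b _ => Tame2.sum _ fun d _ => Tame2.sum _ fun a' _ =>
      Tame2.sum _ fun b' _ => Tame2.sum _ fun d' _ => (((((c.tame_cX_h C a b d).tame2_right).mul
        (c.tame_h a a').tame2_right).mul (Tame2.const _)).mul (c.tame_h d d').tame2_right).mul
        (c.tame_dH a' b' d').tame2_left
  rw [c.EE_Ey (c.tame2_JH C), c.EE_Ey tR]
  refine congrArg _ (funext fun y => ?_)
  set h := c.h y with hh
  set X := cX h C with hX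
  have hs := (c.sand_h y).symm
  have hXs : Symm3 X := (c.sand_h y).symm3_cX hC
  let T : Fin k → Fin k → Fin k → Fin k → Fin k → E k → ℝ := fun i a p l b x =>
    X a p l * h p b * h l i * (c.H x i a * c.dW y x b)
  let T' : Fin k → Fin k → Fin k → Fin k → Fin k → E k → ℝ := fun i a p l b x =>
    X a p l * h p b * h l i * c.dH x b i a
  have tT : ∀ i a p l b, Tame (T i a p l b) := fun i a p l b =>
    ((c.tame_H i a).mul (c.tame_dW y b)).const_mul _
  have tT' : ∀ i a p l b, Tame (T' i a p l b) := fun i a p l b => (c.tame_dH b i a).const_mul _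
  have e : ∀ i a p l b, c.Ey y (T i a p l b) = c.Ey y (T' i a p l b) := fun i a p l b => by
    simp only [T, T', c.Ey_const_mul]
    congr 1
    exact c.ibp_W y (c.contDiff_H i a) (c.tame_H i a) b (c.tame_dH b i a)
  have lhs : ∀ x, c.JH C x y = ∑ i, ∑ a, ∑ p, ∑ l, ∑ b, T i a p l b x := fun x => by
    simp only [JH, T, ← hh, ← hX]
    exact Finset.sum_congr rfl fun _ _ => Finset.sum_congr rfl fun _ _ => Finset.sum_congr rfl
      fun _ _ => Finset.sum_congr rfl fun _ _ => Finset.sum_congr rfl fun _ _ => by ring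
  have rhs : ∀ x, cPhi h 1 h X (c.dH x) = ∑ i, ∑ a, ∑ p, ∑ l, ∑ b, T' i a p l b x := fun x => by
    have hd : ∀ b i a, c.dH x b i a = c.dH x b a i := fun b i a => by
      simp only [dH]
      rw [show (fun z => c.H z i a) = fun z => c.H z a i from
        funext fun z => congrFun₂ (c.sand_H z).symm a i]
    simp only [T', cPhi, Matrix.one_apply, mul_ite, ite_mul, mul_one, mul_zero, zero_mul,
      Finset.sum_ite_irrel, Finset.sum_const_zero, Finset.sum_ite_eq, Finset.mem_univ, if_true]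
    simp only [← Fintype.sum_prod_type']
    refine Fintype.sum_equiv
      ⟨fun q => (q.2.2.2.2, q.2.1, q.1, q.2.2.1, q.2.2.2.1),
        fun r => (r.2.2.1, r.2.1, r.2.2.2.1, r.2.2.2.2, r.1),
        fun _ => rfl, fun _ => rfl⟩ _ _ fun q => ?_
    dsimp
    have hs' : h q.2.2.1 q.2.2.2.2 = h q.2.2.2.2 q.2.2.1 := (congrFun₂ hs q.2.2.1 q.2.2.2.2).symm
    rw [(hXs q.1 q.2.1 q.2.2.1).1, hd q.2.2.2.1 q.2.2.2.2 q.2.1, hs']
  simp only [lhs, rhs]
  simp only [c.Ey_sum y (f := fun i x => ∑ a, ∑ p, ∑ l, ∑ b, T i a p l b x) fun i =>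
      Tame.sum _ fun a _ => Tame.sum _ fun p _ => Tame.sum _ fun l _ => Tame.sum _ fun b _ => tT _ _ _ _ _,
    c.Ey_sum y (f := fun i x => ∑ a, ∑ p, ∑ l, ∑ b, T' i a p l b x) fun i =>
      Tame.sum _ fun a _ => Tame.sum _ fun p _ => Tame.sum _ fun l _ => Tame.sum _ fun b _ => tT' _ _ _ _ _]
  refine Finset.sum_congr rfl fun i _ => ?_
  rw [c.Ey_sum y fun a => Tame.sum _ fun p _ => Tame.sum _ fun l _ => Tame.sum _ fun b _ => tT _ _ _ _ _,
    c.Ey_sum y fun a => Tame.sum _ fun p _ => Tame.sum _ fun l _ => Tame.sum _ fun b _ => tT' _ _ _ _ _]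
  refine Finset.sum_congr rfl fun a _ => ?_
  rw [c.Ey_sum y fun p => Tame.sum _ fun l _ => Tame.sum _ fun b _ => tT _ _ _ _ _,
    c.Ey_sum y fun p => Tame.sum _ fun l _ => Tame.sum _ fun b _ => tT' _ _ _ _ _]
  refine Finset.sum_congr rfl fun p _ => ?_
  rw [c.Ey_sum y fun l => Tame.sum _ fun b _ => tT _ _ _ _ _,
    c.Ey_sum y fun l => Tame.sum _ fun b _ => tT' _ _ _ _ _]
  refine Finset.sum_congr rfl fun l _ => ?_
  rw [c.Ey_sum y fun b => tT _ _ _ _ _, c.Ey_sum y fun b => tT' _ _ _ _ _]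
  exact Finset.sum_congr rfl fun b _ => e _ _ _ _ _

end Ctx

end Vale.P254.Skew
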